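import Vale.Agent.P342.Basic

/-! Arc graphs. -/

namespace Vale.Agent.P342

open Vale.Agent.P325 Vale.Agent.Lib.PolyTime Finset Matrix Module
open scoped BigOperators

/-- The arc graph: vertices are positions of edges, joined when the first ends where the second
starts. -/
def arc (E : List (ℕ × ℕ)) : List (ℕ × ℕ) :=
  (List.range E.length).flatMap fun i =>
    ((List.range E.length).filter fun j => decide ((E.getD i (0, 0)).2 = (E.getD j (0, 0)).1)).map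
      fun j => (i, j)

theorem mem_arc {E : List (ℕ × ℕ)} {e : ℕ × ℕ} :
    e ∈ arc E ↔ e.1 < E.length ∧ e.2 < E.length ∧
      (E.getD e.1 (0, 0)).2 = (E.getD e.2 (0, 0)).1 := by
  obtain ⟨i, j⟩ := e
  simp only [arc, List.mem_flatMap, List.mem_map, List.mem_filter, List.mem_range,
    decide_eq_true_eq, Prod.mk.injEq]
  constructor
  · rintro ⟨a, ha, b, ⟨hb, h⟩, rfl, rfl⟩
    exact ⟨ha, hb, h⟩
  · rintro ⟨h1, h2, h3⟩
    exact ⟨i, h1, j, ⟨h2, h3⟩, rfl, rfl⟩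

theorem pt_arc : PT arc := by
  have h1 : PT fun E : List (ℕ × ℕ) => List.range E.length := pt_range_length PT.id
  refine PT.flatMap (f := fun (E : List (ℕ × ℕ)) (i : ℕ) =>
    ((List.range E.length).filter fun j =>
      decide ((E.getD i (0, 0)).2 = (E.getD j (0, 0)).1)).map fun j => (i, j)) ?_ h1
  refine PT.map (f := fun (p : List (ℕ × ℕ) × ℕ) (j : ℕ) => (p.2, j)) (by fun_prop) ?_
  refine PT.filter (p := fun (p : List (ℕ × ℕ) × ℕ) (j : ℕ) =>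
    decide ((p.1.getD p.2 (0, 0)).2 = (p.1.getD j (0, 0)).1)) (by fun_prop) ?_
  exact h1.comp (f := fun p : List (ℕ × ℕ) × ℕ => p.1) (by fun_prop)

theorem getD_mem {E : List (ℕ × ℕ)} {i : ℕ} (h : i < E.length) : E.getD i (0, 0) ∈ E := by
  rw [List.getD_eq_getElem _ _ h]
  exact List.getElem_mem h

theorem col_of_arc {E : List (ℕ × ℕ)} {c : ℕ} (h : Col (arc E) c) : Col E (2 ^ c) := by
  classical
  obtain ⟨χ, hχ⟩ := h
  let S : ℕ → Finset (Fin c) := fun v =>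
    univ.filter fun x => ∃ i, i < E.length ∧ (E.getD i (0, 0)).1 = v ∧ χ i = x
  have hc : Fintype.card (Finset (Fin c)) = 2 ^ c := by simp
  let ψ := Fintype.equivFinOfCardEq hc
  refine ⟨fun v => ψ (S v), fun e he h => ?_⟩
  obtain ⟨i, hi, rfl⟩ := List.getElem_of_mem he
  have h1 : S (E[i]).1 = S (E[i]).2 := ψ.injective h
  have h2 : E.getD i (0, 0) = E[i] := List.getD_eq_getElem _ _ hi
  have h3 : χ i ∈ S (E[i]).1 := mem_filter.2 ⟨mem_univ _, i, hi, by rw [h2], rfl⟩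
  rw [h1] at h3
  obtain ⟨j, hj, h4, h5⟩ := (mem_filter.1 h3).2
  exact hχ (i, j) (mem_arc.2 ⟨hi, hj, by rw [h2, h4]⟩) h5.symm

theorem arc_of_col {E : List (ℕ × ℕ)} {a n : ℕ} (t : Fin a → Fin a → Fin n)
    (ht : ∀ x y z, x ≠ y → y ≠ z → t x y ≠ t y z) (h : Col E a) : Col (arc E) n := by
  obtain ⟨χ, hχ⟩ := h
  refine ⟨fun i => t (χ (E.getD i (0, 0)).1) (χ (E.getD i (0, 0)).2), fun e he => ?_⟩
  obtain ⟨h1, h2, h3⟩ := mem_arc.1 he
  have h4 := hχ _ (getD_mem h1)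
  have h5 := hχ _ (getD_mem h2)
  simp only [← h3] at h5 ⊢
  exact ht _ _ _ h4 h5

theorem exists_table {a n k : ℕ} (hn : 0 < n) (h : a ≤ n.choose k) :
    ∃ t : Fin a → Fin a → Fin n, ∀ x y z, x ≠ y → y ≠ z → t x y ≠ t y z := by
  classical
  have hc : Fintype.card (Fin a) ≤
      Fintype.card (powersetCard k (univ : Finset (Fin n))) := by simpa using h
  obtain ⟨s⟩ := Function.Embedding.nonempty_of_card_le hc
  have key : ∀ x y : Fin a, ∃ w : Fin n, x ≠ y → w ∈ (s x).1 ∧ w ∉ (s y).1 := by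
    intro x y
    by_cases hxy : x = y
    · exact ⟨⟨0, hn⟩, fun h => absurd hxy h⟩
    · have h1 : ¬ (s x).1 ⊆ (s y).1 := fun hs => hxy (s.injective (Subtype.ext
        (eq_of_subset_of_card_le hs (by
          rw [(mem_powersetCard.1 (s x).2).2, (mem_powersetCard.1 (s y).2).2]))))
      obtain ⟨w, hw1, hw2⟩ := not_subset.1 h1
      exact ⟨w, fun _ => ⟨hw1, hw2⟩⟩
  choose t ht using key
  exact ⟨t, fun x y z h1 h2 h3 => (ht x y h1).2 (h3 ▸ (ht y z h2).1)⟩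

/-- A colouring of walks of length two in the complete graph on four vertices. -/
def tb (a b c : Fin 4) : Fin 3 :=
  ([0, 0, 0, 0, 0, 0, 0, 0, 0, 1, 0, 0, 0, 1, 1, 0, 0, 1, 2, 2, 0, 0, 0, 0, 1, 1, 0, 2, 1, 1, 1, 0,
    0, 2, 2, 2, 0, 0, 0, 0, 0, 0, 0, 0, 1, 1, 1, 0, 0, 2, 2, 2, 0, 0, 0, 0, 0, 2, 0, 0, 0, 0, 0,
    0] : List (Fin 3)).getD (16 * a.1 + 4 * b.1 + c.1) 0

theorem tb_ne : ∀ a b c d : Fin 4, a ≠ b → b ≠ c → c ≠ d → tb a b c ≠ tb b c d := by decide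

theorem arc_arc_of_col {E : List (ℕ × ℕ)} (h : Col E 4) : Col (arc (arc E)) 3 := by
  obtain ⟨χ, hχ⟩ := h
  refine ⟨fun p => tb (χ (E.getD ((arc E).getD p (0, 0)).1 (0, 0)).1)
    (χ (E.getD ((arc E).getD p (0, 0)).2 (0, 0)).1)
    (χ (E.getD ((arc E).getD p (0, 0)).2 (0, 0)).2), fun e he => ?_⟩
  obtain ⟨h1, h2, h3⟩ := mem_arc.1 he
  obtain ⟨a1, a2, a3⟩ := mem_arc.1 (getD_mem h1)
  obtain ⟨-, b2, b3⟩ := mem_arc.1 (getD_mem h2)
  have c1 := hχ _ (getD_mem a1)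
  have c2 := hχ _ (getD_mem a2)
  have c3 := hχ _ (getD_mem b2)
  simp only [← h3] at b3 ⊢
  simp only [← b3] at c3 ⊢
  rw [a3] at c1
  exact tb_ne _ _ _ _ c1 c2 c3

theorem arc_of (h : GapThm 16) : GapThm 3 := by
  intro c
  obtain ⟨f, hf, h⟩ := h (2 ^ 2 ^ 2 ^ 2 ^ c)
  obtain ⟨t1, ht1⟩ := exists_table (a := 16) (n := 6) (k := 3) (by norm_num) (by decide)
  obtain ⟨t2, ht2⟩ := exists_table (a := 6) (n := 4) (k := 2) (by norm_num) (by decide)
  refine ⟨fun φ => arc (arc (arc (arc (f φ)))),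
    pt_arc.comp (pt_arc.comp (pt_arc.comp (pt_arc.comp hf))), fun φ => ⟨fun hs => ?_, fun hs hc => ?_⟩⟩
  · exact arc_arc_of_col (arc_of_col t2 ht2 (arc_of_col t1 ht1 ((h φ).1 hs)))
  · exact (h φ).2 hs (col_of_arc (col_of_arc (col_of_arc (col_of_arc hc))))

end Vale.Agent.P342
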