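import Vale.Agent.P342.Defs

/-! Shared tools: indicators, Fourier analysis on matrices, boxes, embeddings. -/

set_option linter.unusedSectionVars false

namespace Vale.Agent.P342

open Vale.Agent.P325 Finset Matrix Module
open scoped BigOperators

/-! ### Indicators -/

theorem ind_of {p : Prop} (h : p) : ind p = 1 := by simp [ind, h]

theorem ind_of_not {p : Prop} (h : ¬ p) : ind p = 0 := by simp [ind, h]

@[simp] theorem ind_true : ind True = 1 := ind_of trivial

@[simp] theorem ind_false : ind False = 0 := ind_of_not id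

theorem ind_eq_ite (p : Prop) [Decidable p] : ind p = if p then 1 else 0 := by
  by_cases h : p <;> simp [ind, h]

theorem ind_nonneg (p : Prop) : 0 ≤ ind p := by by_cases h : p <;> simp [ind, h]

theorem ind_le_one (p : Prop) : ind p ≤ 1 := by by_cases h : p <;> simp [ind, h]

theorem abs_ind_le_one (p : Prop) : |ind p| ≤ 1 := by by_cases h : p <;> simp [ind, h]

theorem ind_mono {p q : Prop} (h : p → q) : ind p ≤ ind q := by
  by_cases hp : p
  · rw [ind_of hp, ind_of (h hp)]
  · rw [ind_of_not hp]; exact ind_nonneg q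

theorem ind_congr {p q : Prop} (h : p ↔ q) : ind p = ind q := by rw [propext h]

theorem ind_and (p q : Prop) : ind (p ∧ q) = ind p * ind q := by
  by_cases hp : p <;> by_cases hq : q <;> simp [ind, hp, hq]

theorem ind_not (p : Prop) : ind (¬ p) = 1 - ind p := by by_cases h : p <;> simp [ind, h]

theorem ind_sq (p : Prop) : ind p ^ 2 = ind p := by by_cases h : p <;> simp [ind, h]

theorem ind_or_le (p q : Prop) : ind (p ∨ q) ≤ ind p + ind q := by
  by_cases hp : p <;> by_cases hq : q <;> simp [ind, hp, hq]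

theorem ind_pos {p : Prop} (h : 0 < ind p) : p := by
  by_contra hp
  rw [ind_of_not hp] at h
  exact lt_irrefl _ h

/-- Union bound over a finite set. -/
theorem ind_exists_mem_le {ι : Type*} (s : Finset ι) (p : ι → Prop) :
    ind (∃ i ∈ s, p i) ≤ ∑ i ∈ s, ind (p i) := by
  by_cases h : ∃ i ∈ s, p i
  · obtain ⟨i, hi, hp⟩ := h
    refine (ind_le_one _).trans ?_
    rw [← ind_of hp]
    exact single_le_sum (f := fun i => ind (p i)) (fun j _ => ind_nonneg _) hi
  · rw [ind_of_not h]
    exact sum_nonneg fun j _ => ind_nonneg _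

/-- Union bound over a finite type. -/
theorem ind_exists_le {ι : Type*} [Fintype ι] (p : ι → Prop) : ind (∃ i, p i) ≤ ∑ i, ind (p i) := by
  simpa using ind_exists_mem_le univ p

theorem sum_ind_eq_card {ι : Type*} (s : Finset ι) (p : ι → Prop) [DecidablePred p] :
    ∑ i ∈ s, ind (p i) = (s.filter p).card := by
  simp [ind_eq_ite]

theorem expect_ind_nonneg {ι : Type*} (s : Finset ι) (p : ι → Prop) : 0 ≤ 𝔼 i ∈ s, ind (p i) :=
  expect_nonneg fun _ _ => ind_nonneg _

theorem expect_ind_le_one {ι : Type*} (s : Finset ι) (p : ι → Prop) :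
    𝔼 i ∈ s, ind (p i) ≤ 1 := by
  rcases s.eq_empty_or_nonempty with rfl | h
  · simp
  · exact expect_le h fun _ _ => ind_le_one _

theorem exists_of_expect_ind_pos {ι : Type*} {s : Finset ι} {p : ι → Prop}
    (h : 0 < 𝔼 i ∈ s, ind (p i)) : ∃ i ∈ s, p i := by
  by_contra hn
  rw [expect_eq_zero fun i hi => ind_of_not fun hp => hn ⟨i, hi, hp⟩] at h
  exact lt_irrefl _ h

/-- Jensen for squares. -/
theorem sq_expect_le {ι : Type*} (s : Finset ι) (f : ι → ℝ) :
    (𝔼 i ∈ s, f i) ^ 2 ≤ 𝔼 i ∈ s, f i ^ 2 := by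
  rcases s.eq_empty_or_nonempty with rfl | h
  · simp
  · simpa [expect_const h] using expect_mul_sq_le_sq_mul_sq s f fun _ => 1

/-- Uniform measure on a finite subgroup is invariant under its translations. -/
theorem expect_shift_mem {G : Type*} [AddCommGroup G] {s : Finset G}
    (hadd : ∀ x ∈ s, ∀ y ∈ s, x + y ∈ s) (hneg : ∀ x ∈ s, -x ∈ s) {a : G} (ha : a ∈ s)
    (f : G → ℝ) : 𝔼 x ∈ s, f (a + x) = 𝔼 x ∈ s, f x :=
  expect_nbij' (fun x => a + x) (fun x => -a + x) (fun x hx => hadd _ ha _ hx)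
    (fun x hx => hadd _ (hneg _ ha) _ hx) (fun x _ => by simp) (fun x _ => by simp)
    fun _ _ => rfl

/-- A surjective homomorphism of finite subgroups preserves the uniform measure. -/
theorem expect_hom {G H : Type*} [AddCommGroup G] [AddCommGroup H] (φ : G →+ H) {s : Finset G}
    {s' : Finset H} (hadd : ∀ x ∈ s, ∀ y ∈ s, x + y ∈ s) (hneg : ∀ x ∈ s, -x ∈ s)
    (hne : s.Nonempty) (hmap : ∀ x ∈ s, φ x ∈ s') (hsurj : ∀ y ∈ s', ∃ x ∈ s, φ x = y)
    (f : H → ℝ) : 𝔼 x ∈ s, f (φ x) = 𝔼 y ∈ s', f y := by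
  classical
  obtain ⟨x0, hx0⟩ := hne
  have hne' : s'.Nonempty := ⟨_, hmap x0 hx0⟩
  have hfib : ∀ y ∈ s', ∀ y' ∈ s', (s.filter fun x => φ x = y).card
      = (s.filter fun x => φ x = y').card := by
    intro y hy y' hy'
    obtain ⟨a, ha, rfl⟩ := hsurj y hy
    obtain ⟨b, hb, rfl⟩ := hsurj y' hy'
    refine card_nbij' (fun x => x + (b + -a)) (fun x => x + (a + -b)) (fun x hx => ?_)
      (fun x hx => ?_) (fun x _ => by simp [add_assoc]) fun x _ => by simp [add_assoc]
    · simp only [coe_filter, Set.mem_ofPred_eq] at hx ⊢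
      exact ⟨hadd _ hx.1 _ (hadd _ hb _ (hneg _ ha)), by simp [hx.2]⟩
    · simp only [coe_filter, Set.mem_ofPred_eq] at hx ⊢
      exact ⟨hadd _ hx.1 _ (hadd _ ha _ (hneg _ hb)), by simp [hx.2]⟩
  set n := (s.filter fun x => φ x = φ x0).card with hn
  have key : ∀ g : H → ℝ, ∑ x ∈ s, g (φ x) = n * ∑ y ∈ s', g y := by
    intro g
    rw [← sum_fiberwise_of_maps_to hmap, mul_sum]
    refine sum_congr rfl fun y hy => ?_
    rw [sum_congr rfl fun x hx => by rw [(mem_filter.1 hx).2], sum_const, nsmul_eq_mul,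
      hfib y hy _ (hmap x0 hx0)]
  have h1 := key fun _ => 1
  simp only [sum_const, nsmul_eq_mul, mul_one] at h1
  have hn0 : (0 : ℝ) < n := by
    have : 0 < n := card_pos.2 ⟨x0, mem_filter.2 ⟨hx0, rfl⟩⟩
    exact_mod_cast this
  have h2 : (0 : ℝ) < s'.card := by exact_mod_cast hne'.card_pos
  rw [expect_eq_sum_div_card, expect_eq_sum_div_card, key, h1]
  field_simp

section Matrices

variable {J X : Type} [Fintype J] [DecidableEq J] [Fintype X] [DecidableEq X]

/-! ### The pairing -/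

theorem mat_add_self (N : Mat J X) : N + N = 0 := by
  ext j x
  exact CharTwo.add_self_eq_zero _

theorem mat_neg (N : Mat J X) : -N = N := neg_eq_of_add_eq_zero_left (mat_add_self N)

theorem vec_neg (v : X → F2) : -v = v := neg_eq_of_add_eq_zero_left (Fou.add_self_pi v)

theorem mat_add_eq_zero {S T : Mat J X} : S + T = 0 ↔ S = T := by
  rw [add_eq_zero_iff_eq_neg, mat_neg]

theorem pair_comm (S N : Mat J X) : pair S N = pair N S :=
  sum_congr rfl fun _ _ => dotProduct_comm _ _

theorem pair_add_right (S N N' : Mat J X) : pair S (N + N') = pair S N + pair S N' := by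
  simp only [pair, ← sum_add_distrib, ← dotProduct_add]
  rfl

theorem pair_add_left (S S' N : Mat J X) : pair (S + S') N = pair S N + pair S' N := by
  simp only [pair_comm _ N, pair_add_right]

@[simp] theorem pair_zero_right (S : Mat J X) : pair S 0 = 0 :=
  sum_eq_zero fun _ _ => dotProduct_zero _

@[simp] theorem pair_zero_left (N : Mat J X) : pair 0 N = 0 := by rw [pair_comm, pair_zero_right]

theorem pair_eq_trace (S N : Mat J X) : pair S N = (S * Nᵀ).trace := by
  simp [pair, Matrix.trace, Matrix.mul_apply, dotProduct]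

theorem pair_transpose (S N : Mat J X) : pair Sᵀ Nᵀ = pair S N := by
  simp only [pair, dotProduct, transpose_apply]
  exact sum_comm

theorem pair_mul_left {J' : Type} [Fintype J'] [DecidableEq J'] (S : Mat J X) (E : Mat J J')
    (N : Mat J' X) : pair S (E * N) = pair (Eᵀ * S) N := by
  rw [pair_eq_trace, pair_eq_trace, transpose_mul, ← Matrix.mul_assoc, trace_mul_comm,
    Matrix.mul_assoc]

theorem pair_mul_right {X' : Type} [Fintype X'] [DecidableEq X'] (S : Mat J X) (N : Mat J X')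
    (F : Mat X X') : pair S (N * Fᵀ) = pair (S * F) N := by
  rw [pair_eq_trace, pair_eq_trace, transpose_mul, transpose_transpose, Matrix.mul_assoc]

theorem pair_vecMulVec (S : Mat J X) (a : J → F2) (y : X → F2) :
    pair S (vecMulVec a y) = (a ᵥ* S) ⬝ᵥ y := by
  simp only [pair, dotProduct, vecMulVec_apply, vecMul, sum_mul]
  rw [sum_comm]
  exact sum_congr rfl fun x _ => sum_congr rfl fun j _ => by ring

/-- Matrices as vectors. -/
def flat : Mat J X ≃ (J × X → F2) where
  toFun N := fun p => N p.1 p.2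
  invFun v := Matrix.of fun j x => v (j, x)
  left_inv _ := rfl
  right_inv _ := rfl

theorem pair_flat (S N : Mat J X) : pair S N = flat S ⬝ᵥ flat N := by
  simp only [pair, dotProduct, Fintype.sum_prod_type]
  rfl

/-! ### Fourier analysis -/

theorem coefM_flat (f : Mat J X → ℝ) (S : Mat J X) :
    coefM f S = Fou.coef (fun v => f (flat.symm v)) (flat S) :=
  Fintype.expect_equiv flat _ _ fun N => by simp only [pair_flat, Equiv.symm_apply_apply]

theorem expect_sg_pair (S : Mat J X) : 𝔼 N, sg (pair S N) = if S = 0 then 1 else 0 := by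
  have h := Fou.expect_sg_dot (flat S)
  rw [← Fintype.expect_equiv flat (fun N => sg (pair S N)) _ fun N => by rw [pair_flat]] at h
  rw [h]
  exact if_congr (flat.injective.eq_iff' rfl) rfl rfl

theorem expect_sg_pair_mul (S T : Mat J X) :
    𝔼 N, sg (pair S N) * sg (pair T N) = if S = T then 1 else 0 := by
  simp only [← Fou.sg_add, ← pair_add_left, expect_sg_pair, mat_add_eq_zero]

/-- Fourier inversion. -/
theorem synth_coefM (f : Mat J X → ℝ) : synth (coefM f) = f := by
  funext N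
  have h := Fou.inversion (fun v => f (flat.symm v)) (flat N)
  rw [Equiv.symm_apply_apply] at h
  rw [← h]
  exact Fintype.sum_equiv flat _ _ fun S => by rw [coefM_flat, pair_flat]

theorem coefM_synth (c : Mat J X → ℝ) : coefM (synth c) = c := by
  funext T
  simp only [coefM, synth, sum_mul, mul_assoc]
  rw [expect_sum_comm]
  simp only [← mul_expect, expect_sg_pair_mul]
  simp

theorem expect_synth_mul (c : Mat J X → ℝ) (g : Mat J X → ℝ) :
    𝔼 N, synth c N * g N = ∑ S, c S * coefM g S := by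
  simp only [synth, sum_mul]
  rw [expect_sum_comm]
  refine sum_congr rfl fun S _ => ?_
  rw [coefM, mul_expect]
  exact expect_congr rfl fun N _ => by ring

theorem plancherelM (f g : Mat J X → ℝ) : 𝔼 N, f N * g N = ∑ S, coefM f S * coefM g S := by
  rw [← expect_synth_mul, synth_coefM]

theorem parsevalM (f : Mat J X → ℝ) : 𝔼 N, f N ^ 2 = ∑ S, coefM f S ^ 2 := by
  simp only [sq, plancherelM]

theorem expect_synth_sq (c : Mat J X → ℝ) : 𝔼 N, synth c N ^ 2 = ∑ S, c S ^ 2 := by
  rw [parsevalM, coefM_synth]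

theorem coefM_zero (f : Mat J X → ℝ) : coefM f 0 = 𝔼 N, f N := by simp [coefM]

theorem coefM_shift (f : Mat J X → ℝ) (T S : Mat J X) :
    coefM (fun N => f (N + T)) S = coefM f S * sg (pair S T) := by
  rw [coefM, coefM, expect_mul, ← Fou.expect_add_right _ T]
  refine expect_congr rfl fun N _ => ?_
  rw [add_assoc, mat_add_self, add_zero, pair_add_right, Fou.sg_add, mul_assoc]

theorem coefM_add (f g : Mat J X → ℝ) (S : Mat J X) :
    coefM (fun N => f N + g N) S = coefM f S + coefM g S := by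
  simp only [coefM, add_mul, expect_add_distrib]

theorem coefM_sub (f g : Mat J X → ℝ) (S : Mat J X) :
    coefM (fun N => f N - g N) S = coefM f S - coefM g S := by
  simp only [coefM, sub_mul, expect_sub_distrib]

theorem coefM_smul (a : ℝ) (f : Mat J X → ℝ) (S : Mat J X) :
    coefM (fun N => a * f N) S = a * coefM f S := by
  simp only [coefM, mul_assoc, mul_expect]

theorem coefM_expect {ι : Type*} (s : Finset ι) (f : ι → Mat J X → ℝ) (S : Mat J X) :
    coefM (fun N => 𝔼 i ∈ s, f i N) S = 𝔼 i ∈ s, coefM (f i) S := by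
  simp only [coefM, expect_mul]
  exact expect_comm _ _ _

/-! ### Boxes and annihilators -/

theorem mem_box {Q : Sub J} {D : Sub X} {N : Mat J X} :
    N ∈ box Q D ↔ (∀ q ∈ Q, q ᵥ* N = 0) ∧ ∀ d ∈ D, N *ᵥ d = 0 := by simp [box]

theorem mem_box_bot {D : Sub X} {N : Mat J X} :
    N ∈ box (⊥ : Sub J) D ↔ ∀ d ∈ D, N *ᵥ d = 0 := by simp [mem_box]

theorem mem_ann {D : Sub X} {y : X → F2} : y ∈ ann D ↔ ∀ d ∈ D, y ⬝ᵥ d = 0 := by simp [ann]

theorem mem_odd {ψ a : J → F2} : a ∈ odd ψ ↔ ψ ⬝ᵥ a = 1 := by simp [odd]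

theorem zero_mem_box (Q : Sub J) (D : Sub X) : (0 : Mat J X) ∈ box Q D := by simp [mem_box]

theorem box_nonempty (Q : Sub J) (D : Sub X) : (box Q D).Nonempty := ⟨0, zero_mem_box Q D⟩

theorem add_mem_box {Q : Sub J} {D : Sub X} :
    ∀ N ∈ box Q D, ∀ N' ∈ box Q D, N + N' ∈ box Q D := by
  intro N h N' h'
  rw [mem_box] at *
  exact ⟨fun q hq => by rw [vecMul_add, h.1 q hq, h'.1 q hq, add_zero],
    fun d hd => by rw [add_mulVec, h.2 d hd, h'.2 d hd, add_zero]⟩

theorem neg_mem_box {Q : Sub J} {D : Sub X} : ∀ N ∈ box Q D, -N ∈ box Q D :=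
  fun N h => by rwa [mat_neg]

theorem box_mono {Q Q' : Sub J} {D D' : Sub X} (hQ : Q ≤ Q') (hD : D ≤ D') :
    box Q' D' ⊆ box Q D := fun _ h =>
  mem_box.2 ⟨fun q hq => (mem_box.1 h).1 q (hQ hq), fun d hd => (mem_box.1 h).2 d (hD hd)⟩

@[simp] theorem box_bot_bot : box (⊥ : Sub J) (⊥ : Sub X) = univ := by
  ext N
  simp [mem_box]

theorem expect_box_shift {Q : Sub J} {D : Sub X} {T : Mat J X} (hT : T ∈ box Q D)
    (f : Mat J X → ℝ) : 𝔼 N ∈ box Q D, f (T + N) = 𝔼 N ∈ box Q D, f N :=
  expect_shift_mem add_mem_box neg_mem_box hT f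

theorem zero_mem_ann (D : Sub X) : (0 : X → F2) ∈ ann D := by simp [mem_ann]

theorem ann_nonempty (D : Sub X) : (ann D).Nonempty := ⟨0, zero_mem_ann D⟩

theorem add_mem_ann {D : Sub X} : ∀ y ∈ ann D, ∀ y' ∈ ann D, y + y' ∈ ann D := by
  intro y h y' h'
  rw [mem_ann] at *
  exact fun d hd => by rw [add_dotProduct, h d hd, h' d hd, add_zero]

theorem neg_mem_ann {D : Sub X} : ∀ y ∈ ann D, -y ∈ ann D := fun y h => by rwa [vec_neg]

@[simp] theorem ann_bot : ann (⊥ : Sub X) = univ := by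
  ext y
  simp [mem_ann]

theorem vecMulVec_mem_box {D : Sub X} (a : J → F2) {y : X → F2} (hy : y ∈ ann D) :
    vecMulVec a y ∈ box (⊥ : Sub J) D :=
  mem_box_bot.2 fun d hd => by rw [vecMulVec_mulVec, mem_ann.1 hy d hd]; simp

theorem mem_box_bot_iff_rows {D : Sub X} {N : Mat J X} :
    N ∈ box (⊥ : Sub J) D ↔ ∀ j, N j ∈ ann D := by
  simp only [mem_box_bot, mem_ann, funext_iff]
  exact ⟨fun h j d hd => h d hd j, fun h d hd j => h j d hd⟩

theorem transpose_mem_box {Q : Sub J} {D : Sub X} {N : Mat J X} :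
    Nᵀ ∈ box D Q ↔ N ∈ box Q D := by
  simp only [mem_box, vecMul_transpose, mulVec_transpose]
  exact and_comm

theorem odd_nonempty {ψ : J → F2} (h : ψ ≠ 0) : (odd ψ).Nonempty := by
  obtain ⟨j, hj⟩ := Function.ne_iff.1 h
  exact ⟨Pi.single j 1, mem_odd.2 (by simpa using (Fou.zmod2 _).resolve_left hj)⟩

/-- A set closed under translation by an odd vector is half odd. -/
theorem two_mul_card_filter {s : Finset (J → F2)} {ψ a : J → F2} (ha : ψ ⬝ᵥ a = 1)
    (hs : ∀ v ∈ s, v + a ∈ s) (b : F2) :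
    2 * (s.filter fun v => ψ ⬝ᵥ v = b).card = s.card := by
  have h : (s.filter fun v => ψ ⬝ᵥ v = b).card = (s.filter fun v => ¬ ψ ⬝ᵥ v = b).card := by
    refine card_nbij' (· + a) (· + a) (fun v hv => ?_) (fun v hv => ?_)
      (fun v _ => by simp [add_assoc, Fou.add_self_pi]) fun v _ => by
        simp [add_assoc, Fou.add_self_pi]
    · simp only [coe_filter, Set.mem_ofPred_eq] at hv ⊢
      refine ⟨hs v hv.1, ?_⟩
      rw [dotProduct_add, hv.2, ha]
      exact (by decide : ∀ b : F2, ¬ b + 1 = b) b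
    · simp only [coe_filter, Set.mem_ofPred_eq] at hv ⊢
      refine ⟨hs v hv.1, ?_⟩
      rw [dotProduct_add, ha]
      exact (by decide : ∀ b u : F2, ¬ u = b → u + 1 = b) _ _ hv.2
  rw [two_mul]
  nth_rewrite 2 [h]
  exact card_filter_add_card_filter_not _

theorem two_mul_card_dot {ψ : J → F2} (h : ψ ≠ 0) (b : F2) :
    2 * (univ.filter fun v => ψ ⬝ᵥ v = b).card = 2 ^ Fintype.card J := by
  obtain ⟨a, ha⟩ := odd_nonempty h
  rw [two_mul_card_filter (mem_odd.1 ha) (fun _ _ => mem_univ _)]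
  simp

theorem two_mul_card_odd {ψ : J → F2} (h : ψ ≠ 0) : 2 * (odd ψ).card = 2 ^ Fintype.card J :=
  two_mul_card_dot h 1

theorem card_sub (D : Sub X) : Nat.card D = 2 ^ finrank F2 D := by
  rw [Module.natCard_eq_pow_finrank (K := F2)]
  simp

/-- Every functional is a dot product. -/
theorem exists_dot_eq (φ : (X → F2) →ₗ[F2] F2) : ∃ a : X → F2, ∀ v, a ⬝ᵥ v = φ v :=
  ⟨fun x => φ (Pi.single x 1), fun v => by
    rw [LinearMap.pi_apply_eq_sum_univ φ v, dotProduct]
    refine sum_congr rfl fun x _ => ?_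
    rw [smul_eq_mul, mul_comm]
    congr 2
    funext y
    simp [Pi.single_apply, eq_comm]⟩

/-- Separation of a vector from a subspace. -/
theorem exists_dot_of_notMem {D : Sub X} {q : X → F2} (h : q ∉ D) :
    ∃ a ∈ ann D, a ⬝ᵥ q = 1 := by
  obtain ⟨φ, h1, h2⟩ := D.exists_le_ker_of_notMem h
  obtain ⟨a, ha⟩ := exists_dot_eq φ
  exact ⟨a, mem_ann.2 fun d hd => by rw [ha]; exact h2 hd,
    by rw [ha]; exact (Fou.zmod2 _).resolve_left h1⟩

/-- The annihilator as a subspace. -/
def annSub (D : Sub X) : Sub X where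
  carrier := {y | y ∈ ann D}
  add_mem' := fun h h' => add_mem_ann _ h _ h'
  zero_mem' := zero_mem_ann D
  smul_mem' := fun c y h => mem_ann.2 fun d hd => by
    rw [smul_dotProduct, mem_ann.1 h d hd, smul_zero]

theorem mem_annSub {D : Sub X} {y : X → F2} : y ∈ annSub D ↔ y ∈ ann D := Iff.rfl

theorem finrank_annSub (D : Sub X) :
    finrank F2 (annSub D) + finrank F2 D = Fintype.card X := by
  let T : (X → F2) →ₗ[F2] Module.Dual F2 D :=
    LinearMap.mk₂ F2 (fun y d => y ⬝ᵥ d.1) (fun _ _ _ => add_dotProduct _ _ _)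
      (fun _ _ _ => smul_dotProduct _ _ _) (fun _ _ _ => dotProduct_add _ _ _)
      fun _ _ _ => dotProduct_smul _ _ _
  have hk : LinearMap.ker T = annSub D := by
    ext y
    rw [LinearMap.mem_ker, mem_annSub, mem_ann, LinearMap.ext_iff]
    exact ⟨fun h d hd => h ⟨d, hd⟩, fun h d => h d.1 d.2⟩
  have hr : LinearMap.range T = ⊤ := by
    rw [LinearMap.range_eq_top]
    intro φ
    obtain ⟨φ', hφ⟩ := LinearMap.exists_extend φ
    obtain ⟨a, ha⟩ := exists_dot_eq φ'
    exact ⟨a, LinearMap.ext fun d => by rw [← hφ]; exact ha d⟩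
  have h := T.finrank_range_add_finrank_ker
  rw [hk, hr, finrank_top, Subspace.dual_finrank_eq, Module.finrank_fintype_fun_eq_card] at h
  omega

theorem card_ann (D : Sub X) : (ann D).card * 2 ^ finrank F2 D = 2 ^ Fintype.card X := by
  rw [← finrank_annSub D, pow_add, ← card_sub (annSub D)]
  congr 1
  exact (Nat.card_eq_finsetCard (ann D)).symm

theorem card_box_bot (D : Sub X) :
    (box (⊥ : Sub J) D).card = (ann D).card ^ Fintype.card J := by
  have h : box (⊥ : Sub J) D = Fintype.piFinset fun _ : J => ann D := by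
    ext N
    rw [mem_box_bot_iff_rows]
    exact Fintype.mem_piFinset.symm
  rw [h]
  exact (Fintype.card_piFinset _).trans (by simp)

/-- The index of an atom. -/
theorem card_box_bot_mul (D : Sub X) :
    (box (⊥ : Sub J) D).card * 2 ^ (Fintype.card J * finrank F2 D) = Fintype.card (Mat J X) := by
  rw [card_box_bot, mul_comm (Fintype.card J), pow_mul, ← mul_pow, card_ann, ← pow_mul]
  simp [Matrix, ← pow_mul]

/-- An atom has measure `2 ^ (-|J| dim D)`. -/
theorem expect_box_le (D : Sub X) (N1 : Mat J X) (f : Mat J X → ℝ) (hf : ∀ N, 0 ≤ f N) :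
    𝔼 N ∈ box ⊥ D, f (N1 + N) ≤ 2 ^ (Fintype.card J * finrank F2 D) * 𝔼 N, f N := by
  have h0 : (0 : ℝ) < (box (⊥ : Sub J) D).card := by
    exact_mod_cast (box_nonempty (⊥ : Sub J) D).card_pos
  have h1 : ((box (⊥ : Sub J) D).card : ℝ) * 2 ^ (Fintype.card J * finrank F2 D)
      = Fintype.card (Mat J X) := by exact_mod_cast card_box_bot_mul (J := J) D
  rw [← Fou.expect_add_left f N1, expect_eq_sum_div_card, Fintype.expect_eq_sum_div_card, ← h1,
    div_le_iff₀ h0]
  refine (sum_le_univ_sum_of_nonneg fun N => hf _).trans (le_of_eq ?_)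
  field_simp

/-- A matrix whose columns form a basis of the annihilator, with a left inverse. -/
theorem exists_emb (D : Sub X) : ∃ (m : ℕ) (F G : Mat X (Fin m)), Gᵀ * F = 1 ∧
    (∀ y, y ∈ ann D ↔ ∃ v, F *ᵥ v = y) ∧ m + finrank F2 D = Fintype.card X := by
  let b := Module.finBasis F2 (annSub D)
  let T : (Fin (finrank F2 (annSub D)) → F2) →ₗ[F2] X → F2 :=
    (annSub D).subtype ∘ₗ b.equivFun.symm.toLinearMap
  have hT : LinearMap.ker T = ⊥ := by
    rw [LinearMap.ker_eq_bot]
    exact Subtype.val_injective.comp b.equivFun.symm.injective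
  obtain ⟨T', hT'⟩ := T.exists_leftInverse_of_injective hT
  refine ⟨_, LinearMap.toMatrix' T, (LinearMap.toMatrix' T')ᵀ, ?_, fun y => ?_, finrank_annSub D⟩
  · rw [transpose_transpose, ← LinearMap.toMatrix'_comp, hT', LinearMap.toMatrix'_id]
  · simp only [LinearMap.toMatrix'_mulVec]
    exact ⟨fun h => ⟨b.equivFun ⟨y, h⟩, by simp [T]⟩, fun ⟨v, hv⟩ => hv ▸ (b.equivFun.symm v).2⟩

end Matrices

end Vale.Agent.P342
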