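import Vale.Agent.P342.Lin

/-! The fourth moment: clean pairs and inclusion and exclusion. -/

set_option linter.unusedSectionVars false

namespace Vale.Agent.P342

open Vale.Agent.P325 Vale.Agent.Lib.PolyTime Finset Matrix Module
open scoped BigOperators

namespace Clean

theorem prod_ind {ι : Type*} (s : Finset ι) (P : ι → Prop) :
    ∏ q ∈ s, ind (P q) = ind (∀ q ∈ s, P q) := by
  classical
  induction s using Finset.induction_on with
  | empty => simp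
  | insert a s ha ih =>
    rw [prod_insert ha, ih, ← ind_and]
    exact ind_congr (by simp)

/-- Inclusion and exclusion. -/
theorem incl {ι : Type*} [DecidableEq ι] (s : Finset ι) (P : ι → Prop) :
    ind (∀ q ∈ s, ¬ P q) = ∑ A ∈ s.powerset, (-1) ^ A.card * ind (∀ q ∈ A, P q) := by
  rw [← prod_ind]
  simp only [ind_not, sub_eq_add_neg]
  rw [prod_one_add]
  refine sum_congr rfl fun A _ => ?_
  rw [prod_neg, prod_ind]

variable {J X : Type} [Fintype J] [DecidableEq J] [Fintype X] [DecidableEq X]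

/-- Self convolution. -/
noncomputable def conv (c : Mat J X → ℝ) (T : Mat J X) : ℝ := ∑ Y, c Y * c (T + Y)

theorem synth_sq (c : Mat J X → ℝ) (N : Mat J X) : synth c N ^ 2 = synth (conv c) N := by
  simp only [synth, conv, sum_mul]
  rw [sq, sum_mul_sum, sum_comm (f := fun T Y => c Y * c (T + Y) * sg (pair T N))]
  refine sum_congr rfl fun Y _ => ?_
  rw [← Equiv.sum_comp (Equiv.addRight Y)]
  refine sum_congr rfl fun T _ => ?_
  simp only [Equiv.coe_addRight]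
  have h : sg (pair T N) = sg (pair Y N) * sg (pair (T + Y) N) := by
    rw [← Fou.sg_add, ← pair_add_left, add_comm T, ← add_assoc, mat_add_self, zero_add]
  rw [h]
  ring

theorem expect_pow_four (c : Mat J X → ℝ) : 𝔼 N, synth c N ^ 4 = ∑ T, conv c T ^ 2 := by
  rw [← expect_synth_sq]
  refine expect_congr rfl fun N _ => ?_
  rw [← synth_sq]
  ring

theorem rank_add (A B : Mat J X) : (A + B).rank ≤ A.rank + B.rank := by
  rw [← finrank_colSp, ← finrank_colSp, ← finrank_colSp]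
  refine le_trans (Submodule.finrank_mono ?_)
    (Submodule.finrank_add_le_finrank_add_finrank (colSp A) (colSp B))
  intro q hq
  obtain ⟨v, rfl⟩ := mem_colSp.1 hq
  rw [add_mulVec]
  exact Submodule.add_mem_sup (mem_colSp.2 ⟨v, rfl⟩) (mem_colSp.2 ⟨v, rfl⟩)

theorem conv_eq_zero {d : ℕ} {c : Mat J X → ℝ} (hc : ∀ S, d < S.rank → c S = 0) {T : Mat J X}
    (hT : 2 * d < T.rank) : conv c T = 0 := by
  refine sum_eq_zero fun Y _ => ?_
  have h := rank_add (T + Y) Y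
  rw [add_assoc, mat_add_self, add_zero] at h
  by_cases hY : d < Y.rank
  · rw [hc Y hY, zero_mul]
  · rw [hc (T + Y) (by omega), mul_zero]

/-- `A` has columns in the column space of `B` and vanishes on the kernel of `B`. -/
def sub (A B : Mat J X) : Prop := colSp A ≤ colSp B ∧ ∀ v, B *ᵥ v = 0 → A *ᵥ v = 0

theorem sum_sub_le {k : ℕ} {B : Mat J X} (hB : B.rank ≤ k) :
    ∑ A, ind (sub A B) ≤ ((2 ^ k) ^ (2 ^ k) : ℕ) := by
  classical
  rw [sum_ind_eq_card]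
  let pre : colSp B → X → F2 := fun u => (mem_colSp.1 u.2).choose
  have hpre : ∀ u, B *ᵥ pre u = u := fun u => (mem_colSp.1 u.2).choose_spec
  let φ : {A // sub A B} → colSp B → colSp B := fun A u =>
    ⟨A.1 *ᵥ pre u, A.2.1 (mem_colSp.2 ⟨_, rfl⟩)⟩
  have hv : ∀ (A : {A // sub A B}) (v : X → F2),
      A.1 *ᵥ v = φ A ⟨B *ᵥ v, mem_colSp.2 ⟨v, rfl⟩⟩ := by
    intro A v
    have h := A.2.2 (v + pre ⟨B *ᵥ v, mem_colSp.2 ⟨v, rfl⟩⟩)
      (by rw [mulVec_add, hpre]; exact Fou.add_self_pi _)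
    rw [mulVec_add, add_eq_zero_iff_eq_neg, vec_neg] at h
    exact h
  have hφ : Function.Injective φ := fun A A' h =>
    Subtype.ext (ext_iff_mulVec.2 fun v => by rw [hv A, hv A', h])
  have h1 := Nat.card_le_card_of_injective φ hφ
  rw [Nat.card_fun, card_colSp, Nat.card_eq_fintype_card, Fintype.card_subtype] at h1
  have h2 : 2 ^ B.rank ≤ 2 ^ k := Nat.pow_le_pow_right (by norm_num) hB
  have h3 : (2 ^ B.rank) ^ (2 ^ B.rank) ≤ (2 ^ k) ^ (2 ^ k) :=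
    (Nat.pow_le_pow_left h2 _).trans (Nat.pow_le_pow_right (by positivity) h2)
  exact_mod_cast h1.trans h3

/-- The linear algebra of a clean pair. -/
theorem exists_sub {T Y : Mat J X}
    (hc : ∀ q, q ≠ 0 → q ∈ colSp T → ¬ (q ∈ colSp Y ∧ q ∈ colSp (T + Y)))
    (hr : ∀ w, w ≠ 0 → w ∈ rowSp T → ¬ (w ∈ rowSp Y ∧ w ∈ rowSp (T + Y))) :
    ∃ Y', sub Y' T ∧ sub Y' Y ∧ sub (T + Y') (T + Y) := by
  have hrow : ∀ (S : Mat J X) (w : X → F2), (∀ v, S *ᵥ v = 0 → w ⬝ᵥ v = 0) → w ∈ rowSp S :=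
    fun S w h => mem_of_ann fun a ha => by rw [dotProduct_comm]; exact h a (mem_ann_rowSp.1 ha)
  have hdec : ∀ v : X → F2, ∃ a b e, T *ᵥ a = 0 ∧ Y *ᵥ b = 0 ∧ (T + Y) *ᵥ e = 0 ∧
      v = a + b + e := by
    intro v
    have hv : v ∈ LinearMap.ker T.mulVecLin ⊔ LinearMap.ker Y.mulVecLin ⊔
        LinearMap.ker (T + Y).mulVecLin := by
      refine mem_of_ann fun w hw => ?_
      by_cases h0 : w = 0
      · rw [h0, zero_dotProduct]
      · rw [mem_ann] at hw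
        exact absurd ⟨hrow Y w fun u hu => hw u (Submodule.mem_sup_left (Submodule.mem_sup_right hu)),
          hrow (T + Y) w fun u hu => hw u (Submodule.mem_sup_right hu)⟩
          (hr w h0 (hrow T w fun u hu => hw u (Submodule.mem_sup_left (Submodule.mem_sup_left hu))))
    obtain ⟨_, h1, e, he, rfl⟩ := Submodule.mem_sup.1 hv
    obtain ⟨a, ha, b, hb, rfl⟩ := Submodule.mem_sup.1 h1
    exact ⟨a, b, e, ha, hb, he, rfl⟩
  have hdis : Disjoint (colSp T ⊓ colSp (T + Y)) (colSp T ⊓ colSp Y) := by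
    rw [Submodule.disjoint_def]
    intro q h1 h2
    by_contra h0
    exact hc q h0 h1.1 ⟨h2.2, h1.2⟩
  obtain ⟨E, hE, hcompl⟩ := hdis.exists_isCompl
  obtain ⟨P, hP1, hP2, hP3⟩ : ∃ P : Mat J J, (∀ q, P *ᵥ q ∈ colSp T ⊓ colSp Y) ∧
      (∀ q ∈ colSp T ⊓ colSp Y, P *ᵥ q = q) ∧ ∀ q ∈ colSp T ⊓ colSp (T + Y), P *ᵥ q = 0 := by
    refine ⟨LinearMap.toMatrix' ((colSp T ⊓ colSp Y).projection E hcompl.symm), fun q => ?_,
      fun q hq => ?_, fun q hq => ?_⟩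
    · rw [LinearMap.toMatrix'_mulVec]
      exact Submodule.projection_apply_mem _ _
    · rw [LinearMap.toMatrix'_mulVec]
      exact Submodule.projection_apply_of_mem_left _ hq
    · rw [LinearMap.toMatrix'_mulVec]
      exact Submodule.projection_apply_of_mem_right _ (hE hq)
  have hb : ∀ b, Y *ᵥ b = 0 → T *ᵥ b ∈ colSp T ⊓ colSp (T + Y) := fun b hb =>
    ⟨mem_colSp.2 ⟨b, rfl⟩, mem_colSp.2 ⟨b, by rw [add_mulVec, hb, add_zero]⟩⟩
  have he : ∀ e, (T + Y) *ᵥ e = 0 → T *ᵥ e ∈ colSp T ⊓ colSp Y := fun e he => by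
    rw [add_mulVec, add_eq_zero_iff_eq_neg, vec_neg] at he
    exact ⟨mem_colSp.2 ⟨e, rfl⟩, mem_colSp.2 ⟨e, he.symm⟩⟩
  have hcol : colSp (P * T) ≤ colSp T ⊓ colSp Y := fun q hq => by
    obtain ⟨v, rfl⟩ := mem_colSp.1 hq
    rw [← mulVec_mulVec]
    exact hP1 _
  refine ⟨P * T, ⟨hcol.trans inf_le_left, fun v hv => ?_⟩, ⟨hcol.trans inf_le_right, fun v hv => ?_⟩,
    fun q hq => ?_, fun v hv => ?_⟩
  · rw [← mulVec_mulVec, hv, mulVec_zero]
  · rw [← mulVec_mulVec, hP3 _ (hb v hv)]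
  · obtain ⟨v, rfl⟩ := mem_colSp.1 hq
    obtain ⟨a, b, e, ha, hb', he', rfl⟩ := hdec v
    have h : (T + P * T) *ᵥ (a + b + e) = T *ᵥ b := by
      rw [add_mulVec, ← mulVec_mulVec, mulVec_add, mulVec_add, ha, zero_add, mulVec_add,
        hP3 _ (hb b hb'), hP2 _ (he e he'), zero_add, add_assoc, Fou.add_self_pi, add_zero]
    rw [h]
    exact (hb b hb').2
  · rw [add_mulVec, ← mulVec_mulVec, hP2 _ (he v hv), Fou.add_self_pi]

open Classical in
/-- The nonzero vectors of a subspace. -/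
noncomputable def nz (D : Sub X) : Finset (X → F2) := univ.filter fun q => q ≠ 0 ∧ q ∈ D

theorem mem_nz {D : Sub X} {q : X → F2} : q ∈ nz D ↔ q ≠ 0 ∧ q ∈ D := by simp [nz]

theorem card_nz (D : Sub X) : (nz D).card ≤ Nat.card D := by
  classical
  rw [Nat.card_eq_fintype_card, Fintype.card_subtype]
  exact card_le_card fun q hq => mem_filter.2 ⟨mem_univ _, (mem_nz.1 hq).2⟩

/-- Clean pairs. -/
def clean (T Y : Mat J X) : Prop :=
  (∀ q ∈ nz (colSp T), ¬ (q ∈ colSp Y ∧ q ∈ colSp (T + Y))) ∧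
    ∀ w ∈ nz (rowSp T), ¬ (w ∈ rowSp Y ∧ w ∈ rowSp (T + Y))

/-- The clean part of the convolution. -/
noncomputable def cl (c : Mat J X → ℝ) (T : Mat J X) : ℝ :=
  ∑ Y, ind (clean T Y) * (c Y * c (T + Y))

theorem cl_eq (c : Mat J X → ℝ) (T : Mat J X) :
    cl c T = ∑ p ∈ (nz (colSp T)).powerset ×ˢ (nz (rowSp T)).powerset,
      (-1) ^ (p.1.card + p.2.card) * conv (filt p.1 p.2 c) T := by
  simp only [cl, conv, mul_sum]
  rw [sum_comm]
  refine sum_congr rfl fun Y _ => ?_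
  rw [clean, ind_and, incl, incl, sum_mul_sum, sum_product, sum_mul]
  refine sum_congr rfl fun A _ => ?_
  rw [sum_mul]
  refine sum_congr rfl fun B _ => ?_
  simp only [filt, forall₂_and, ind_and]
  ring

/-- The weight of the matrices above `A`. -/
noncomputable def wt (c : Mat J X → ℝ) (A : Mat J X) : ℝ := ∑ S, ind (sub A S) * c S ^ 2

theorem wt_nonneg (c : Mat J X → ℝ) (A : Mat J X) : 0 ≤ wt c A :=
  sum_nonneg fun _ _ => mul_nonneg (ind_nonneg _) (sq_nonneg _)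

theorem sum_wt_le {d k : ℕ} (hk : d ≤ k) {c : Mat J X → ℝ} (hc : ∀ S, d < S.rank → c S = 0) :
    ∑ A, wt c A ≤ ((2 ^ k) ^ (2 ^ k) : ℕ) * ∑ S, c S ^ 2 := by
  simp only [wt]
  rw [sum_comm, mul_sum]
  refine sum_le_sum fun S _ => ?_
  rw [← sum_mul]
  by_cases hS : d < S.rank
  · simp [hc S hS]
  · exact mul_le_mul_of_nonneg_right (sum_sub_le (by omega)) (sq_nonneg _)

theorem cl_sq_le {k : ℕ} (c : Mat J X → ℝ) {T : Mat J X} (hT : T.rank ≤ k) :
    cl c T ^ 2 ≤ ((2 ^ k) ^ (2 ^ k) : ℕ) * ∑ A, wt c A * wt c (T + A) := by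
  obtain ⟨g, hg⟩ : ∃ g : Mat J X → ℝ, ∀ A, g A =
      ∑ Y, (ind (sub A Y) * |c Y|) * (ind (sub (T + A) (T + Y)) * |c (T + Y)|) :=
    ⟨_, fun _ => rfl⟩
  have h1 : |cl c T| ≤ ∑ A, ind (sub A T) * g A := by
    simp only [hg, mul_sum]
    rw [sum_comm]
    refine (abs_sum_le_sum_abs _ _).trans (sum_le_sum fun Y _ => ?_)
    have h2 : ind (clean T Y) ≤ ∑ A, ind (sub A T ∧ sub A Y ∧ sub (T + A) (T + Y)) :=
      le_trans (ind_mono fun h => exists_sub (fun q h0 hq => h.1 q (mem_nz.2 ⟨h0, hq⟩))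
        fun w h0 hw => h.2 w (mem_nz.2 ⟨h0, hw⟩)) (ind_exists_le _)
    rw [abs_mul, abs_of_nonneg (ind_nonneg _), abs_mul]
    refine (mul_le_mul_of_nonneg_right h2 (by positivity)).trans (le_of_eq ?_)
    rw [sum_mul]
    refine sum_congr rfl fun A _ => ?_
    rw [ind_and, ind_and]
    ring
  have h3 : ∀ A, g A ^ 2 ≤ wt c A * wt c (T + A) := by
    intro A
    rw [hg]
    refine (sum_mul_sq_le_sq_mul_sq _ _ _).trans (le_of_eq ?_)
    simp only [mul_pow, ind_sq, sq_abs, wt]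
    congr 1
    exact Equiv.sum_comp (Equiv.addLeft T) fun S => ind (sub (T + A) S) * c S ^ 2
  have h4 : cl c T ^ 2 ≤ (∑ A, ind (sub A T) * g A) ^ 2 := by
    rw [← sq_abs]
    exact pow_le_pow_left₀ (abs_nonneg _) h1 2
  refine h4.trans ((sum_mul_sq_le_sq_mul_sq _ _ _).trans ?_)
  simp only [ind_sq]
  exact mul_le_mul (sum_sub_le hT) (sum_le_sum fun A _ => h3 A)
    (sum_nonneg fun _ _ => sq_nonneg _) (Nat.cast_nonneg _)

theorem conv_sq_le {k : ℕ} (c : Mat J X → ℝ) {T : Mat J X} (hT : T.rank ≤ k) :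
    conv c T ^ 2 ≤ 2 * cl c T ^ 2 + 2 * (2 ^ 2 ^ k * 2 ^ 2 ^ k : ℕ) *
      ∑ p : Finset (J → F2) × Finset (X → F2),
        ind (p ≠ (∅, ∅) ∧ 0 ∉ p.1 ∧ 0 ∉ p.2) * conv (filt p.1 p.2 c) T ^ 2 := by
  classical
  obtain ⟨s, hs⟩ : ∃ s, s = (nz (colSp T)).powerset ×ˢ (nz (rowSp T)).powerset := ⟨_, rfl⟩
  have h0 : ((∅, ∅) : Finset (J → F2) × Finset (X → F2)) ∈ s := by simp [hs]
  have hf : filt (∅ : Finset (J → F2)) (∅ : Finset (X → F2)) c = c := by
    funext S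
    simp [filt]
  have h1 := cl_eq c T
  rw [← hs, ← add_sum_erase _ _ h0] at h1
  simp only [card_empty, add_zero, pow_zero, one_mul, hf] at h1
  obtain ⟨r, hr⟩ : ∃ r, r = ∑ p ∈ s.erase (∅, ∅),
      (-1 : ℝ) ^ (p.1.card + p.2.card) * conv (filt p.1 p.2 c) T := ⟨_, rfl⟩
  rw [← hr] at h1
  have h2 : 2 ^ T.rank ≤ 2 ^ k := Nat.pow_le_pow_right (by norm_num) hT
  have h3 : (s.erase (∅, ∅)).card ≤ 2 ^ 2 ^ k * 2 ^ 2 ^ k := by
    refine card_erase_le.trans ?_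
    rw [hs, card_product, card_powerset, card_powerset]
    exact Nat.mul_le_mul
      (Nat.pow_le_pow_right (by norm_num) ((card_nz _).trans ((card_colSp T).le.trans h2)))
      (Nat.pow_le_pow_right (by norm_num) ((card_nz _).trans ((card_rowSp T).le.trans h2)))
  have h4 : r ^ 2 ≤ (2 ^ 2 ^ k * 2 ^ 2 ^ k : ℕ) * ∑ p : Finset (J → F2) × Finset (X → F2),
      ind (p ≠ (∅, ∅) ∧ 0 ∉ p.1 ∧ 0 ∉ p.2) * conv (filt p.1 p.2 c) T ^ 2 := by
    rw [hr]
    refine sq_sum_le_card_mul_sum_sq.trans (mul_le_mul (by exact_mod_cast h3) ?_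
      (sum_nonneg fun _ _ => sq_nonneg _) (Nat.cast_nonneg _))
    refine le_trans (le_of_eq (sum_congr rfl fun p hp => ?_))
      (sum_le_univ_sum_of_nonneg fun p => mul_nonneg (ind_nonneg _) (sq_nonneg _))
    obtain ⟨hp0, hp⟩ := mem_erase.1 hp
    rw [hs, mem_product, mem_powerset, mem_powerset] at hp
    rw [ind_of ⟨hp0, fun h => (mem_nz.1 (hp.1 h)).1 rfl, fun h => (mem_nz.1 (hp.2 h)).1 rfl⟩,
      mul_pow, ← pow_mul, mul_comm _ 2, pow_mul]
    simp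
  have h5 : conv c T = cl c T - r := by rw [h1]; ring
  rw [h5]
  nlinarith [sq_nonneg (cl c T + r)]

end Clean

open Clean in
theorem cleanThm : CleanThm := by
  intro d
  obtain ⟨M, hM⟩ : ∃ M : ℝ, M = ((2 ^ (2 * d)) ^ (2 ^ (2 * d)) : ℕ) := ⟨_, rfl⟩
  obtain ⟨K, hK⟩ : ∃ K : ℝ, K = (2 ^ 2 ^ (2 * d) * 2 ^ 2 ^ (2 * d) : ℕ) := ⟨_, rfl⟩
  have hM0 : 0 ≤ M := hM ▸ Nat.cast_nonneg _
  have hK0 : 0 ≤ K := hK ▸ Nat.cast_nonneg _
  refine ⟨2 * M ^ 3 + 2 * K, by positivity, fun J X _ _ _ _ c hc => ?_⟩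
  simp only [expect_pow_four]
  have h1 : ∀ T : Mat J X, conv c T ^ 2 ≤ 2 * M * ∑ A, wt c A * wt c (T + A) +
      2 * K * ∑ p : Finset (J → F2) × Finset (X → F2),
        ind (p ≠ (∅, ∅) ∧ 0 ∉ p.1 ∧ 0 ∉ p.2) * conv (filt p.1 p.2 c) T ^ 2 := by
    intro T
    by_cases hT : 2 * d < T.rank
    · rw [conv_eq_zero hc hT, zero_pow two_ne_zero]
      exact add_nonneg (mul_nonneg (by positivity) (sum_nonneg fun _ _ =>
        mul_nonneg (wt_nonneg _ _) (wt_nonneg _ _))) (mul_nonneg (by positivity)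
          (sum_nonneg fun _ _ => mul_nonneg (ind_nonneg _) (sq_nonneg _)))
    · have h2 := conv_sq_le c (not_lt.1 hT)
      have h3 := cl_sq_le c (not_lt.1 hT)
      rw [← hK] at h2
      rw [← hM] at h3
      linarith
  have h4 : ∑ T : Mat J X, ∑ A, wt c A * wt c (T + A) = (∑ A, wt c A) ^ 2 := by
    rw [sum_comm, sq, sum_mul]
    refine sum_congr rfl fun A _ => ?_
    rw [← mul_sum]
    congr 1
    exact Equiv.sum_comp (Equiv.addRight A) (wt c)
  have h5 : ∑ A, wt c A ≤ M * ∑ S, c S ^ 2 := hM ▸ sum_wt_le (by omega) hc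
  have h6 : (∑ A, wt c A) ^ 2 ≤ (M * ∑ S, c S ^ 2) ^ 2 :=
    pow_le_pow_left₀ (sum_nonneg fun _ _ => wt_nonneg _ _) h5 2
  refine (sum_le_sum fun T _ => h1 T).trans ?_
  rw [sum_add_distrib, ← mul_sum, ← mul_sum, h4, sum_comm]
  simp only [← mul_sum]
  obtain ⟨R, hR⟩ : ∃ R, R = ∑ p : Finset (J → F2) × Finset (X → F2),
      ind (p ≠ (∅, ∅) ∧ 0 ∉ p.1 ∧ 0 ∉ p.2) * ∑ T, conv (filt p.1 p.2 c) T ^ 2 := ⟨_, rfl⟩
  have hR0 : 0 ≤ R := hR ▸ sum_nonneg fun _ _ =>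
    mul_nonneg (ind_nonneg _) (sum_nonneg fun _ _ => sq_nonneg _)
  rw [← hR]
  have h7 := mul_le_mul_of_nonneg_left h6 (by positivity : 0 ≤ 2 * M)
  have h8 : 0 ≤ K * (∑ S, c S ^ 2) ^ 2 := by positivity
  have h9 : 0 ≤ M ^ 3 * R := by positivity
  nlinarith

end Vale.Agent.P342
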