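import Vale.Agent.P342.CoreA

/-! Decoding. -/

set_option linter.unusedSectionVars false

namespace Vale.Agent.P342

open Vale.Agent.P325 Vale.Agent.Lib.PolyTime Finset Matrix Module
open scoped BigOperators

namespace Cr

theorem count (hB : BesselThm) {Y I A : Type} [Fintype Y] [Nonempty Y] [Fintype I] [DecidableEq I]
    [Fintype A] [DecidableEq A] {k : ℕ} (hk : 0 < k) (P : (Fin k → Y) → Mat I (Fin k × A) → Prop)
    (Bad : Fin k → (Fin k → Y) → Mat I (Fin k × A) → Prop) {p γ τ B0 : ℝ} (hp : 0 ≤ p)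
    (hγ : 0 ≤ γ) (hP : p ≤ 𝔼 w, 𝔼 M, ind (P w M)) (hBad : ∀ w M, ∑ i, ind (Bad i w M) ≤ B0)
    (hZ : (Fintype.card (Mat I A) : ℝ) ≤ k * (p / 4) ^ 2)
    (hloc : ∀ i w M, γ * (𝔼 y, ind (P (Function.update w i y) (setBlk M i 0)) - p / 4) -
      𝔼 y, ind (Bad i (Function.update w i y) (setBlk M i 0)) ≤ τ) :
    k * (γ * (p / 2)) ≤ k * τ + Fintype.card (Mat I A) * B0 := by
  have h1 : ∀ i, γ * (𝔼 w, 𝔼 M, ind (P w (setBlk M i 0)) - p / 4) -
      𝔼 w, 𝔼 M, ind (Bad i w (setBlk M i 0)) ≤ τ := fun i => by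
    have h2 : 𝔼 w, 𝔼 M, (γ * (𝔼 y, ind (P (Function.update w i y) (setBlk M i 0)) - p / 4) -
        𝔼 y, ind (Bad i (Function.update w i y) (setBlk M i 0))) ≤ τ :=
      expect_le univ_nonempty fun w _ => expect_le univ_nonempty fun M _ => hloc i w M
    simp only [expect_sub_distrib, ← mul_expect, Fintype.expect_const] at h2
    rw [← expect_update i fun w => 𝔼 M, ind (P w (setBlk M i 0)),
      ← expect_update i fun w => 𝔼 M, ind (Bad i w (setBlk M i 0))]
    simpa only [expect_comm (univ : Finset Y)] using h2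
  have h3 : ∀ w, k * 𝔼 M, ind (P w M) - k * (p / 4) ≤ ∑ i, 𝔼 M, ind (P w (setBlk M i 0)) := by
    intro w
    have h4 := hB I A Unit k (fun _ _ => 0) fun M => ind (P w M)
    simp only [Fintype.expect_const, ind_sq] at h4
    have h5 := sq_sum_le_card_mul_sum_sq (s := (univ : Finset (Fin k)))
      (f := fun i => 𝔼 M, ind (P w (setBlk M i 0)) - 𝔼 M, ind (P w M))
    have h6 : (Fintype.card (Mat I A) : ℝ) * 𝔼 M, ind (P w M) ≤ k * (p / 4) ^ 2 :=
      (mul_le_of_le_one_right (Nat.cast_nonneg _) (expect_ind_le_one _ _)).trans hZ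
    rw [card_univ, Fintype.card_fin] at h5
    have h7 : (∑ i, (𝔼 M, ind (P w (setBlk M i 0)) - 𝔼 M, ind (P w M))) ^ 2
        ≤ (k * (p / 4)) ^ 2 := by
      refine h5.trans ((mul_le_mul_of_nonneg_left (h4.trans h6) (Nat.cast_nonneg _)).trans ?_)
      exact le_of_eq (by ring)
    have h8 := (abs_le_of_sq_le_sq' h7 (by positivity)).1
    rw [sum_sub_distrib, sum_const, card_univ, Fintype.card_fin, nsmul_eq_mul] at h8
    linarith
  have h4 : k * p - k * (p / 4) ≤ ∑ i, 𝔼 w, 𝔼 M, ind (P w (setBlk M i 0)) := by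
    rw [← expect_sum_comm]
    refine le_trans ?_ (expect_le_expect fun w _ => h3 w)
    rw [expect_sub_distrib, ← mul_expect, Fintype.expect_const]
    have := mul_le_mul_of_nonneg_left hP (Nat.cast_nonneg (α := ℝ) k)
    linarith
  have h5 : ∑ i, 𝔼 w, 𝔼 M, ind (Bad i w (setBlk M i 0)) ≤ Fintype.card (Mat I A) * B0 := by
    rw [← expect_sum_comm]
    refine expect_le univ_nonempty fun w _ => ?_
    refine (sum_le_sum fun i _ => expect_setBlk_zero_le i (fun M => ind (Bad i w M))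
      fun _ => ind_nonneg _).trans ?_
    rw [← mul_sum, ← expect_sum_comm]
    exact mul_le_mul_of_nonneg_left (expect_le univ_nonempty fun M _ => hBad w M)
      (Nat.cast_nonneg _)
  have h6 := sum_le_sum fun i (_ : i ∈ (univ : Finset (Fin k))) => h1 i
  rw [sum_sub_distrib, ← mul_sum, sum_sub_distrib] at h6
  simp only [sum_const, card_univ, Fintype.card_fin, nsmul_eq_mul] at h6
  have h7 := mul_le_mul_of_nonneg_left h4 hγ
  nlinarith

variable {U Ξ A B V : Type} [Fintype A] [DecidableEq A] [Fintype B] [DecidableEq B]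
  {al : U → Ξ → V} {pr : U → Ξ → A → B} {k l c t m : ℕ}
  {lab : Win U Ξ B k → Mat (Fin (l + 1)) (Fin k × A) → Fin c × Finset (Bv (l + 1))}

theorem edge_local (hG : GoodLab al pr t lab) (E : Mat (Fin (l + 1)) (Fin m)) (w : Win U Ξ B k)
    (M : Mat (Fin (l + 1)) (Fin k × A)) (i : Fin k) (u : U) (ω ω' : Ξ × (B → F2))
    (a : Fin m → F2) (ha : a ∈ odd (E 0)) (y : Fin k × A → F2) (N N' : Mat (Fin m) (Fin k × A))
    (h : ∀ x : Fin k × A, (if x.1 = i then ω.2 (pr u ω.1 x.2) else 0) =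
      (if x.1 = i then ω'.2 (pr u ω'.1 x.2) else 0) → ∀ j, N' j x = N j x + a j * y x)
    (hc : (lab (Function.update w i (u, ω)) (M + E * N)).1 =
      (lab (Function.update w i (u, ω')) (M + E * N')).1) :
    ∃ z ∈ (lab (Function.update w i (u, ω)) (M + E * N)).2,
      z ∈ (lab (Function.update w i (u, ω')) (M + E * N')).2 := by
  refine hG.edge _ _ _ _ (fun j => ?_) (fun x h0 h1 => ?_) hc
  · by_cases hj : j = i
    · subst hj
      simp
    · simp [hj]
  · have h2 : ω.2 (pr u ω.1 (x i)) = ω'.2 (pr u ω'.1 (x i)) := by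
      simp only [cls] at h1
      rw [← add_sum_erase _ _ (mem_univ i), ← add_sum_erase _ _ (mem_univ i),
        sum_congr rfl fun j hj => by rw [Function.update_of_ne (ne_of_mem_erase hj)],
        sum_congr (s₁ := univ.erase i) (f := fun j => (Function.update w i (u, ω') j).2.2 _) rfl
          fun j hj => by rw [Function.update_of_ne (ne_of_mem_erase hj)]] at h1
      simpa using h1
    have h3 : val N' x = val N x + (∑ j, y (j, x j)) • a := by
      funext j
      simp only [val, Pi.add_apply, Pi.smul_apply, smul_eq_mul, sum_mul, ← sum_add_distrib]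
      refine sum_congr rfl fun i' _ => ?_
      rw [h (i', x i') (by
        by_cases hi : i' = i
        · subst hi
          simpa using h2
        · simp [hi]) j, mul_comm]
    have h4 : (E *ᵥ a) 0 = 1 := mem_odd.1 ha
    rw [val_add_mul, val_add_mul, h3, mulVec_add, mulVec_smul, ← add_assoc] at h0 ⊢
    rw [Pi.add_apply _ (_ • _), Pi.smul_apply, h4, smul_eq_mul, mul_one, left_eq_add] at h0
    rw [h0, zero_smul, add_zero]

theorem cons_local (hG : GoodLab al pr t lab) (E : Mat (Fin (l + 1)) (Fin m)) (w : Win U Ξ B k)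
    (M : Mat (Fin (l + 1)) (Fin k × A)) (i : Fin k) {u u' : U} {ξ ξ' : Ξ} (τ : B → F2)
    (h : al u ξ = al u' ξ') (N : Mat (Fin m) ((Fin k × A) ⊕ B)) :
    lab (Function.update w i (u, ξ, τ)) (setBlk M i 0 + E * plant i (pr u ξ) N) =
      lab (Function.update w i (u', ξ', τ)) (setBlk M i 0 + E * plant i (pr u' ξ') N) := by
  refine hG.cons _ _ _ _ i (E * N.submatrix id Sum.inr) (fun j hj => by simp [hj])
    (by simpa using h) (by simp) (fun j x hx => ?_) (fun j a => ?_) fun j a => ?_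
  all_goals simp [setBlk, plant, Matrix.mul_apply, *]

theorem local_ineq {U Ξ T : Type} [Fintype U] [Fintype Ξ] [Fintype T] [Nonempty U] [Nonempty Ξ]
    [Nonempty T] (P Q Bad S : U → Ξ × T → Prop) {γ α τ : ℝ} (hγ : 0 ≤ γ) (hα : 0 ≤ α)
    (h1 : ∀ u, α ≤ 𝔼 ω, ind (P u ω) → γ ≤ 𝔼 ω, ind (Q u ω))
    (h2 : ∀ u ω, α ≤ 𝔼 ω, ind (P u ω) → Q u ω → ¬ Bad u ω → S u ω)
    (h3 : ∀ b, 𝔼 u, 𝔼 ξ, ind (S u (ξ, b)) ≤ τ) :
    γ * (𝔼 y : U × Ξ × T, ind (P y.1 y.2) - α) - 𝔼 y : U × Ξ × T, ind (Bad y.1 y.2) ≤ τ := by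
  have h4 : ∀ u, γ * (𝔼 ω, ind (P u ω) - α) - 𝔼 ω, ind (Bad u ω) ≤ 𝔼 ω, ind (S u ω) := by
    intro u
    by_cases h : α ≤ 𝔼 ω, ind (P u ω)
    · have h5 : 𝔼 ω, ind (Q u ω) ≤ 𝔼 ω, ind (S u ω) + 𝔼 ω, ind (Bad u ω) := by
        rw [← expect_add_distrib]
        refine expect_le_expect fun ω _ => le_trans (ind_mono fun hq => ?_) (ind_or_le _ _)
        by_cases hb : Bad u ω
        · exact Or.inr hb
        · exact Or.inl (h2 u ω h hq hb)
      have h6 := expect_ind_le_one univ (P u)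
      have h7 := h1 u h
      nlinarith
    · have h5 := expect_ind_nonneg univ (S u)
      have h6 := expect_ind_nonneg univ (Bad u)
      nlinarith [not_le.1 h]
  have h5 : 𝔼 u, 𝔼 ω, ind (S u ω) ≤ τ := by
    simp only [Fou.expect_prod_type]
    have e : ∀ u, 𝔼 ξ, 𝔼 b, ind (S u (ξ, b)) = 𝔼 b, 𝔼 ξ, ind (S u (ξ, b)) :=
      fun u => expect_comm _ _ _
    simp only [e]
    rw [expect_comm]
    exact expect_le univ_nonempty fun b _ => h3 b
  refine le_trans (le_of_eq ?_) ((expect_le_expect fun u _ => h4 u).trans h5)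
  rw [Fou.expect_prod_type, Fou.expect_prod_type, expect_sub_distrib, ← mul_expect,
    expect_sub_distrib, Fintype.expect_const]

end Cr

open Cr in
theorem core_of (hL : LevelThm) (hT : TermThm) (hB : BesselThm) (hP : PlantThm)
    (hC : SpecCardThm) : CoreThm := by
  intro c t
  rcases c.eq_zero_or_pos with rfl | hc
  · exact ⟨0, 1, 1, one_pos, one_pos, fun Ξ A B _ _ _ _ _ _ _ _ =>
      ⟨0, fun U V _ _ al pr _ _ lab _ => (lab (fun i => i.elim0) 0).1.elim0⟩⟩
  obtain ⟨l, r, η0, η1, p, hη0, hη1, hp, hlev⟩ := hL c t hc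
  obtain ⟨γ, hγ, hterm⟩ := hT t r (l + 1) η0 (p / 4) hη0 (by positivity)
  obtain ⟨n, hn⟩ := exists_pow_lt_of_lt_one (show 0 < γ / 2 by positivity)
    (show (1 / 2 : ℝ) < 1 by norm_num)
  set R := (l + 1) * ⌈1 / (η1 / 2) ^ 2⌉₊ with hR
  refine ⟨l, γ / (2 * (n ^ 2 + 1)), γ * p / (8 * (n * (2 ^ R * n) + 1)), by positivity,
    by positivity, fun Ξ A B _ _ _ _ _ _ _ _ => ?_⟩
  set Z : ℝ := (Fintype.card (Mat (Fin (l + 1)) A) : ℝ) with hZ
  have hZ0 : 0 < Z := by rw [hZ]; exact_mod_cast Fintype.card_pos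
  obtain ⟨k, hk⟩ := exists_nat_gt (max (Z / (p / 4) ^ 2) (Z * (4 * Z / η1 ^ 4) / (γ * p / 8)))
  have hk1 : Z ≤ k * (p / 4) ^ 2 :=
    ((div_lt_iff₀ (by positivity)).1 ((le_max_left _ _).trans_lt hk)).le
  have hk2 : Z * (4 * Z / η1 ^ 4) < k * (γ * p / 8) :=
    (div_lt_iff₀ (by positivity)).1 ((le_max_right _ _).trans_lt hk)
  have hk0 : 0 < k := by
    have : (0 : ℝ) < k := lt_of_le_of_lt (le_max_of_le_left (by positivity)) hk
    exact_mod_cast this
  refine ⟨k, fun U V _ _ al pr hsm hval lab hG => ?_⟩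
  obtain ⟨m, E, j0, s, η, δ, hm, hE, hE0, hs, hη, hδ, hpar, hPr⟩ :=
    hlev (Win U Ξ B k) (Fin k × A) lab hG.card
  classical
  let g : Win U Ξ B k → Mat (Fin (l + 1)) (Fin k × A) → Mat (Fin m) (Fin k × A) → ℝ :=
    fun w M => colInd (fun N => lab w (M + E * N)) j0 s
  let P : Win U Ξ B k → Mat (Fin (l + 1)) (Fin k × A) → Prop := fun w M =>
    ∃ D : Sub (Fin k × A), finrank F2 D ≤ r ∧ D ≤ spec η1 (g w M) ∧
      Term (E 0) (fun N => lab w (M + E * N)) j0 s η δ D
  let Dd : Win U Ξ B k → Mat (Fin (l + 1)) (Fin k × A) → Sub (Fin k × A) := fun w M =>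
    if h : P w M then h.choose else ⊥
  have hDd : ∀ w M, P w M → finrank F2 (Dd w M) ≤ r ∧ Dd w M ≤ spec η1 (g w M) ∧
      Term (E 0) (fun N => lab w (M + E * N)) j0 s η δ (Dd w M) := fun w M h => by
    have e : Dd w M = h.choose := dif_pos h
    rw [e]
    exact h.choose_spec
  let Bad : Fin k → Win U Ξ B k → Mat (Fin (l + 1)) (Fin k × A) → Prop := fun i w M =>
    ¬ ∀ d ∈ spec η1 (g w M), push i (pr (w i).1 (w i).2.1) d ∈
      spec (η1 / 2) fun N => g w M (plant i (pr (w i).1 (w i).2.1) N)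
  have hBad : ∀ w M, ∑ i, ind (Bad i w M) ≤ 4 * Z / η1 ^ 4 := fun w M => by
    refine (hP (Fin m) A B k (fun i => pr (w i).1 (w i).2.1) (g w M) η1 hη1
      fun _ => abs_ind_le_one _).trans ?_
    have : Fintype.card (Mat (Fin m) A) ≤ Fintype.card (Mat (Fin (l + 1)) A) := by
      simp only [Matrix, Fintype.card_fun, Fintype.card_fin]
      exact Nat.pow_le_pow_right (by positivity) hm
    rw [hZ]
    gcongr
  have hd : ∀ i w M u, p / 4 ≤ 𝔼 ω, ind (P (Function.update w i (u, ω)) M) →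
      ∃ d : Fin k × A → F2, blk i ⬝ᵥ d = 1 ∧ (univ.filter fun a => d (i, a) = 1).card ≤ n ∧
        γ ≤ 𝔼 ω, ind (P (Function.update w i (u, ω)) M ∧
          d ∈ Dd (Function.update w i (u, ω)) M) := by
    intro i w M u hu
    obtain ⟨d, h1, h2, h3⟩ := hterm (Fin m) (Fin k × A) (Ξ × (B → F2)) (Fin c) (Bv (l + 1)) (E 0)
      (blk i) (fun ω x => if x.1 = i then ω.2 (pr u ω.1 x.2) else 0) E.mulVecLin.toAddMonoidHom
      (fun ω N => lab (Function.update w i (u, ω)) (M + E * N)) j0 s η δ n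
      (fun ω => Dd (Function.update w i (u, ω)) M) (fun ω => P (Function.update w i (u, ω)) M)
      hE0 (by simpa using hm) hE hη hδ hs (by simpa using hpar) (fun _ _ => hG.card _ _)
      (fun ω N a ha => by
        rw [Matrix.mul_add, mul_vecMulVec, ← add_assoc]
        exact hG.shift _ _ i _ ha)
      (fun ω ω' a ha y N N' h hc => edge_local hG E w M i u ω ω' a ha y N N' h hc)
      (fun R' v h1 h2 => by
        have h3 : ∀ x ∈ R', x.1 = i := fun x hx => by
          by_contra hne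
          simpa [blk, hne] using h1 x hx
        have h4 : n ≤ (R'.image Prod.snd).card := by
          rwa [card_image_of_injOn fun x hx x' hx' h => Prod.ext (by rw [h3 x hx, h3 x' hx']) h]
        refine le_trans (expect_le_expect fun ω _ => ind_mono fun h a ha => ?_)
          ((pattern (pr u) (by positivity) (hsm u) _ h4 fun a => v (i, a)).trans ?_)
        · obtain ⟨x, hx, rfl⟩ := mem_image.1 ha
          have h5 := h x hx
          rwa [if_pos (h3 x hx), ← Prod.mk.eta (p := x), h3 x hx] at h5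
        · have : (n : ℝ) ^ 2 * (γ / (2 * (n ^ 2 + 1))) ≤ γ / 2 := by
            rw [← mul_div_assoc, div_le_div_iff₀ (by positivity) (by positivity)]
            nlinarith
          linarith)
      hu fun ω h => ⟨(hDd _ _ h).1, (hDd _ _ h).2.2⟩
    refine ⟨d, h1, le_trans ?_ h2, h3⟩
    exact card_le_card_of_injOn (fun a => (i, a)) (fun a ha => by simpa [blk] using ha)
      fun a _ a' _ h => (Prod.mk.inj h).2
  choose! d hd1 hd2 hd3 using hd
  have hcount := count hB hk0 P Bad hp.le hγ.le hPr hBad hk1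
    (τ := (n : ℝ) * (2 ^ R * n : ℕ) * (γ * p / (8 * (n * (2 ^ R * n) + 1)))) fun i w M => by
      let G : U → Ξ → (B → F2) → Mat (Fin m) ((Fin k × A) ⊕ B) → ℝ := fun u ξ τ N =>
        g (Function.update w i (u, ξ, τ)) (setBlk M i 0) (plant i (pr u ξ) N)
      have hGc : ∀ u ξ u' ξ' τ, al u ξ = al u' ξ' → G u ξ τ = G u' ξ' τ := by
        intro u ξ u' ξ' τ h
        funext N
        simp only [G, g, colInd, cons_local hG E w M i τ h N]
      let LA : (B → F2) → V → Finset B := fun τ v =>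
        if h : ∃ q : U × Ξ, al q.1 q.2 = v then aList (spec (η1 / 2) (G h.choose.1 h.choose.2 τ)) n
        else ∅
      have hLA : ∀ τ u ξ, LA τ (al u ξ) = aList (spec (η1 / 2) (G u ξ τ)) n := fun τ u ξ => by
        have h : ∃ q : U × Ξ, al q.1 q.2 = al u ξ := ⟨(u, ξ), rfl⟩
        simp only [LA, dif_pos h]
        rw [hGc _ _ u ξ τ h.choose_spec]
      let LB : U → Finset A := fun u =>
        if p / 4 ≤ 𝔼 ω, ind (P (Function.update w i (u, ω)) (setBlk M i 0)) then
          univ.filter fun a => d i w (setBlk M i 0) u (i, a) = 1 else ∅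
      refine local_ineq (fun u ω => P (Function.update w i (u, ω)) (setBlk M i 0))
        (fun u ω => P (Function.update w i (u, ω)) (setBlk M i 0) ∧
          d i w (setBlk M i 0) u ∈ Dd (Function.update w i (u, ω)) (setBlk M i 0))
        (fun u ω => Bad i (Function.update w i (u, ω)) (setBlk M i 0))
        (fun u ω => ∃ a ∈ LB u, pr u ω.1 a ∈ LA ω.2 (al u ω.1)) hγ.le (by positivity)
        (fun u => hd3 i w _ u) (fun u ω hu hq hb => ?_) fun τ => ?_
      · simp only [Bad, not_not, Function.update_self] at hb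
        simp only [LB, if_pos hu, hLA]
        exact mem_aList i _ (hd1 i w _ u hu) (hd2 i w _ u hu) (hb _ ((hDd _ _ hq.1).2.1 hq.2))
      · refine listDec al pr hval LB (LA τ) (fun u => ?_) fun v => ?_
        · simp only [LB]
          split_ifs with hu
          · exact hd2 i w _ u hu
          · simp
        · simp only [LA]
          split_ifs with hv
          · refine card_aList _ n ((hC _ _ _ _ (by positivity) fun _ => abs_ind_le_one _).trans ?_)
            exact Nat.mul_le_mul_right _ (by simpa using hm)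
          · simp
  have h1 : (n : ℝ) * (2 ^ R * n : ℕ) * (γ * p / (8 * (n * (2 ^ R * n) + 1))) ≤ γ * p / 8 := by
    push_cast
    rw [← mul_div_assoc, div_le_div_iff₀ (by positivity) (by positivity)]
    nlinarith [mul_pos hγ hp]
  have h2 := mul_le_mul_of_nonneg_left h1 (Nat.cast_nonneg (α := ℝ) k)
  have h3 : (0 : ℝ) < k * (γ * p) := by positivity
  rw [← hZ] at hcount
  nlinarith

end Vale.Agent.P342
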