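import Vale.Agent.P342.Basic

/-! Tools for the decoding step. -/

set_option linter.unusedSectionVars false

namespace Vale.Agent.P342.Cr

open Vale.Agent.P325 Finset Matrix Module
open scoped BigOperators

theorem exists_enum {A : Type} [Nonempty A] {n : ℕ} (s : Finset A) (h : s.card ≤ n) :
    ∃ e : Fin n → A, ∀ a ∈ s, ∃ i, e i = a := by
  refine ⟨fun i => s.toList.getD i (Classical.arbitrary A), fun a ha => ?_⟩
  obtain ⟨i, hi, rfl⟩ := List.mem_iff_getElem.1 (mem_toList.2 ha)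
  exact ⟨⟨i, by simp at hi; omega⟩, List.getD_eq_getElem _ _ hi⟩

/-- List decoding. -/
theorem listDec {U Ξ A B V : Type} [Fintype U] [Fintype Ξ] [Nonempty A] [Nonempty B]
    (al : U → Ξ → V) (pr : U → Ξ → A → B) {ε : ℝ}
    (h : ∀ (F : U → A) (G : V → B), 𝔼 u, 𝔼 ξ, ind (pr u ξ (F u) = G (al u ξ)) ≤ ε)
    {a1 a2 : ℕ} (LB : U → Finset A) (LA : V → Finset B) (h1 : ∀ u, (LB u).card ≤ a1)
    (h2 : ∀ v, (LA v).card ≤ a2) :
    𝔼 u, 𝔼 ξ, ind (∃ a ∈ LB u, pr u ξ a ∈ LA (al u ξ)) ≤ a1 * a2 * ε := by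
  choose e1 he1 using fun u => exists_enum (LB u) (h1 u)
  choose e2 he2 using fun v => exists_enum (LA v) (h2 v)
  calc 𝔼 u, 𝔼 ξ, ind (∃ a ∈ LB u, pr u ξ a ∈ LA (al u ξ))
      ≤ 𝔼 u, 𝔼 ξ, ∑ q : Fin a1 × Fin a2, ind (pr u ξ (e1 u q.1) = e2 (al u ξ) q.2) := by
        refine expect_le_expect fun u _ => expect_le_expect fun ξ _ =>
          le_trans (ind_mono ?_) (ind_exists_le _)
        rintro ⟨a, ha, hb⟩
        obtain ⟨i, rfl⟩ := he1 u a ha
        obtain ⟨j, hj⟩ := he2 _ _ hb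
        exact ⟨(i, j), hj.symm⟩
    _ = ∑ q : Fin a1 × Fin a2, 𝔼 u, 𝔼 ξ, ind (pr u ξ (e1 u q.1) = e2 (al u ξ) q.2) := by
        simp only [expect_sum_comm]
    _ ≤ ∑ _q : Fin a1 × Fin a2, ε :=
        sum_le_sum fun q _ => h (fun u => e1 u q.1) fun v => e2 v q.2
    _ = a1 * a2 * ε := by simp

theorem pattern_inj {A B : Type} [Fintype B] [DecidableEq B] (π : A → B) (R : Finset A)
    (hπ : Set.InjOn π R) (v : A → F2) :
    𝔼 τ : B → F2, ind (∀ a ∈ R, τ (π a) = v a) ≤ (1 / 2) ^ R.card := by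
  classical
  let v' : B → F2 := fun b => if h : ∃ a ∈ R, π a = b then v h.choose else 0
  have hv : ∀ a ∈ R, v' (π a) = v a := fun a ha => by
    have h : ∃ a' ∈ R, π a' = π a := ⟨a, ha, rfl⟩
    simp only [v', dif_pos h]
    rw [hπ h.choose_spec.1 ha h.choose_spec.2]
  let f : B → F2 → ℝ := fun b x => if b ∈ R.image π then ind (x = v' b) else 1
  have h1 : ∀ τ : B → F2, ind (∀ a ∈ R, τ (π a) = v a) ≤ ∏ b, f b (τ b) := fun τ => by
    by_cases h : ∀ a ∈ R, τ (π a) = v a
    · rw [ind_of h, prod_eq_one]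
      intro b _
      simp only [f]
      split_ifs with hb
      · obtain ⟨a, ha, rfl⟩ := mem_image.1 hb
        exact ind_of (by rw [h a ha, hv a ha])
      · rfl
    · rw [ind_of_not h]
      refine prod_nonneg fun b _ => ?_
      simp only [f]
      split_ifs
      · exact ind_nonneg _
      · exact zero_le_one
  refine (expect_le_expect fun τ _ => h1 τ).trans (le_of_eq ?_)
  rw [Fou.expect_prod_pi, ← card_image_of_injOn hπ, ← prod_const,
    ← prod_ite_mem_eq (R.image π) fun _ => (1 / 2 : ℝ)]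
  refine prod_congr rfl fun b _ => ?_
  simp only [f]
  split_ifs
  · rw [Fintype.expect_eq_sum_div_card]
    simp [ind_eq_ite]
  · simp

/-- Random class functions rarely follow a given pattern on a large set. -/
theorem pattern {Ξ A B : Type} [Fintype Ξ] [Nonempty Ξ] [DecidableEq A] [Fintype B]
    [DecidableEq B] (π : Ξ → A → B) {ζ : ℝ} (hζ : 0 ≤ ζ)
    (h : ∀ a a', a ≠ a' → 𝔼 ξ, ind (π ξ a = π ξ a') ≤ ζ) {n : ℕ} (R : Finset A) (hR : n ≤ R.card)
    (v : A → F2) :
    𝔼 ω : Ξ × (B → F2), ind (∀ a ∈ R, ω.2 (π ω.1 a) = v a) ≤ n ^ 2 * ζ + (1 / 2) ^ n := by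
  obtain ⟨R', hR', rfl⟩ := exists_subset_card_eq hR
  rw [Fou.expect_prod_type]
  have h1 : ∀ ξ, 𝔼 τ : B → F2, ind (∀ a ∈ R, τ (π ξ a) = v a) ≤
      ∑ q ∈ R' ×ˢ R', ind (q.1 ≠ q.2 ∧ π ξ q.1 = π ξ q.2) + (1 / 2) ^ R'.card := fun ξ => by
    by_cases hi : Set.InjOn (π ξ) R'
    · refine le_add_of_nonneg_of_le (sum_nonneg fun _ _ => ind_nonneg _) ?_
      exact (expect_le_expect fun τ _ => ind_mono fun h a ha => h a (hR' ha)).trans
        (pattern_inj (π ξ) R' hi v)
    · refine le_add_of_le_of_nonneg ((expect_ind_le_one _ _).trans ?_) (by positivity)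
      refine le_trans (ind_of ?_).ge (ind_exists_mem_le _ _)
      by_contra hn
      exact hi fun a ha a' ha' he => by
        by_contra hne
        exact hn ⟨(a, a'), mem_product.2 ⟨ha, ha'⟩, hne, he⟩
  refine (expect_le_expect fun ξ _ => h1 ξ).trans ?_
  rw [expect_add_distrib, Fintype.expect_const, expect_sum_comm]
  refine add_le_add_left ?_ _
  refine (sum_le_card_nsmul _ _ ζ fun q _ => ?_).trans (le_of_eq (by simp [sq]))
  by_cases hq : q.1 = q.2
  · rw [expect_eq_zero fun ξ _ => ind_of_not fun h => h.1 hq]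
    exact hζ
  · exact (expect_le_expect fun ξ _ => ind_mono fun h => h.2).trans (h _ _ hq)

theorem expect_update {ι Y : Type} [Fintype ι] [DecidableEq ι] [Fintype Y] [Nonempty Y] (i : ι)
    (φ : (ι → Y) → ℝ) : 𝔼 w, 𝔼 y, φ (Function.update w i y) = 𝔼 w, φ w := by
  have h := Fintype.expect_equiv (Function.Involutive.toPerm
    (fun q : (ι → Y) × Y => (Function.update q.1 i q.2, q.1 i)) fun q => by simp)
    (fun q => φ (Function.update q.1 i q.2)) (fun q => φ q.1) fun _ => rfl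
  rw [Fou.expect_prod_type, Fou.expect_prod_type] at h
  simpa using h

variable {J A : Type} [Fintype J] [DecidableEq J] [Fintype A] [DecidableEq A] {k : ℕ}

theorem expect_setBlk (i : Fin k) (φ : Mat J (Fin k × A) → ℝ) :
    𝔼 M, 𝔼 n, φ (setBlk M i n) = 𝔼 M, φ M := by
  have h := Fintype.expect_equiv (Function.Involutive.toPerm
    (fun q : Mat J (Fin k × A) × Mat J A =>
      (setBlk q.1 i q.2, (Matrix.of fun j a => q.1 j (i, a) : Mat J A))) fun q => by
        refine Prod.ext ?_ ?_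
        · ext j x
          obtain ⟨i', a⟩ := x
          by_cases h : i' = i <;> simp [setBlk, h]
        · ext j a
          simp [setBlk])
    (fun q => φ (setBlk q.1 i q.2)) (fun q => φ q.1) fun _ => rfl
  rw [Fou.expect_prod_type, Fou.expect_prod_type] at h
  simpa using h

theorem expect_setBlk_zero_le (i : Fin k) (φ : Mat J (Fin k × A) → ℝ) (h : ∀ M, 0 ≤ φ M) :
    𝔼 M, φ (setBlk M i 0) ≤ Fintype.card (Mat J A) * 𝔼 M, φ M := by
  rw [← expect_setBlk i φ, mul_expect]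
  refine expect_le_expect fun M _ => ?_
  rw [Fintype.card_mul_expect]
  exact single_le_sum (f := fun n => φ (setBlk M i n)) (fun _ _ => h _) (mem_univ 0)

theorem val_add_mul {I : Type} [Fintype I] (M : Mat I (Fin k × A)) (E : Mat I J)
    (N : Mat J (Fin k × A)) (x : Fin k → A) : val (M + E * N) x = val M x + E *ᵥ val N x := by
  funext j
  simp only [val, Matrix.add_apply, Matrix.mul_apply, sum_add_distrib, Pi.add_apply, mulVec,
    dotProduct, mul_sum]
  rw [sum_comm]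

/-- The list of the second prover. -/
noncomputable def aList {X B : Type} [Fintype X] [DecidableEq X] [Fintype B] [DecidableEq B]
    (D : Sub (X ⊕ B)) (n : ℕ) : Finset B := by
  classical
  exact (univ.filter fun d : X ⊕ B → F2 =>
    d ∈ D ∧ (univ.filter fun b => d (Sum.inr b) = 1).card ≤ n).biUnion
      fun d => univ.filter fun b => d (Sum.inr b) = 1

theorem card_aList {X B : Type} [Fintype X] [DecidableEq X] [Fintype B] [DecidableEq B]
    (D : Sub (X ⊕ B)) (n : ℕ) {R : ℕ} (h : finrank F2 D ≤ R) : (aList D n).card ≤ 2 ^ R * n := by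
  classical
  refine (card_biUnion_le_card_mul _ _ n fun d hd => (mem_filter.1 hd).2.2).trans
    (Nat.mul_le_mul_right _ ?_)
  refine le_trans ?_ ((card_sub D).le.trans (Nat.pow_le_pow_right two_pos h))
  rw [← Nat.card_eq_finsetCard]
  exact Nat.card_le_card_of_injective
    (fun d => (⟨d.1, (mem_filter.1 d.2).2.1⟩ : D)) fun d d' h =>
      Subtype.ext (Subtype.mk.inj h)

theorem mem_aList {B : Type} [Fintype B] [DecidableEq B] (i : Fin k) (π : A → B)
    {D : Sub ((Fin k × A) ⊕ B)} {n : ℕ} {d : Fin k × A → F2} (hd : blk i ⬝ᵥ d = 1)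
    (hn : (univ.filter fun a => d (i, a) = 1).card ≤ n) (hD : push i π d ∈ D) :
    ∃ a ∈ univ.filter fun a => d (i, a) = 1, π a ∈ aList D n := by
  classical
  have h1 : ∀ b, push i π d (Sum.inr b) = 1 → ∃ a, d (i, a) = 1 ∧ π a = b := fun b hb => by
    by_contra hc
    have : push i π d (Sum.inr b) = 0 := sum_eq_zero fun a ha =>
      (Fou.zmod2 _).resolve_right fun h => hc ⟨a, h, (mem_filter.1 ha).2⟩
    rw [this] at hb
    exact zero_ne_one hb
  have h2 : ∑ b, push i π d (Sum.inr b) = 1 := by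
    rw [← hd]
    simp only [push, Sum.elim_inr, dotProduct, blk, Fintype.sum_prod_type, ite_mul, one_mul,
      zero_mul]
    rw [sum_fiberwise, sum_comm]
    simp
  obtain ⟨b, hb⟩ : ∃ b, push i π d (Sum.inr b) = 1 := by
    by_contra hc
    rw [sum_eq_zero fun b _ => (Fou.zmod2 _).resolve_right fun h => hc ⟨b, h⟩] at h2
    exact zero_ne_one h2
  obtain ⟨a, ha, rfl⟩ := h1 b hb
  refine ⟨a, mem_filter.2 ⟨mem_univ _, ha⟩, mem_biUnion.2 ⟨push i π d,
    mem_filter.2 ⟨mem_univ _, hD, le_trans ?_ hn⟩, mem_filter.2 ⟨mem_univ _, hb⟩⟩⟩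
  refine le_trans (card_le_card fun b hb => ?_) (card_image_le (f := π))
  obtain ⟨a, ha, rfl⟩ := h1 b (mem_filter.1 hb).2
  exact mem_image_of_mem _ (mem_filter.2 ⟨mem_univ _, ha⟩)

end Vale.Agent.P342.Cr
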