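import Vale.Agent.P342.Basic

/-! Lists of coordinates for dense sets. -/

namespace Vale.Agent.P342

open Vale.Agent.P325 Vale.Agent.Lib.PolyTime Finset Matrix Module
open scoped BigOperators

namespace Dm

variable {K : Type} [Fintype K] [DecidableEq K]

theorem expect_piecewise (R : Finset K) (f : (K → Fin 4) → ℝ) :
    𝔼 Φ, 𝔼 Ψ, f (R.piecewise Ψ Φ) = 𝔼 Φ, f Φ := by
  have h := Fintype.expect_equiv (Function.Involutive.toPerm
    (fun q : (K → Fin 4) × (K → Fin 4) => (R.piecewise q.2 q.1, R.piecewise q.1 q.2)) fun q => by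
      refine Prod.ext ?_ ?_ <;> funext z <;> by_cases h : z ∈ R <;> simp [h])
    (fun q => f (R.piecewise q.2 q.1)) (fun q => f q.1) fun _ => rfl
  rw [Fou.expect_prod_type, Fou.expect_prod_type] at h
  simpa using h

/-- Density of the uniform measure on a subcube. -/
noncomputable def rho (R : Finset K) (y Φ : K → Fin 4) : ℝ :=
  4 ^ R.card * ind (∀ z ∈ R, Φ z = y z)

theorem expect_rho (R : Finset K) (y : K → Fin 4) : 𝔼 Φ, rho R y Φ = 1 := by
  have h : ∀ Φ : K → Fin 4, rho R y Φ = ∏ z, if z ∈ R then 4 * ind (Φ z = y z) else 1 := by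
    intro Φ
    rw [prod_ite_mem_eq, prod_mul_distrib, prod_const, rho]
    congr 1
    by_cases h : ∀ z ∈ R, Φ z = y z
    · rw [ind_of h, prod_eq_one fun z hz => ind_of (h z hz)]
    · rw [ind_of_not h]
      push Not at h
      obtain ⟨z, hz, h⟩ := h
      exact (prod_eq_zero hz (ind_of_not h)).symm
  simp only [h]
  rw [Fou.expect_prod_pi fun z x => if z ∈ R then 4 * ind (x = y z) else 1]
  refine prod_eq_one fun z _ => ?_
  split_ifs
  · rw [Fintype.expect_eq_sum_div_card]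
    simp [ind_eq_ite]
  · simp

theorem expect_mul_rho (R : Finset K) (y : K → Fin 4) (f : (K → Fin 4) → ℝ) :
    𝔼 Φ, f Φ * rho R y Φ = 𝔼 Φ, f (R.piecewise y Φ) := by
  rw [← expect_piecewise R]
  refine expect_congr rfl fun Φ _ => ?_
  rw [← mul_one (f (R.piecewise y Φ)), ← expect_rho R y, mul_expect]
  refine expect_congr rfl fun Ψ _ => ?_
  have e : rho R y (R.piecewise Ψ Φ) = rho R y Ψ := by
    unfold rho
    rw [ind_congr (forall₂_congr fun z hz => by rw [piecewise_eq_of_mem _ _ _ hz])]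
  rw [e]
  by_cases h : ∀ z ∈ R, Ψ z = y z
  · rw [piecewise_congr _ h fun _ _ => rfl]
  · simp [rho, ind_of_not h]

/-- Deviating sets of coordinates. -/
def dev (μ : ℝ) (t : ℕ) (S : Finset (K → Fin 4)) (R : Finset K) : Prop :=
  R.card ≤ t ∧ ∃ y, 𝔼 Φ, ind (R.piecewise y Φ ∈ S) < μ / 2

theorem bound {μ : ℝ} (hμ : 0 < μ) {t : ℕ} {S : Finset (K → Fin 4)} (hS : μ ≤ 𝔼 Φ, ind (Φ ∈ S))
    (F : Finset (Finset K)) (h1 : ∀ R ∈ F, dev μ t S R)
    (h2 : ∀ R ∈ F, ∀ R' ∈ F, R ≠ R' → Disjoint R R') : F.card ≤ ⌈4 * 4 ^ t / μ ^ 2⌉₊ := by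
  choose! y hy using fun R hR => (h1 R hR).2
  have a1 : ∀ R ∈ F, ∀ R' ∈ F, 𝔼 Φ, (1 - rho R (y R) Φ) * (1 - rho R' (y R') Φ) ≤
      if R = R' then 4 ^ t else 0 := by
    intro R hR R' hR'
    have e : ∀ Φ, (1 - rho R (y R) Φ) * (1 - rho R' (y R') Φ) =
        1 - rho R (y R) Φ - rho R' (y R') Φ + rho R (y R) Φ * rho R' (y R') Φ := fun Φ => by ring
    simp only [e, expect_add_distrib, expect_sub_distrib, expect_rho, Fintype.expect_const,
      expect_mul_rho]
    split_ifs with h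
    · have : 𝔼 Φ, rho R (y R) (R'.piecewise (y R') Φ) ≤ 4 ^ t :=
        expect_le univ_nonempty fun Φ _ => (mul_le_of_le_one_right (by positivity)
          (ind_le_one _)).trans (pow_le_pow_right₀ (by norm_num) (h1 R hR).1)
      linarith
    · have : ∀ Φ, rho R (y R) (R'.piecewise (y R') Φ) = rho R (y R) Φ := fun Φ => by
        unfold rho
        rw [ind_congr (forall₂_congr fun z hz => by
          rw [piecewise_eq_of_notMem _ _ _ (disjoint_left.1 (h2 R hR R' hR' h) hz)])]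
      simp only [this, expect_rho]
      norm_num
  have a2 : 𝔼 Φ, (∑ R ∈ F, (1 - rho R (y R) Φ)) ^ 2 ≤ F.card * 4 ^ t := by
    simp only [sq, sum_mul_sum, expect_sum_comm]
    refine (sum_le_card_nsmul _ _ (4 ^ t) fun R hR => ?_).trans (le_of_eq (nsmul_eq_mul _ _))
    refine (sum_le_sum fun R' hR' => a1 R hR R' hR').trans ?_
    simp [hR]
  have a3 : F.card * (μ / 2) ≤ 𝔼 Φ, ind (Φ ∈ S) * ∑ R ∈ F, (1 - rho R (y R) Φ) := by
    simp only [mul_sum, expect_sum_comm, mul_sub, mul_one, expect_sub_distrib]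
    rw [← nsmul_eq_mul]
    refine card_nsmul_le_sum _ _ _ fun R hR => ?_
    rw [expect_mul_rho R (y R) fun Φ => ind (Φ ∈ S)]
    linarith [hy R hR]
  have a4 := expect_mul_sq_le_sq_mul_sq univ (fun Φ => ind (Φ ∈ S))
    fun Φ => ∑ R ∈ F, (1 - rho R (y R) Φ)
  simp only [ind_sq] at a4
  have a5 : (F.card * (μ / 2)) ^ 2 ≤ F.card * 4 ^ t :=
    (pow_le_pow_left₀ (by positivity) a3 2).trans (a4.trans ((mul_le_of_le_one_left
      (expect_nonneg fun _ _ => sq_nonneg _) (expect_ind_le_one _ _)).trans a2))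
  rcases F.card.eq_zero_or_pos with h0 | h0
  · omega
  have h3 : (0 : ℝ) < F.card := by exact_mod_cast h0
  refine Nat.cast_le.1 (le_trans ?_ (Nat.le_ceil (4 * 4 ^ t / μ ^ 2 : ℝ)))
  rw [le_div_iff₀ (by positivity)]
  refine le_of_mul_le_mul_left ?_ h3
  nlinarith

theorem exists_ext {μ : ℝ} (hμ : 0 < μ) (t : ℕ) {S : Finset (K → Fin 4)}
    (hS : μ ≤ 𝔼 Φ, ind (Φ ∈ S)) : ∃ T : Finset K, T.card ≤ ⌈4 * 4 ^ t / μ ^ 2⌉₊ * t ∧
      ∀ R, dev μ t S R → ∃ z ∈ R, z ∈ T := by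
  classical
  obtain ⟨F, hF, hmax⟩ := exists_max_image (univ.filter fun F : Finset (Finset K) =>
    (∀ R ∈ F, dev μ t S R) ∧ ∀ R ∈ F, ∀ R' ∈ F, R ≠ R' → Disjoint R R') card ⟨∅, by simp⟩
  obtain ⟨h1, h2⟩ := (mem_filter.1 hF).2
  refine ⟨F.biUnion id, (card_biUnion_le_card_mul _ _ t fun R hR => (h1 R hR).1).trans
    (Nat.mul_le_mul_right _ (bound hμ hS F h1 h2)), fun R hR => ?_⟩
  by_contra hn
  have h3 : ∀ R' ∈ F, Disjoint R R' := fun R' hR' =>
    disjoint_left.2 fun z hz hz' => hn ⟨z, hz, mem_biUnion.2 ⟨R', hR', hz'⟩⟩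
  have h4 : R ∉ F := fun h => by
    obtain ⟨y, hy⟩ := hR.2
    rw [disjoint_self.1 (h3 R h)] at hy
    simp only [bot_eq_empty, piecewise_empty] at hy
    linarith
  have h5 := hmax (insert R F) (mem_filter.2 ⟨mem_univ _, by simpa [hR] using h1, ?_⟩)
  · rw [card_insert_of_notMem h4] at h5
    omega
  · intro A hA A' hA' hne
    rcases mem_insert.1 hA with rfl | hA1 <;> rcases mem_insert.1 hA' with rfl | hA2
    · exact (hne rfl).elim
    · exact h3 _ hA2
    · exact (h3 _ hA1).symm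
    · exact h2 _ hA1 _ hA2 hne

end Dm

open Dm in
theorem dmr_of (h : LemJThm) : DMRThm := by
  intro μ hμ
  obtain ⟨t, ht⟩ := h μ hμ
  refine ⟨t + ⌈4 * 4 ^ t / μ ^ 2⌉₊ * t, fun K _ _ => ?_⟩
  choose! T y hT hy using ht K
  choose! X hX hX' using fun S : Finset (K → Fin 4) => exists_ext hμ t (S := S)
  refine ⟨fun S => if μ ≤ 𝔼 Φ, ind (Φ ∈ S) then T S ∪ X S else ∅, fun S => ?_,
    fun S S' ρ hS hS' hno => ?_⟩
  · dsimp only
    split_ifs with hS
    · exact (card_union_le _ _).trans (add_le_add (hT S hS) (hX S hS))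
    · simp
  simp only [if_pos hS, if_pos hS']
  have hdev : dev μ t S' ((T S).map ρ.toEmbedding) := by
    refine ⟨by simpa using hT S hS, fun z => y S (ρ.symm z), ?_⟩
    have e := Fintype.expect_equiv (Equiv.arrowCongr ρ (Equiv.refl (Fin 4)))
      (fun Φ => ind ((fun z => (T S).piecewise (y S) Φ (ρ.symm z)) ∈ S'))
      (fun Φ => ind (((T S).map ρ.toEmbedding).piecewise (fun z => y S (ρ.symm z)) Φ ∈ S'))
      fun Φ => by
        congr 2
        funext z
        by_cases hz : ρ.symm z ∈ T S <;> simp [hz]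
    rw [← e]
    have h1 := hy S hS
    have h2 : 𝔼 Φ, ind ((fun z => (T S).piecewise (y S) Φ (ρ.symm z)) ∈ S') ≤
        1 - 𝔼 Φ', ind (∃ Φ ∈ S, ∀ z, Φ z ≠ (T S).piecewise (y S) Φ' z) := by
      rw [← Fintype.expect_const (ι := K → Fin 4) (1 : ℝ), ← expect_sub_distrib]
      refine expect_le_expect fun Φ' _ => ?_
      rw [← ind_not]
      refine ind_mono ?_
      rintro h3 ⟨Φ, hΦ, h4⟩
      obtain ⟨z, hz⟩ := hno Φ hΦ _ h3
      exact h4 z (by rwa [Equiv.symm_apply_apply] at hz)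
    linarith
  obtain ⟨z, hz, hz'⟩ := hX' S' hS' _ hdev
  obtain ⟨z0, hz0, rfl⟩ := mem_map.1 hz
  exact ⟨z0, mem_union_left _ hz0, mem_union_right _ hz'⟩

end Vale.Agent.P342
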