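import Vale.Agent.P342.StDefs
import Vale.Agent.P325.Fourier
import Vale.Agent.P325.PTools

/-! Definitions and interfaces for the proof that approximate colouring is NP-hard. -/

namespace Vale.Agent.P342

open Vale.Agent.P325 Vale.Agent.Lib.PolyTime Finset Matrix Module
open scoped BigOperators

/-- The field with two elements. -/
abbrev F2 : Type := ZMod 2

/-- Matrices over the field with two elements. -/
abbrev Mat (J X : Type) : Type := Matrix J X F2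

/-- Subspaces of bit vectors. -/
abbrev Sub (X : Type) : Type := Submodule F2 (X → F2)

open Classical in
/-- Indicator of a proposition. -/
noncomputable def ind (p : Prop) : ℝ := if p then 1 else 0

section Matrices

variable {J X : Type} [Fintype J] [DecidableEq J] [Fintype X] [DecidableEq X]

/-- The pairing of matrices. -/
def pair (S N : Mat J X) : F2 := ∑ j, S j ⬝ᵥ N j

/-- Fourier coefficient. -/
noncomputable def coefM (f : Mat J X → ℝ) (S : Mat J X) : ℝ := 𝔼 N, f N * sg (pair S N)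

/-- The function with given Fourier coefficients. -/
noncomputable def synth (c : Mat J X → ℝ) (N : Mat J X) : ℝ := ∑ S, c S * sg (pair S N)

/-- The part of rank exactly `d`. -/
noncomputable def part (d : ℕ) (f : Mat J X → ℝ) : Mat J X → ℝ :=
  synth fun S => if S.rank = d then coefM f S else 0

open Classical in
/-- Matrices killed by `Q` on the left and by `D` on the right (an additive subgroup). -/
noncomputable def box (Q : Sub J) (D : Sub X) : Finset (Mat J X) :=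
  univ.filter fun N => (∀ q ∈ Q, q ᵥ* N = 0) ∧ ∀ d ∈ D, N *ᵥ d = 0

open Classical in
/-- The annihilator of a subspace. -/
noncomputable def ann (D : Sub X) : Finset (X → F2) :=
  univ.filter fun y => ∀ d ∈ D, y ⬝ᵥ d = 0

/-- Vectors on which the functional `ψ` is one. -/
def odd (ψ : J → F2) : Finset (J → F2) := univ.filter fun a => ψ ⬝ᵥ a = 1

/-- Average of `g` along the line through `N` in the direction `a` inside the atom of `D`. -/
noncomputable def lineAvg (g : Mat J X → ℝ) (D : Sub X) (a : J → F2) (N : Mat J X) : ℝ :=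
  𝔼 y ∈ ann D, g (N + vecMulVec a y)

/-- `f` is global: its second moment on every restriction of order `d` is at most `e`. -/
def Glob (d : ℕ) (e : ℝ) (f : Mat J X → ℝ) : Prop :=
  ∀ (Q : Sub J) (D : Sub X), finrank F2 Q ≤ d → finrank F2 D ≤ d →
    ∀ N0 : Mat J X, 𝔼 N ∈ box Q D, f (N0 + N) ^ 2 ≤ e

/-- Column space. -/
def colSp (S : Mat J X) : Sub J := LinearMap.range S.mulVecLin

/-- Row space. -/
def rowSp (S : Mat J X) : Sub X := LinearMap.range Sᵀ.mulVecLin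

/-- Keep the coefficients at matrices whose column space contains `A` and row space `B`. -/
noncomputable def filt (A : Finset (J → F2)) (B : Finset (X → F2)) (c : Mat J X → ℝ)
    (S : Mat J X) : ℝ :=
  ind ((∀ q ∈ A, q ∈ colSp S) ∧ ∀ w ∈ B, w ∈ rowSp S) * c S

/-- The span of the rows of the large Fourier coefficients. -/
def spec (η : ℝ) (g : Mat J X → ℝ) : Sub X :=
  Submodule.span F2 {v | ∃ S : Mat J X, η ≤ |coefM g S| ∧ ∃ j, v = S j}

/-- `Y` lies in the atom of `D` through `N1`, has relative density at least `η` there, and each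
label outside `s` is expanding along lines. -/
def Atom {Λ : Type} (ψ : J → F2) (D : Sub X) (N1 : Mat J X) (Y : Finset (Mat J X))
    (L : Mat J X → Finset Λ) (s : Finset Λ) (η δ : ℝ) : Prop :=
  (∀ N ∈ Y, ∀ d ∈ D, N *ᵥ d = N1 *ᵥ d) ∧ η ≤ 𝔼 N ∈ box ⊥ D, ind (N1 + N ∈ Y) ∧
    ∀ z, z ∉ s →
      𝔼 a ∈ odd ψ, 𝔼 N ∈ box ⊥ D, lineAvg (fun P => ind (P ∈ Y ∧ z ∈ L P)) D a (N1 + N) ^ 2 ≤
        δ * 𝔼 N ∈ box ⊥ D, ind (N1 + N ∈ Y ∧ z ∈ L (N1 + N))

/-- Terminal labellings: a monochromatic set `Y` as in `Atom`. -/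
def Term {C Λ : Type} (ψ : J → F2) (lb : Mat J X → C × Finset Λ) (j0 : C) (s : Finset Λ)
    (η δ : ℝ) (D : Sub X) : Prop :=
  ∃ (N1 : Mat J X) (Y : Finset (Mat J X)), (∀ N ∈ Y, (lb N).1 = j0) ∧
    Atom ψ D N1 Y (fun N => (lb N).2) s η δ

/-- Indicator of the colour `j0` and the labels `s`. -/
noncomputable def colInd {C Λ : Type} (lb : Mat J X → C × Finset Λ) (j0 : C) (s : Finset Λ)
    (N : Mat J X) : ℝ :=
  ind ((lb N).1 = j0 ∧ s ⊆ (lb N).2)

end Matrices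

section Blocks

variable {J A B : Type} {k : ℕ}

/-- Indicator vector of the block `i`. -/
def blk (i : Fin k) : Fin k × A → F2 := fun x => if x.1 = i then 1 else 0

/-- Replace the block `i`. -/
def setBlk (N : Mat J (Fin k × A)) (i : Fin k) (n : Mat J A) : Mat J (Fin k × A) :=
  Matrix.of fun j x => if x.1 = i then n j x.2 else N j x

/-- Data whose block `i` factors through `π`. -/
def plant (i : Fin k) (π : A → B) (N : Mat J ((Fin k × A) ⊕ B)) : Mat J (Fin k × A) :=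
  Matrix.of fun j x => if x.1 = i then N j (Sum.inr (π x.2)) else N j (Sum.inl x)

/-- The adjoint of `plant`. -/
def push [Fintype A] [DecidableEq B] (i : Fin k) (π : A → B) (d : Fin k × A → F2) :
    (Fin k × A) ⊕ B → F2 :=
  Sum.elim (fun x => if x.1 = i then 0 else d x)
    fun b => ∑ a ∈ univ.filter fun a => π a = b, d (i, a)

/-- The value of the data at a tuple of labels. -/
def val (M : Mat J (Fin k × A)) (x : Fin k → A) : J → F2 := fun j => ∑ i, M j (i, x i)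

/-- The class bit given by the functions `τ` on the small alphabet. -/
def cls (π : Fin k → A → B) (τ : Fin k → B → F2) (x : Fin k → A) : F2 := ∑ i, τ i (π i (x i))

end Blocks

/-! ### Global hypercontractivity and expansion -/

/-- Clean pairs by Cauchy-Schwarz, the other pairs by inclusion and exclusion. -/
def CleanThm : Prop :=
  ∀ d : ℕ, ∃ C : ℝ, 0 ≤ C ∧ ∀ (J X : Type) [Fintype J] [DecidableEq J] [Fintype X] [DecidableEq X]
    (c : Mat J X → ℝ), (∀ S, d < S.rank → c S = 0) →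
    𝔼 N, synth c N ^ 4 ≤ C * (∑ S, c S ^ 2) ^ 2 +
      C * ∑ p : Finset (J → F2) × Finset (X → F2),
        ind (p ≠ (∅, ∅) ∧ 0 ∉ p.1 ∧ 0 ∉ p.2) * 𝔼 N, synth (filt p.1 p.2 c) N ^ 4

/-- Hypercontractivity for global functions. -/
def LevelDThm : Prop :=
  ∀ d : ℕ, ∃ C : ℝ, 0 ≤ C ∧ ∀ (J X : Type) [Fintype J] [DecidableEq J] [Fintype X] [DecidableEq X]
    (f : Mat J X → ℝ) (e : ℝ), Glob d e f →
    𝔼 N, part d f N ^ 4 ≤ C * e * 𝔼 N, part d f N ^ 2

/-- Expansion of global sets along lines in directions `a` with `ψ ⬝ᵥ a = 1`. -/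
def ExpThm : Prop :=
  ∀ δ : ℝ, 0 < δ → ∃ (r : ℕ) (η : ℝ), 0 < η ∧
    ∀ (J X : Type) [Fintype J] [DecidableEq J] [Fintype X] [DecidableEq X]
      (ψ : J → F2) (D : Sub X) (N1 : Mat J X) (g : Mat J X → ℝ), ψ ≠ 0 →
      (∀ N, 0 ≤ g N ∧ g N ≤ 1) →
      (∀ (Q : Sub J) (D' : Sub X), finrank F2 Q ≤ r → (∃ a ∈ odd ψ, a ∈ ann Q) → D ≤ D' →
        finrank F2 D' ≤ finrank F2 D + r → ∀ N2 ∈ box ⊥ D, 𝔼 N ∈ box Q D', g (N1 + N2 + N) ≤ η) →
      𝔼 a ∈ odd ψ, 𝔼 N ∈ box ⊥ D, lineAvg g D a (N1 + N) ^ 2 ≤ δ * 𝔼 N ∈ box ⊥ D, g (N1 + N)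

/-! ### The large spectrum -/

/-- An atom can be replaced by an atom inside the span of the large spectrum. -/
def SpecAtomThm : Prop :=
  ∀ (J X : Type) [Fintype J] [DecidableEq J] [Fintype X] [DecidableEq X]
    (g : Mat J X → ℝ) (D : Sub X) (N1 : Mat J X) (η : ℝ), 0 ≤ η →
    ∃ D' : Sub X, D' ≤ D ∧ D' ≤ spec η g ∧
      𝔼 N ∈ box ⊥ D, g (N1 + N) - 2 ^ (Fintype.card J * finrank F2 D) * η ≤
        𝔼 N ∈ box ⊥ D', g (N1 + N)

/-- The large spectrum has bounded dimension. -/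
def SpecCardThm : Prop :=
  ∀ (J X : Type) [Fintype J] [DecidableEq J] [Fintype X] [DecidableEq X]
    (g : Mat J X → ℝ) (η : ℝ), 0 < η → (∀ N, |g N| ≤ 1) →
    finrank F2 (spec η g) ≤ Fintype.card J * ⌈1 / η ^ 2⌉₊

/-- Resampling one block rarely changes an expectation. -/
def BesselThm : Prop :=
  ∀ (J A Z : Type) [Fintype J] [DecidableEq J] [Fintype A] [DecidableEq A] [Fintype Z] [Nonempty Z]
    (k : ℕ) (φ : Fin k → Z → Mat J A) (f : Mat J (Fin k × A) → ℝ),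
    ∑ i, (𝔼 N, 𝔼 z, f (setBlk N i (φ i z)) - 𝔼 N, f N) ^ 2 ≤
      Fintype.card (Mat J A) * 𝔼 N, f N ^ 2

/-- For all but boundedly many blocks the large spectrum survives planting. -/
def PlantThm : Prop :=
  ∀ (J A B : Type) [Fintype J] [DecidableEq J] [Fintype A] [DecidableEq A] [Fintype B]
    [DecidableEq B] (k : ℕ) (π : Fin k → A → B) (g : Mat J (Fin k × A) → ℝ) (η : ℝ), 0 < η →
    (∀ N, |g N| ≤ 1) →
    ∑ i, ind (¬ ∀ d ∈ spec η g, push i (π i) d ∈ spec (η / 2) fun N => g (plant i (π i) N)) ≤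
      4 * Fintype.card (Mat J A) / η ^ 4

/-! ### The structure of list labellings -/

/-- Choice of the terminal level. -/
def LevelThm : Prop :=
  ∀ c t : ℕ, 0 < c → ∃ (l r : ℕ) (η0 η1 p : ℝ), 0 < η0 ∧ 0 < η1 ∧ 0 < p ∧
    ∀ (W X : Type) [Fintype W] [Nonempty W] [Fintype X] [DecidableEq X]
      (lab : W → Mat (Fin (l + 1)) X → Fin c × Finset (Bv (l + 1))),
      (∀ w M, (lab w M).2.card ≤ t) →
      ∃ (m : ℕ) (E : Mat (Fin (l + 1)) (Fin m)) (j0 : Fin c) (s : Finset (Bv (l + 1)))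
        (η δ : ℝ), m ≤ l + 1 ∧ Function.Injective E.mulVec ∧ E 0 ≠ 0 ∧ s.card ≤ t ∧ η0 ≤ η ∧
        0 ≤ δ ∧ 2 * (t : ℝ) ^ 2 / 2 ^ m + 2 * t * √(δ * t) ≤ η ^ 2 / 2 ∧
        p ≤ 𝔼 w, 𝔼 M : Mat (Fin (l + 1)) X, ind (∃ D : Sub X, finrank F2 D ≤ r ∧
          D ≤ spec η1 (colInd (fun N => lab w (M + E * N)) j0 s) ∧
          Term (E 0) (fun N => lab w (M + E * N)) j0 s η δ D)

/-- The positive semidefinite counting argument. -/
def MixThm : Prop :=
  ∀ (J X Θ Λ : Type) [Fintype J] [DecidableEq J] [Fintype X] [DecidableEq X] [Fintype Θ]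
    [Nonempty Θ] [Fintype Λ] [DecidableEq Λ] (ψ : J → F2) (t r : ℕ) (η δ γ ϑ : ℝ) (D0 : Sub X)
    (N0 : Mat J X) (D : Θ → Sub X) (N1 : Θ → Mat J X) (Y : Θ → Finset (Mat J X))
    (L : Θ → Mat J X → Finset Λ) (s : Θ → Finset Λ), ψ ≠ 0 → 0 ≤ η → 0 ≤ δ → 0 ≤ ϑ → ϑ ≤ 1 →
    (∀ θ, finrank F2 (D θ) ≤ r) → (∀ θ, D0 ≤ D θ) → (∀ θ, ∀ d ∈ D0, N1 θ *ᵥ d = N0 *ᵥ d) →
    (∀ θ N, (L θ N).card ≤ t) → (∀ θ, Atom ψ (D θ) (N1 θ) (Y θ) (L θ) (s θ) η δ) →
    2 ^ (Fintype.card J * r) * 𝔼 θ, 𝔼 θ', ind (D θ ⊓ D θ' ≠ D0) ≤ ϑ ^ 2 →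
    𝔼 θ, 𝔼 θ', ind (∃ z ∈ s θ, z ∈ s θ') ≤ γ →
    (∀ θ θ', ∀ a ∈ odd ψ, ∀ N ∈ Y θ, ∀ y, N + vecMulVec a y ∈ Y θ' →
      ∃ z ∈ L θ N, z ∈ L θ' (N + vecMulVec a y)) →
    η ^ 2 ≤ γ + ϑ ^ 2 + 2 * t * (√(δ * t) + 2 * ϑ)

/-- At the terminal level some odd sparse vector is popular. -/
def TermThm : Prop :=
  ∀ (t r mm : ℕ) (η0 α : ℝ), 0 < η0 → 0 < α → ∃ γ : ℝ, 0 < γ ∧
    ∀ (J X Ω C Λ : Type) [Fintype J] [DecidableEq J] [Fintype X] [DecidableEq X] [Fintype Ω]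
      [Nonempty Ω] [Fintype Λ] [DecidableEq Λ] [AddCommGroup Λ] (ψ : J → F2) (β : X → F2)
      (σ : Ω → X → F2) (e : (J → F2) →+ Λ) (lb : Ω → Mat J X → C × Finset Λ) (j0 : C)
      (s : Finset Λ) (η δ : ℝ) (n : ℕ) (D : Ω → Sub X) (T : Ω → Prop),
      ψ ≠ 0 → Fintype.card J ≤ mm → Function.Injective e → η0 ≤ η → 0 ≤ δ → s.card ≤ t →
      2 * (t : ℝ) ^ 2 / 2 ^ Fintype.card J + 2 * t * √(δ * t) ≤ η ^ 2 / 2 →
      (∀ ω N, (lb ω N).2.card ≤ t) →
      (∀ ω N c, ψ ⬝ᵥ c = 0 →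
        lb ω (N + vecMulVec c β) = ((lb ω N).1, (lb ω N).2.image (· + e c))) →
      (∀ ω ω', ∀ a ∈ odd ψ, ∀ (y : X → F2) (N N' : Mat J X),
        (∀ x, σ ω x = σ ω' x → ∀ j, N' j x = N j x + a j * y x) → (lb ω N).1 = (lb ω' N').1 →
        ∃ z ∈ (lb ω N).2, z ∈ (lb ω' N').2) →
      (∀ (R : Finset X) (v : X → F2), (∀ x ∈ R, β x = 1) → n ≤ R.card →
        𝔼 ω, ind (∀ x ∈ R, σ ω x = v x) ≤ γ) →
      α ≤ 𝔼 ω, ind (T ω) →
      (∀ ω, T ω → finrank F2 (D ω) ≤ r ∧ Term ψ (lb ω) j0 s η δ (D ω)) →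
      ∃ d : X → F2, β ⬝ᵥ d = 1 ∧ (univ.filter fun x => β x = 1 ∧ d x = 1).card ≤ n ∧
        γ ≤ 𝔼 ω, ind (T ω ∧ d ∈ D ω)

/-- Windows: for each block a question, a mode and a function on the small alphabet. -/
abbrev Win (U Ξ B : Type) (k : ℕ) : Type := Fin k → U × Ξ × (B → F2)

/-- List labellings of the windows that come from colourings. -/
structure GoodLab {U Ξ A B V : Type} (al : U → Ξ → V) (pr : U → Ξ → A → B) {k l c : ℕ} (t : ℕ)
    (lab : Win U Ξ B k → Mat (Fin (l + 1)) (Fin k × A) → Fin c × Finset (Bv (l + 1))) : Prop where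
  card : ∀ w M, (lab w M).2.card ≤ t
  shift : ∀ w M i (s : Bv (l + 1)), s 0 = 0 →
    lab w (M + vecMulVec s (blk i)) = ((lab w M).1, (lab w M).2.image (· + s))
  edge : ∀ w w' M M', (∀ i, (w i).1 = (w' i).1) →
    (∀ x, val M x 0 = val M' x 0 →
      cls (fun i => pr (w i).1 (w i).2.1) (fun i => (w i).2.2) x =
        cls (fun i => pr (w' i).1 (w' i).2.1) (fun i => (w' i).2.2) x → val M x = val M' x) →
    (lab w M).1 = (lab w' M').1 → ∃ z ∈ (lab w M).2, z ∈ (lab w' M').2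
  cons : ∀ w w' M M' i (m : Mat (Fin (l + 1)) B), (∀ j, j ≠ i → w j = w' j) →
    al (w i).1 (w i).2.1 = al (w' i).1 (w' i).2.1 → (w i).2.2 = (w' i).2.2 →
    (∀ j x, x.1 ≠ i → M j x = M' j x) → (∀ j a, M j (i, a) = m j (pr (w i).1 (w i).2.1 a)) →
    (∀ j a, M' j (i, a) = m j (pr (w' i).1 (w' i).2.1 a)) → lab w M = lab w' M'

/-- Smooth label cover instances of small value have no list labelling. -/
def CoreThm : Prop :=
  ∀ c t : ℕ, ∃ (l : ℕ) (ζ ε : ℝ), 0 < ζ ∧ 0 < ε ∧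
    ∀ (Ξ A B : Type) [Fintype Ξ] [Nonempty Ξ] [Fintype A] [DecidableEq A] [Nonempty A] [Fintype B]
      [DecidableEq B] [Nonempty B], ∃ k : ℕ,
      ∀ (U V : Type) [Fintype U] [Nonempty U] (al : U → Ξ → V) (pr : U → Ξ → A → B),
        (∀ u a a', a ≠ a' → 𝔼 ξ, ind (pr u ξ a = pr u ξ a') ≤ ζ) →
        (∀ (F : U → A) (G : V → B), 𝔼 u, 𝔼 ξ, ind (pr u ξ (F u) = G (al u ξ)) ≤ ε) →
        ∀ lab : Win U Ξ B k → Mat (Fin (l + 1)) (Fin k × A) → Fin c × Finset (Bv (l + 1)),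
          ¬ GoodLab al pr t lab

/-! ### Independent sets in powers of the complete graph on four vertices -/

/-- Expectation for independent bits with biases `p`. -/
def Exb {ι : Type} [Fintype ι] [DecidableEq ι] (p : ι → ℝ) (f : (ι → Bool) → ℝ) : ℝ :=
  ∑ x : ι → Bool, (∏ i, if x i = true then p i else 1 - p i) * f x

/-- The junta theorem of Friedgut. -/
def FriedThm : Prop :=
  ∀ I ε : ℝ, 0 < ε → ∃ t : ℕ, ∀ (ι : Type) [Fintype ι] [DecidableEq ι] (p : ι → ℝ)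
    (F : (ι → Bool) → Prop), (∀ i, 1 / 4 ≤ p i ∧ p i ≤ 3 / 4) →
    ∑ i, Exb p (fun x => ind (¬ (F (Function.update x i true) ↔ F (Function.update x i false))))
      ≤ I →
    ∃ T : Finset ι, T.card ≤ t ∧
      Exb p (fun x => (ind (F x) - Exb p fun y => ind (F (T.piecewise x y))) ^ 2) ≤ ε

/-- The neighbourhood of a dense set almost fills a subcube. -/
def LemJThm : Prop :=
  ∀ μ : ℝ, 0 < μ → ∃ t : ℕ, ∀ (K : Type) [Fintype K] [DecidableEq K] (S : Finset (K → Fin 4)),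
    μ ≤ 𝔼 Φ, ind (Φ ∈ S) → ∃ (T : Finset K) (y : K → Fin 4), T.card ≤ t ∧
      1 - μ / 2 < 𝔼 Φ', ind (∃ Φ ∈ S, ∀ z, Φ z ≠ T.piecewise y Φ' z)

/-- Dense sets with no edge between them share a coordinate from short lists. -/
def DMRThm : Prop :=
  ∀ μ : ℝ, 0 < μ → ∃ t : ℕ, ∀ (K : Type) [Fintype K] [DecidableEq K],
    ∃ lst : Finset (K → Fin 4) → Finset K, (∀ S, (lst S).card ≤ t) ∧
      ∀ (S S' : Finset (K → Fin 4)) (ρ : Equiv.Perm K), μ ≤ 𝔼 Φ, ind (Φ ∈ S) →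
        μ ≤ 𝔼 Φ, ind (Φ ∈ S') → (∀ Φ ∈ S, ∀ Φ' ∈ S', ∃ z, Φ z = Φ' (ρ z)) →
        ∃ z ∈ lst S, ρ z ∈ lst S'

/-! ### The outer game -/

/-- Clauses. -/
abbrev Cl : Type := (ℕ × Bool) × (ℕ × Bool) × (ℕ × Bool)

/-- Smooth label cover with perfect completeness. -/
def SmoothThm : Prop :=
  ∀ ζ ε : ℝ, 0 < ζ → 0 < ε →
    ∃ (Ξ A B : Type) (_ : Fintype Ξ) (_ : Nonempty Ξ) (_ : Fintype A) (_ : DecidableEq A)
      (_ : Nonempty A) (_ : Fintype B) (_ : DecidableEq B) (_ : Nonempty B)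
      (f : CNF3 → List (List Cl)) (al : List Cl → Ξ → ℕ) (pr : List Cl → Ξ → A → B),
      PT f ∧ (∀ ξ, PT fun u => al u ξ) ∧ (∀ ξ a b, PT fun u => pr u ξ a = b) ∧
      (∀ u ξ u' ξ', al u ξ = al u' ξ' → Set.range (pr u ξ) = Set.range (pr u' ξ')) ∧
      (∀ u a a', a ≠ a' → 𝔼 ξ, ind (pr u ξ a = pr u ξ a') ≤ ζ) ∧
      ∀ φ : CNF3, f φ ≠ [] ∧
        (Sat φ → ∃ (F : List Cl → A) (G : ℕ → B), ∀ u ∈ f φ, ∀ ξ, pr u ξ (F u) = G (al u ξ)) ∧
        (¬ Sat φ → ∀ (F : Fin (f φ).length → A) (G : ℕ → B),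
          𝔼 u : Fin (f φ).length, 𝔼 ξ, ind (pr (f φ)[u] ξ (F u) = G (al (f φ)[u] ξ)) ≤ ε)

/-! ### The graph -/

section Graph

variable {U Ξ A B : Type} {k l : ℕ}

/-- Templates of vertices: modes, class functions, data and a colouring of the label space. -/
abbrev Tm (Ξ A B : Type) (k l : ℕ) : Type :=
  (Fin k → Ξ × (B → F2)) × Mat (Fin (l + 1)) (Fin k × A) × (Bv (l + 1) → Fin 4)

/-- The data of the block `i` factors through the projection. -/
def fac (π : Fin k → A → B) (M : Mat (Fin (l + 1)) (Fin k × A)) (i : Fin k) : Prop :=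
  ∀ a a', π i a = π i a' → ∀ j, M j (i, a) = M j (i, a')

open Classical in
/-- The part of a tuple of labels that the vertex sees. -/
noncomputable def key (π : Fin k → A → B) (M : Mat (Fin (l + 1)) (Fin k × A)) (x : Fin k → A) :
    Fin k → A ⊕ B :=
  fun i => if fac π M i then Sum.inr (π i (x i)) else Sum.inl (x i)

/-- The projections of a vertex. -/
def prj (pr : U → Ξ → A → B) (W : Fin k → U) (v : Tm Ξ A B k l) : Fin k → A → B :=
  fun i => pr (W i) (v.1 i).1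

/-- The table of a vertex. -/
def tab (pr : U → Ξ → A → B) (W : Fin k → U) (v : Tm Ξ A B k l) :
    Set ((Fin k → A ⊕ B) × F2 × Fin 4) :=
  Set.range fun x => (key (prj pr W v) v.2.1 x, val v.2.1 x 0, v.2.2 (val v.2.1 x))

open Classical in
/-- The description of the blocks of a vertex. -/
noncomputable def desc (al : U → Ξ → ℕ) (pr : U → Ξ → A → B) (W : Fin k → U) (v : Tm Ξ A B k l) :
    Fin k → Option (U × Ξ) × ℕ × (B → F2) :=
  fun i => (if fac (prj pr W v) v.2.1 i then none else some (W i, (v.1 i).1),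
    al (W i) (v.1 i).1, (v.1 i).2)

/-- The honest colour of a vertex for the tuple of labels `x`. -/
def hcol (pr : U → Ξ → A → B) (W : Fin k → U) (v : Tm Ξ A B k l) (x : Fin k → A) :
    F2 × F2 × Fin 4 :=
  (val v.2.1 x 0, cls (prj pr W v) (fun i => (v.1 i).2) x, v.2.2 (val v.2.1 x))

/-- Adjacent templates. -/
def adj (pr : U → Ξ → A → B) (W : Fin k → U) (v v' : Tm Ξ A B k l) : Prop :=
  ∀ x, hcol pr W v x ≠ hcol pr W v' x

/-- Names identify exactly the vertices with the same description and table. -/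
def IsName (al : U → Ξ → ℕ) (pr : U → Ξ → A → B) (nm : (Fin k → U) → Tm Ξ A B k l → ℕ) : Prop :=
  ∀ W v W' v', nm W v = nm W' v' ↔ desc al pr W v = desc al pr W' v' ∧ tab pr W v = tab pr W' v'

end Graph

/-- The graph is computable in polynomial time. -/
def GraphPTThm : Prop :=
  ∀ (Ξ A B : Type) [Fintype Ξ] [Fintype A] [DecidableEq A] [Fintype B] [DecidableEq B] (k l : ℕ)
    (al : List Cl → Ξ → ℕ) (pr : List Cl → Ξ → A → B), (∀ ξ, PT fun u => al u ξ) →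
    (∀ ξ a b, PT fun u => pr u ξ a = b) →
    ∃ (g : List (List Cl) → List (ℕ × ℕ)) (nm : (Fin k → List Cl) → Tm Ξ A B k l → ℕ),
      PT g ∧ IsName al pr nm ∧ ∀ L e, e ∈ g L ↔
        ∃ (W : Fin k → List Cl) (v v' : Tm Ξ A B k l), (∀ i, W i ∈ L) ∧ adj pr W v v' ∧
          e = (nm W v, nm W v')

/-- Completeness of the graph. -/
def GraphCompThm : Prop :=
  ∀ (U Ξ A B : Type) (k l : ℕ) (al : U → Ξ → ℕ) (pr : U → Ξ → A → B)
    (nm : (Fin k → U) → Tm Ξ A B k l → ℕ), IsName al pr nm →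
    ∀ (P : U → Prop) (F : U → A) (G : ℕ → B), (∀ u, P u → ∀ ξ, pr u ξ (F u) = G (al u ξ)) →
    ∃ χ : ℕ → Fin 16, ∀ (W : Fin k → U) (v v' : Tm Ξ A B k l), (∀ i, P (W i)) → adj pr W v v' →
      χ (nm W v) ≠ χ (nm W v')

/-- Soundness of the graph: colourings give list labellings. -/
def GraphSoundThm : Prop :=
  ∀ c : ℕ, ∃ t : ℕ, ∀ (U U' Ξ A B : Type) [Nonempty A] (k l : ℕ) (al : U → Ξ → ℕ)
    (pr : U → Ξ → A → B) (nm : (Fin k → U) → Tm Ξ A B k l → ℕ), IsName al pr nm →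
    (∀ u ξ u' ξ', al u ξ = al u' ξ' → Set.range (pr u ξ) = Set.range (pr u' ξ')) →
    ∀ (q : U' → U) (χ : ℕ → Fin c),
      (∀ (W : Fin k → U') (v v' : Tm Ξ A B k l), adj pr (fun i => q (W i)) v v' →
        χ (nm (fun i => q (W i)) v) ≠ χ (nm (fun i => q (W i)) v')) →
      ∃ lab : Win U' Ξ B k → Mat (Fin (l + 1)) (Fin k × A) → Fin c × Finset (Bv (l + 1)),
        GoodLab (fun u => al (q u)) (fun u => pr (q u)) t lab

/-- The list of edges has a proper colouring with `c` colours. -/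
def Col (E : List (ℕ × ℕ)) (c : ℕ) : Prop := ∃ χ : ℕ → Fin c, ∀ e ∈ E, χ e.1 ≠ χ e.2

/-- Hardness of `a` colours against any number of colours. -/
def GapThm (a : ℕ) : Prop :=
  ∀ c : ℕ, ∃ f : CNF3 → List (ℕ × ℕ), PT f ∧
    ∀ φ, (Sat φ → Col (f φ) a) ∧ (¬ Sat φ → ¬ Col (f φ) c)

end Vale.Agent.P342
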