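import Vale.Agent.P342.Lin

/-! Expansion of global sets. -/

set_option linter.unusedSectionVars false

namespace Vale.Agent.P342

open Vale.Agent.P325 Vale.Agent.Lib.PolyTime Finset Matrix Module
open scoped BigOperators

namespace ExpH

/-- Two applications of Cauchy-Schwarz. -/
theorem level_abs {ι : Type} [Fintype ι] (G h : ι → ℝ) (hG : ∀ i, 0 ≤ G i ∧ G i ≤ 1) (t : ℝ)
    (ht : 0 ≤ t) (h1 : 𝔼 i, h i ^ 2 = 𝔼 i, h i * G i)
    (h4 : 𝔼 i, h i ^ 4 ≤ t ^ 3 * 𝔼 i, h i ^ 2) : 𝔼 i, h i ^ 2 ≤ t * 𝔼 i, G i := by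
  set x := 𝔼 i, h i ^ 2 with hx
  set μ := 𝔼 i, G i with hμ
  have hx0 : 0 ≤ x := expect_nonneg fun i _ => sq_nonneg _
  have hμ0 : 0 ≤ μ := expect_nonneg fun i _ => (hG i).1
  set w := 𝔼 i, G i * h i ^ 2 with hw
  have hw0 : 0 ≤ w := expect_nonneg fun i _ => mul_nonneg (hG i).1 (sq_nonneg _)
  have c1 : x ^ 2 ≤ μ * w := by
    have := expect_mul_sq_le_sq_mul_sq univ (fun i => √(G i)) fun i => √(G i) * h i
    have e1 : 𝔼 i, √(G i) * (√(G i) * h i) = x := by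
      rw [h1]
      refine expect_congr rfl fun i _ => ?_
      rw [← mul_assoc, Real.mul_self_sqrt (hG i).1, mul_comm]
    have e2 : 𝔼 i, √(G i) ^ 2 = μ := expect_congr rfl fun i _ => Real.sq_sqrt (hG i).1
    have e3 : 𝔼 i, (√(G i) * h i) ^ 2 = w := expect_congr rfl fun i _ => by
      rw [mul_pow, Real.sq_sqrt (hG i).1]
    rwa [e1, e2, e3] at this
  have c2 : w ^ 2 ≤ μ * (t ^ 3 * x) := by
    have := expect_mul_sq_le_sq_mul_sq univ G fun i => h i ^ 2
    have e2 : 𝔼 i, G i ^ 2 ≤ μ := expect_le_expect fun i _ => by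
      nlinarith [(hG i).1, (hG i).2]
    have e3 : 𝔼 i, (h i ^ 2) ^ 2 = 𝔼 i, h i ^ 4 := expect_congr rfl fun i _ => by ring
    rw [e3] at this
    refine this.trans (mul_le_mul e2 h4 (expect_nonneg fun i _ => by positivity) hμ0)
  rcases hx0.eq_or_lt with h0 | h0
  · rw [← h0]; positivity
  have c3 : x ^ 3 * x ≤ (t * μ) ^ 3 * x := by
    calc x ^ 3 * x = (x ^ 2) ^ 2 := by ring
      _ ≤ (μ * w) ^ 2 := pow_le_pow_left₀ (sq_nonneg _) c1 2
      _ = μ ^ 2 * w ^ 2 := by ring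
      _ ≤ μ ^ 2 * (μ * (t ^ 3 * x)) := mul_le_mul_of_nonneg_left c2 (sq_nonneg _)
      _ = (t * μ) ^ 3 * x := by ring
  exact le_of_pow_le_pow_left₀ (by norm_num) (mul_nonneg ht hμ0) (le_of_mul_le_mul_right c3 h0)

section

variable {J X : Type} [Fintype J] [DecidableEq J] [Fintype X] [DecidableEq X]

/-- Average along all lines in the direction `a`. -/
noncomputable def GA (g : Mat J X → ℝ) (a : J → F2) (N : Mat J X) : ℝ :=
  𝔼 y : X → F2, g (N + vecMulVec a y)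

theorem GA_bd {g : Mat J X → ℝ} (hg : ∀ N, 0 ≤ g N ∧ g N ≤ 1) (a : J → F2) (N : Mat J X) :
    0 ≤ GA g a N ∧ GA g a N ≤ 1 :=
  ⟨expect_nonneg fun _ _ => (hg _).1, expect_le univ_nonempty fun _ _ => (hg _).2⟩

theorem expect_GA (g : Mat J X → ℝ) (a : J → F2) : 𝔼 N, GA g a N = 𝔼 N, g N := by
  simp only [GA]
  rw [expect_comm]
  simp only [Fou.expect_add_right g]
  exact expect_const univ_nonempty _

theorem GA_shift (g : Mat J X → ℝ) (a : J → F2) (N : Mat J X) (y0 : X → F2) :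
    GA g a (N + vecMulVec a y0) = GA g a N := by
  rw [GA, GA, ← Fou.expect_add_left (fun y => g (N + vecMulVec a y)) y0]
  refine expect_congr rfl fun y _ => ?_
  rw [vecMulVec_add, add_assoc]

theorem coefM_GA (g : Mat J X → ℝ) (a : J → F2) (S : Mat J X) :
    coefM (GA g a) S = coefM g S * ind (a ᵥ* S = 0) := by
  have h := coefM_expect (univ : Finset (X → F2)) (fun y N => g (N + vecMulVec a y)) S
  refine h.trans ?_
  simp only [coefM_shift, pair_vecMulVec]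
  rw [← mul_expect, Fou.expect_sg_dot, ind_eq_ite]

/-- The functional given by the dot product with `a`. -/
def dotL (a : J → F2) : (J → F2) →ₗ[F2] F2 where
  toFun q := q ⬝ᵥ a
  map_add' _ _ := add_dotProduct _ _ _
  map_smul' _ _ := smul_dotProduct _ _ _

theorem decomp (Q : Sub J) (D : Sub X) (a : J → F2) {N' : Mat J X}
    (h : N' ∈ box (Q ⊓ LinearMap.ker (dotL a)) D) :
    ∃ N'' ∈ box Q D, ∃ y : X → F2, N' = N'' + vecMulVec a y := by
  rw [mem_box] at h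
  by_cases hq : ∃ q0 ∈ Q, q0 ⬝ᵥ a = 1
  · obtain ⟨q0, hq0, h1⟩ := hq
    refine ⟨N' + vecMulVec a (q0 ᵥ* N'), mem_box.2 ⟨fun q hq => ?_, fun d hd => ?_⟩, q0 ᵥ* N',
      by rw [add_assoc, mat_add_self, add_zero]⟩
    · have h2 : q + (q ⬝ᵥ a) • q0 ∈ Q ⊓ LinearMap.ker (dotL a) := by
        refine ⟨Q.add_mem hq (Q.smul_mem _ hq0), ?_⟩
        change (q + (q ⬝ᵥ a) • q0) ⬝ᵥ a = 0
        rw [add_dotProduct, smul_dotProduct, h1, smul_eq_mul, mul_one]
        exact CharTwo.add_self_eq_zero _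
      have h3 := h.1 _ h2
      rw [add_vecMul, smul_vecMul] at h3
      rw [vecMul_add, vecMul_vecMulVec]
      exact h3
    · rw [add_mulVec, h.2 d hd, vecMulVec_mulVec, ← dotProduct_mulVec, h.2 d hd]
      simp
  · refine ⟨N', mem_box.2 ⟨fun q hq' => h.1 q ⟨hq', ?_⟩, h.2⟩, 0,
      by ext j x; simp [vecMulVec_apply]⟩
    exact (Fou.zmod2 _).resolve_right fun h1 => hq ⟨q, hq', h1⟩

theorem glob_GA {g : Mat J X → ℝ} (hg : ∀ N, 0 ≤ g N ∧ g N ≤ 1) (a : J → F2) (r : ℕ) (η : ℝ)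
    (H : ∀ (Q : Sub J) (D : Sub X), finrank F2 Q ≤ r → a ∈ ann Q → finrank F2 D ≤ r →
      ∀ N0, 𝔼 N ∈ box Q D, g (N0 + N) ≤ η) {d : ℕ} (hd : d ≤ r) : Glob d η (GA g a) := by
  intro Q D hQ hD N0
  have h1 : 𝔼 N ∈ box Q D, GA g a (N0 + N) ^ 2 ≤ 𝔼 N ∈ box Q D, GA g a (N0 + N) :=
    expect_le_expect fun N _ => by nlinarith [(GA_bd hg a (N0 + N)).1, (GA_bd hg a (N0 + N)).2]
  refine h1.trans ?_
  set Q' := Q ⊓ LinearMap.ker (dotL a) with hQ'
  have h2 : ∀ N' ∈ box Q' D,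
      𝔼 N ∈ box Q D, GA g a (N0 + N) = 𝔼 N ∈ box Q D, GA g a (N0 + N + N') := by
    intro N' hN'
    obtain ⟨N'', hN'', y, rfl⟩ := decomp Q D a hN'
    rw [← expect_box_shift hN'' fun N => GA g a (N0 + N)]
    refine expect_congr rfl fun N _ => ?_
    rw [← add_assoc (N0 + N), GA_shift, add_assoc N0 N, add_comm N N'']
  have h3 : 𝔼 N ∈ box Q D, GA g a (N0 + N)
      = 𝔼 N' ∈ box Q' D, 𝔼 N ∈ box Q D, GA g a (N0 + N + N') := by
    rw [← expect_congr rfl h2, expect_const (box_nonempty _ _)]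
  rw [h3, expect_comm]
  refine expect_le (box_nonempty _ _) fun N _ => ?_
  simp only [GA]
  rw [expect_comm]
  refine expect_le univ_nonempty fun y _ => ?_
  have h4 := H Q' D ((Submodule.finrank_mono inf_le_left).trans (hQ.trans hd))
    (mem_ann.2 fun q hq => by rw [dotProduct_comm]; exact hq.2) (hD.trans hd)
    (N0 + N + vecMulVec a y)
  refine le_of_eq_of_le (expect_congr rfl fun N' _ => ?_) h4
  rw [add_right_comm]

theorem part_sq (d : ℕ) (G : Mat J X → ℝ) :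
    𝔼 N, part d G N ^ 2 = ∑ S, if S.rank = d then coefM G S ^ 2 else 0 := by
  rw [part, expect_synth_sq]
  exact sum_congr rfl fun S _ => by split_ifs <;> simp

theorem part_mul (d : ℕ) (G : Mat J X → ℝ) :
    𝔼 N, part d G N ^ 2 = 𝔼 N, part d G N * G N := by
  rw [part_sq, part, expect_synth_mul]
  exact sum_congr rfl fun S _ => by split_ifs <;> simp [sq]

theorem split (r : ℕ) (G : Mat J X → ℝ) :
    𝔼 N, G N ^ 2 = ∑ d ∈ range (r + 1), 𝔼 N, part d G N ^ 2 +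
      ∑ S, if r < S.rank then coefM G S ^ 2 else 0 := by
  simp only [part_sq]
  rw [sum_comm, ← sum_add_distrib, parsevalM]
  refine sum_congr rfl fun S _ => ?_
  rw [sum_ite_eq]
  by_cases h : r < S.rank
  · rw [if_pos h, if_neg (by simp; omega), zero_add]
  · rw [if_neg h, if_pos (by simp; omega), add_zero]

theorem high {ψ : J → F2} (hψ : ψ ≠ 0) {g : Mat J X → ℝ} (hg : ∀ N, 0 ≤ g N ∧ g N ≤ 1) (r : ℕ) :
    𝔼 a ∈ odd ψ, (∑ S, if r < S.rank then coefM (GA g a) S ^ 2 else 0) ≤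
      (1 / 2) ^ r * 𝔼 N, g N := by
  rw [expect_sum_comm]
  have h1 : ∀ S : Mat J X, 𝔼 a ∈ odd ψ, (if r < S.rank then coefM (GA g a) S ^ 2 else 0) ≤
      (1 / 2) ^ r * coefM g S ^ 2 := by
    intro S
    by_cases h : r < S.rank
    · simp only [if_pos h, coefM_GA, mul_pow, ind_sq]
      rw [← mul_expect, mult_col' hψ, mul_comm]
      refine mul_le_mul_of_nonneg_right ?_ (sq_nonneg _)
      calc ind (ψ ∉ colSp S) * (1 / 2 : ℝ) ^ S.rank ≤ 1 * (1 / 2 : ℝ) ^ S.rank :=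
            mul_le_mul_of_nonneg_right (ind_le_one _) (by positivity)
        _ ≤ (1 / 2) ^ r := by
            rw [one_mul]
            exact pow_le_pow_of_le_one (by norm_num) (by norm_num) h.le
    · simp only [if_neg h]
      rw [expect_const (odd_nonempty hψ)]
      positivity
  refine (sum_le_sum fun S _ => h1 S).trans ?_
  rw [← mul_sum, ← parsevalM]
  refine mul_le_mul_of_nonneg_left (expect_le_expect fun N _ => ?_) (by positivity)
  nlinarith [(hg N).1, (hg N).2]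

/-- The case of the full space. -/
theorem bot_case {ψ : J → F2} (hψ : ψ ≠ 0) {g : Mat J X → ℝ} (hg : ∀ N, 0 ≤ g N ∧ g N ≤ 1)
    (r : ℕ) (η t : ℝ) (ht : 0 ≤ t) (C : ℕ → ℝ) (hC : ∀ d ≤ r, C d * η ≤ t ^ 3)
    (hL : ∀ d (f : Mat J X → ℝ) (e : ℝ), Glob d e f →
      𝔼 N, part d f N ^ 4 ≤ C d * e * 𝔼 N, part d f N ^ 2)
    (H : ∀ (Q : Sub J) (D : Sub X), finrank F2 Q ≤ r → (∃ a ∈ odd ψ, a ∈ ann Q) →
      finrank F2 D ≤ r → ∀ N0, 𝔼 N ∈ box Q D, g (N0 + N) ≤ η) :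
    𝔼 a ∈ odd ψ, 𝔼 N, GA g a N ^ 2 ≤ ((r + 1) * t + (1 / 2) ^ r) * 𝔼 N, g N := by
  have h1 : ∀ a ∈ odd ψ, 𝔼 N, GA g a N ^ 2 ≤ (r + 1) * t * (𝔼 N, g N) +
      ∑ S, if r < S.rank then coefM (GA g a) S ^ 2 else 0 := by
    intro a ha
    rw [split r]
    refine add_le_add_left ?_ _
    have h2 : ∀ d ∈ range (r + 1), 𝔼 N, part d (GA g a) N ^ 2 ≤ t * 𝔼 N, g N := by
      intro d hd
      have hd' : d ≤ r := Nat.lt_succ_iff.1 (mem_range.1 hd)
      rw [← expect_GA g a]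
      refine level_abs _ _ (GA_bd hg a) t ht (part_mul _ _) ?_
      refine (hL d _ η (glob_GA hg a r η (fun Q D hQ haQ => H Q D hQ ⟨a, ha, haQ⟩) hd')).trans ?_
      exact mul_le_mul_of_nonneg_right (hC d hd') (expect_nonneg fun _ _ => sq_nonneg _)
    refine (sum_le_sum h2).trans (le_of_eq ?_)
    rw [sum_const, card_range, nsmul_eq_mul]
    push_cast
    ring
  refine (expect_le_expect h1).trans ?_
  rw [expect_add_distrib, expect_const (odd_nonempty hψ), add_mul ((r + 1) * t)]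
  exact add_le_add_right (high hψ hg r) _

theorem vecMulVec_mul_tr {m : ℕ} (F : Mat X (Fin m)) (a : J → F2) (v : Fin m → F2) :
    vecMulVec a v * Fᵀ = vecMulVec a (F *ᵥ v) := by
  rw [vecMulVec_mul, vecMul_transpose]

end

end ExpH

open ExpH in
theorem exp_of (h : LevelDThm) : ExpThm := by
  intro δ hδ
  choose C hC0 hC using h
  obtain ⟨r, hr⟩ := exists_pow_lt_of_lt_one (half_pos hδ) (by norm_num : (1 / 2 : ℝ) < 1)
  set t : ℝ := δ / (2 * (r + 1)) with ht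
  have ht0 : 0 < t := by positivity
  have hS : 0 < 1 + ∑ d ∈ range (r + 1), C d :=
    add_pos_of_pos_of_nonneg one_pos (sum_nonneg fun d _ => hC0 d)
  refine ⟨r, t ^ 3 / (1 + ∑ d ∈ range (r + 1), C d), by positivity, ?_⟩
  set η := t ^ 3 / (1 + ∑ d ∈ range (r + 1), C d) with hη
  have hCη : ∀ d ≤ r, C d * η ≤ t ^ 3 := by
    intro d hd
    have h1 : C d ≤ 1 + ∑ d ∈ range (r + 1), C d :=
      (single_le_sum (fun d _ => hC0 d) (mem_range.2 (Nat.lt_succ_of_le hd))).trans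
        (le_add_of_nonneg_left zero_le_one)
    calc C d * η ≤ (1 + ∑ d ∈ range (r + 1), C d) * η :=
          mul_le_mul_of_nonneg_right h1 (by positivity)
      _ = t ^ 3 := by rw [hη]; field_simp
  intro J X _ _ _ _ ψ D N1 g hψ hg H
  obtain ⟨m, F, G, hG, hF, -⟩ := exists_emb D
  have hbox : ∀ f : Mat J X → ℝ, 𝔼 N ∈ box ⊥ D, f N = 𝔼 N : Mat J (Fin m), f (N * Fᵀ) := by
    intro f
    have := expect_box_emb' F G hG hF (⊥ : Sub J) ⊥ f
    rw [box_bot_bot, Submodule.map_bot, sup_bot_eq] at this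
    exact this.symm
  have hmem : ∀ N : Mat J (Fin m), N * Fᵀ ∈ box (⊥ : Sub J) D := by
    intro N
    rw [mem_box_bot_iff_rows]
    intro j
    exact (hF _).2 ⟨N j, by ext x; simp [mulVec, dotProduct, Matrix.mul_apply, mul_comm]⟩
  have hline : ∀ (a : J → F2) (N : Mat J (Fin m)),
      lineAvg g D a (N1 + N * Fᵀ) = GA (fun N' => g (N1 + N' * Fᵀ)) a N := by
    intro a N
    rw [lineAvg, GA, ← expect_hom (F.mulVecLin.toAddMonoidHom) (s := univ) (s' := ann D)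
      (fun _ _ _ _ => mem_univ _) (fun _ _ => mem_univ _) univ_nonempty
      (fun v _ => (hF _).2 ⟨v, rfl⟩)
      (fun y hy => ((hF y).1 hy).imp fun v hv => ⟨mem_univ _, hv⟩)]
    refine expect_congr rfl fun v _ => ?_
    rw [Matrix.add_mul, vecMulVec_mul_tr, add_assoc]
    rfl
  have key := bot_case (g := fun N' : Mat J (Fin m) => g (N1 + N' * Fᵀ)) hψ (fun _ => hg _) r η t
    ht0.le C hCη (fun d => hC d J (Fin m)) (by
      intro Q D'' hQ hQa hD'' N0
      have h1 := H Q (D ⊔ D''.map G.mulVecLin) hQ hQa le_sup_left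
        ((Submodule.finrank_add_le_finrank_add_finrank _ _).trans
          (Nat.add_le_add_left ((Submodule.finrank_map_le _ _).trans hD'') _)) _ (hmem N0)
      rw [← expect_box_emb' F G hG hF Q D'' fun N => g (N1 + N0 * Fᵀ + N)] at h1
      refine le_of_eq_of_le (expect_congr rfl fun N _ => ?_) h1
      rw [Matrix.add_mul, add_assoc])
  rw [hbox fun N => g (N1 + N)]
  simp only [hbox fun N => lineAvg g D _ (N1 + N) ^ 2, hline]
  refine key.trans (mul_le_mul_of_nonneg_right ?_ (expect_nonneg fun _ _ => (hg _).1))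
  have h1 : ((r : ℝ) + 1) * t = δ / 2 := by rw [ht]; field_simp
  linarith

end Vale.Agent.P342
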