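import Vale.Agent.P342.Basic
import Vale.Agent.P063.Bonami

/-! The junta theorem for bits with different biases. -/

set_option linter.unusedSectionVars false

namespace Vale.Agent.P342

namespace Fr

open Finset
open Vale.Agent.P063 (om ch ch_mean ch_sq one_add_ch_mul one_step om_pos sg_sq)

variable {ι : Type} [Fintype ι] [DecidableEq ι] {p : ι → ℝ}

/-- Product weight. -/
def wt (p : ι → ℝ) (x : ι → Bool) : ℝ := ∏ i, om (p i) (x i)

/-- The biases are bounded away from zero and one. -/
def Ok (p : ι → ℝ) : Prop := ∀ i, 1 / 4 ≤ p i ∧ p i ≤ 3 / 4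

/-- Characters. -/
noncomputable def chi (p : ι → ℝ) (S : Finset ι) (x : ι → Bool) : ℝ := ∏ i ∈ S, ch (p i) (x i)

/-- Fourier coefficients. -/
noncomputable def co (p : ι → ℝ) (F : (ι → Bool) → ℝ) (S : Finset ι) : ℝ :=
  Exb p fun x => F x * chi p S x

theorem Exb_eq (F : (ι → Bool) → ℝ) : Exb p F = ∑ x, wt p x * F x := rfl

theorem Ok.pos (h : Ok p) (i : ι) : 0 < p i := by linarith [(h i).1]

theorem Ok.lt (h : Ok p) (i : ι) : p i < 1 := by linarith [(h i).2]

theorem wt_pos (h : Ok p) (x : ι → Bool) : 0 < wt p x :=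
  prod_pos fun i _ => om_pos (h.pos i) (h.lt i) _

theorem Ex_prod (g : ι → Bool → ℝ) :
    Exb p (fun x => ∏ i, g i (x i)) = ∏ i, (p i * g i true + (1 - p i) * g i false) := by
  rw [Exb_eq]
  unfold wt
  have : ∀ i, p i * g i true + (1 - p i) * g i false = ∑ b : Bool, om (p i) b * g i b := by
    intro i; simp [om]
  simp_rw [this]
  rw [prod_univ_sum, Fintype.piFinset_univ]
  simp [prod_mul_distrib]

theorem Ex_const (c : ℝ) : Exb p (fun _ : ι → Bool => c) = c := by
  have := Ex_prod (p := p) (fun _ _ => 1)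
  simp only [prod_const_one, mul_one, add_sub_cancel, Exb_eq] at this
  rw [Exb_eq, ← sum_mul, this, one_mul]

theorem Ex_add (F G : (ι → Bool) → ℝ) : Exb p (fun x => F x + G x) = Exb p F + Exb p G := by
  simp [Exb_eq, mul_add, sum_add_distrib]

theorem Ex_sub (F G : (ι → Bool) → ℝ) : Exb p (fun x => F x - G x) = Exb p F - Exb p G := by
  simp [Exb_eq, mul_sub, sum_sub_distrib]

theorem Ex_mul_left (c : ℝ) (F : (ι → Bool) → ℝ) : Exb p (fun x => c * F x) = c * Exb p F := by
  rw [Exb_eq, Exb_eq, mul_sum]; exact sum_congr rfl fun x _ => by ring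

theorem Ex_sum {α : Type} (s : Finset α) (F : α → (ι → Bool) → ℝ) :
    Exb p (fun x => ∑ a ∈ s, F a x) = ∑ a ∈ s, Exb p (F a) := by
  simp_rw [Exb_eq, mul_sum]; exact sum_comm

theorem Ex_mono (h : Ok p) {F G : (ι → Bool) → ℝ} (hh : ∀ x, F x ≤ G x) : Exb p F ≤ Exb p G :=
  sum_le_sum fun x _ => mul_le_mul_of_nonneg_left (hh x) (wt_pos h x).le

theorem Ex_nonneg (h : Ok p) {F : (ι → Bool) → ℝ} (hh : ∀ x, 0 ≤ F x) : 0 ≤ Exb p F :=
  sum_nonneg fun x _ => mul_nonneg (wt_pos h x).le (hh x)

theorem Ex_congr {F G : (ι → Bool) → ℝ} (h : ∀ x, F x = G x) : Exb p F = Exb p G := by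
  rw [funext h]

theorem Ex_cs' (h : Ok p) (R F G : (ι → Bool) → ℝ) (hF : ∀ x, 0 ≤ F x) (hG : ∀ x, 0 ≤ G x)
    (hh : ∀ x, R x ^ 2 ≤ F x * G x) : Exb p R ^ 2 ≤ Exb p F * Exb p G := by
  simp only [Exb_eq]
  apply sum_sq_le_sum_mul_sum_of_sq_le_mul
  · intro x _; exact mul_nonneg (wt_pos h x).le (hF x)
  · intro x _; exact mul_nonneg (wt_pos h x).le (hG x)
  · intro x _
    have := mul_le_mul_of_nonneg_left (hh x) (sq_nonneg (wt p x))
    nlinarith

theorem Ex_cs (h : Ok p) (F G : (ι → Bool) → ℝ) :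
    Exb p (fun x => F x * G x) ^ 2 ≤ Exb p (fun x => F x ^ 2) * Exb p (fun x => G x ^ 2) :=
  Ex_cs' h _ _ _ (fun _ => sq_nonneg _) (fun _ => sq_nonneg _) fun _ => (mul_pow _ _ _).le

theorem chi_eq_prod (S : Finset ι) (x : ι → Bool) :
    chi p S x = ∏ i, (if i ∈ S then ch (p i) (x i) else 1) := by
  unfold chi; rw [prod_ite_mem]; simp

theorem Ex_chi_mul (h : Ok p) (S T : Finset ι) :
    Exb p (fun x => chi p S x * chi p T x) = if S = T then 1 else 0 := by
  simp_rw [chi_eq_prod, ← prod_mul_distrib]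
  rw [Ex_prod (fun i b => (if i ∈ S then ch (p i) b else 1) * (if i ∈ T then ch (p i) b else 1))]
  split_ifs with hh
  · subst hh
    apply prod_eq_one
    intro i _
    by_cases hi : i ∈ S
    · simp only [hi, if_true]; have := ch_sq (h.pos i) (h.lt i); nlinarith
    · simp [hi]
  · have : ∃ i, ¬ (i ∈ S ↔ i ∈ T) := by
      by_contra hc
      push Not at hc
      exact hh (Finset.ext hc)
    obtain ⟨i, hi⟩ := this
    apply prod_eq_zero (mem_univ i)
    have := ch_mean (p := p i)
    by_cases hS : i ∈ S <;> by_cases hT : i ∈ T <;> simp_all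

theorem chi_empty (x : ι → Bool) : chi p ∅ x = 1 := by simp [chi]

theorem Ex_chi (h : Ok p) (S : Finset ι) : Exb p (chi p S) = if S = ∅ then 1 else 0 := by
  rw [← Ex_chi_mul h S ∅]; simp [chi_empty]

theorem expand (h : Ok p) (F : (ι → Bool) → ℝ) (x : ι → Bool) :
    F x = ∑ S : Finset ι, co p F S * chi p S x := by
  have key : ∀ y : ι → Bool, wt p y * ∑ S : Finset ι, chi p S y * chi p S x
      = if y = x then 1 else 0 := by
    intro y
    have e1 : ∑ S : Finset ι, chi p S y * chi p S x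
        = ∏ i, (1 + ch (p i) (x i) * ch (p i) (y i)) := by
      rw [prod_one_add, powerset_univ]
      refine sum_congr rfl fun S _ => ?_
      unfold chi; rw [← prod_mul_distrib]; exact prod_congr rfl fun i _ => by ring
    rw [e1]; unfold wt; rw [← prod_mul_distrib]
    rw [prod_congr rfl fun i _ => one_add_ch_mul (h.pos i) (h.lt i) (x i) (y i)]
    split_ifs with hh
    · subst hh; simp
    · obtain ⟨i, hi⟩ := Function.ne_iff.mp hh
      apply prod_eq_zero (mem_univ i)
      simp [Ne.symm hi]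
  calc F x = ∑ y, F y * (if y = x then 1 else 0) := by simp
    _ = ∑ y, F y * (wt p y * ∑ S : Finset ι, chi p S y * chi p S x) := by simp_rw [key]
    _ = ∑ S : Finset ι, co p F S * chi p S x := by
      unfold co
      simp_rw [Exb_eq, mul_sum, sum_mul]
      rw [sum_comm]
      exact sum_congr rfl fun S _ => sum_congr rfl fun y _ => by ring

theorem plancherel (h : Ok p) (F G : (ι → Bool) → ℝ) :
    Exb p (fun x => F x * G x) = ∑ S : Finset ι, co p F S * co p G S := by
  have : ∀ x, F x * G x = ∑ S : Finset ι, co p G S * (F x * chi p S x) := by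
    intro x
    conv_lhs => rw [expand h G x]
    rw [mul_sum]; exact sum_congr rfl fun S _ => by ring
  rw [Ex_congr this, Ex_sum]
  refine sum_congr rfl fun S _ => ?_
  rw [Ex_mul_left]; unfold co; ring

theorem parseval (h : Ok p) (F : (ι → Bool) → ℝ) :
    Exb p (fun x => F x ^ 2) = ∑ S : Finset ι, co p F S ^ 2 := by
  simp_rw [sq]; exact plancherel h F F

theorem co_sum (h : Ok p) (c : Finset ι → ℝ) (T : Finset ι) :
    co p (fun x => ∑ S : Finset ι, c S * chi p S x) T = c T := by
  unfold co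
  simp_rw [sum_mul, mul_assoc]
  rw [Ex_sum]
  simp_rw [Ex_mul_left, Ex_chi_mul h]
  simp

theorem co_empty (F : (ι → Bool) → ℝ) : co p F ∅ = Exb p F := by
  unfold co; simp [chi_empty]

theorem co_sub (F G : (ι → Bool) → ℝ) (S : Finset ι) :
    co p (fun x => F x - G x) S = co p F S - co p G S := by
  unfold co; rw [← Ex_sub]; exact Ex_congr fun x => by ring

theorem chi_piecewise (A S : Finset ι) (u y : ι → Bool) :
    chi p S (A.piecewise u y) = chi p (S ∩ A) u * chi p (S \ A) y := by
  unfold chi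
  rw [← prod_inter_mul_prod_sdiff S A]
  congr 1
  · exact prod_congr rfl fun i hi => by rw [piecewise_eq_of_mem _ _ _ (mem_inter.mp hi).2]
  · exact prod_congr rfl fun i hi => by rw [piecewise_eq_of_notMem _ _ _ (mem_sdiff.mp hi).2]

/-- Average over the coordinates in `A`. -/
def avg (p : ι → ℝ) (A : Finset ι) (F : (ι → Bool) → ℝ) (x : ι → Bool) : ℝ :=
  Exb p fun y => F (A.piecewise y x)

theorem co_avg (h : Ok p) (A : Finset ι) (F : (ι → Bool) → ℝ) (S : Finset ι) :
    co p (avg p A F) S = if Disjoint S A then co p F S else 0 := by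
  have : avg p A F
      = fun x => ∑ S : Finset ι, (if Disjoint S A then co p F S else 0) * chi p S x := by
    funext x
    unfold avg
    have : ∀ y, F (A.piecewise y x)
        = ∑ S : Finset ι, (co p F S * chi p (S \ A) x) * chi p (S ∩ A) y := by
      intro y
      rw [expand h F]
      refine sum_congr rfl fun S _ => ?_
      rw [chi_piecewise]; ring
    rw [Ex_congr this, Ex_sum]
    refine sum_congr rfl fun S _ => ?_
    rw [Ex_mul_left, Ex_chi h]
    by_cases hh : Disjoint S A
    · rw [if_pos hh, if_pos (disjoint_iff_inter_eq_empty.mp hh), sdiff_eq_self_of_disjoint hh]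
      ring
    · rw [if_neg hh, if_neg (fun h' => hh (disjoint_iff_inter_eq_empty.mpr h'))]; ring
  rw [this, co_sum h]

theorem avg_single (e : ι) (F : (ι → Bool) → ℝ) (x : ι → Bool) :
    avg p {e} F x
      = p e * F (Function.update x e true) + (1 - p e) * F (Function.update x e false) := by
  unfold avg
  simp_rw [piecewise_singleton]
  have := Ex_prod (p := p) fun (i : ι) (b : Bool) => if i = e then F (Function.update x e b) else 1
  simp only [prod_ite_eq', mem_univ, if_true] at this
  rw [this, prod_eq_single e]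
  · simp
  · intro i _ hi; simp [hi]
  · simp

theorem Ex_resample (h : Ok p) (e : ι) (F : (ι → Bool) → ℝ) :
    Exb p F = Exb p (fun x => p e * F (Function.update x e true)
      + (1 - p e) * F (Function.update x e false)) := by
  rw [← Ex_congr (avg_single e F), ← co_empty (avg p {e} F), co_avg h,
    if_pos (disjoint_empty_left _), co_empty]

theorem chi_update {S : Finset ι} {e : ι} (he : e ∉ S) (x : ι → Bool) (b : Bool) :
    chi p S (Function.update x e b) = chi p S x := by
  unfold chi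
  refine prod_congr rfl fun i hi => ?_
  have hne : i ≠ e := fun h => he (h ▸ hi)
  rw [Function.update_of_ne hne]

theorem one_step' (h : Ok p) (e : ι) (a b : ℝ) :
    p e * (a + ch (p e) true * b) ^ 4 + (1 - p e) * (a + ch (p e) false * b) ^ 4
      ≤ a ^ 4 + 8 * (a ^ 2 * b ^ 2) + 25 * b ^ 4 := by
  refine (one_step (h.pos e) (h.lt e) a b).trans ?_
  have h1 : (2 / P063.sg (p e)) ^ 2 ≤ 25 := by
    have h2 : 0 < p e * (1 - p e) := mul_pos (h.pos e) (by linarith [h.lt e])
    rw [div_pow, sg_sq (h.pos e) (h.lt e), div_le_iff₀ h2]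
    nlinarith [mul_nonneg (sub_nonneg.2 (h e).1) (sub_nonneg.2 (h e).2)]
  have h3 : 0 ≤ b ^ 4 := by positivity
  nlinarith

theorem bonami_aux (h : Ok p) (A : Finset ι) (c : Finset ι → ℝ) :
    Exb p (fun x => (∑ T ∈ A.powerset, c T * chi p T x) ^ 4)
      ≤ (∑ T ∈ A.powerset, 5 ^ T.card * c T ^ 2) ^ 2 := by
  induction A using Finset.induction_on generalizing c with
  | empty => simp [chi_empty, Ex_const]; apply le_of_eq; ring
  | insert e A he ih =>
    set g0 : (ι → Bool) → ℝ := fun x => ∑ T ∈ A.powerset, c T * chi p T x with hg0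
    set g1 : (ι → Bool) → ℝ := fun x => ∑ T ∈ A.powerset, c (insert e T) * chi p T x with hg1
    have hnot : ∀ T ∈ A.powerset, e ∉ T := fun T hT h => he (mem_powerset.mp hT h)
    have hsplit : ∀ x, ∑ T ∈ (insert e A).powerset, c T * chi p T x
        = g0 x + ch (p e) (x e) * g1 x := by
      intro x
      rw [sum_powerset_insert he, hg1, mul_sum]
      congr 1
      refine sum_congr rfl fun T hT => ?_
      unfold chi
      rw [prod_insert (hnot T hT)]; ring
    have u0 : ∀ x b, g0 (Function.update x e b) = g0 x := fun x b =>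
      sum_congr rfl fun T hT => by rw [chi_update (hnot T hT)]
    have u1 : ∀ x b, g1 (Function.update x e b) = g1 x := fun x b =>
      sum_congr rfl fun T hT => by rw [chi_update (hnot T hT)]
    set α : ℝ := ∑ T ∈ A.powerset, 5 ^ T.card * c T ^ 2 with hα
    set β : ℝ := ∑ T ∈ A.powerset, 5 ^ T.card * c (insert e T) ^ 2 with hβ
    have hα0 : 0 ≤ α := sum_nonneg fun T _ => by positivity
    have hβ0 : 0 ≤ β := sum_nonneg fun T _ => by positivity
    have i0 : Exb p (fun x => g0 x ^ 4) ≤ α ^ 2 := ih c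
    have i1 : Exb p (fun x => g1 x ^ 4) ≤ β ^ 2 := ih (fun T => c (insert e T))
    have hr : ∑ T ∈ (insert e A).powerset, 5 ^ T.card * c T ^ 2 = α + 5 * β := by
      rw [sum_powerset_insert he, hβ, mul_sum]
      congr 1
      refine sum_congr rfl fun T hT => ?_
      rw [card_insert_of_notMem (hnot T hT)]; ring
    have hmix : Exb p (fun x => g0 x ^ 2 * g1 x ^ 2) ≤ α * β := by
      have := Ex_cs h (fun x => g0 x ^ 2) (fun x => g1 x ^ 2)
      simp only [← pow_mul] at this
      have n0 : 0 ≤ Exb p (fun x => g0 x ^ 4) := Ex_nonneg h fun x => by positivity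
      have n1 : 0 ≤ Exb p (fun x => g1 x ^ 4) := Ex_nonneg h fun x => by positivity
      have h3 : Exb p (fun x => g0 x ^ 2 * g1 x ^ 2) ^ 2 ≤ (α * β) ^ 2 := by
        rw [mul_pow]; exact this.trans (mul_le_mul i0 i1 n1 (sq_nonneg _))
      exact (abs_le_of_sq_le_sq' h3 (mul_nonneg hα0 hβ0)).2
    rw [hr, Ex_congr (fun x => by rw [hsplit x]), Ex_resample h e]
    simp only [u0, u1, Function.update_self]
    calc _ ≤ Exb p (fun x => g0 x ^ 4 + 8 * (g0 x ^ 2 * g1 x ^ 2) + 25 * g1 x ^ 4) :=
          Ex_mono h fun x => one_step' h e _ _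
      _ = Exb p (fun x => g0 x ^ 4) + 8 * Exb p (fun x => g0 x ^ 2 * g1 x ^ 2)
            + 25 * Exb p (fun x => g1 x ^ 4) := by
          rw [Ex_add, Ex_add, Ex_mul_left, Ex_mul_left]
      _ ≤ α ^ 2 + 8 * (α * β) + 25 * β ^ 2 := by gcongr
      _ ≤ (α + 5 * β) ^ 2 := by nlinarith [mul_nonneg hα0 hβ0]

/-- The Bonami lemma. -/
theorem bonami (h : Ok p) (c : Finset ι → ℝ) (d : ℕ) (hc : ∀ T, d < T.card → c T = 0) :
    Exb p (fun x => (∑ T : Finset ι, c T * chi p T x) ^ 4)
      ≤ (5 ^ d) ^ 2 * (∑ T : Finset ι, c T ^ 2) ^ 2 := by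
  have h1 := bonami_aux h univ c
  rw [powerset_univ] at h1
  refine h1.trans ?_
  rw [← mul_pow, mul_sum]
  apply pow_le_pow_left₀ (sum_nonneg fun T _ => by positivity)
  refine sum_le_sum fun T _ => ?_
  by_cases hT : d < T.card
  · simp [hc T hT]
  · push Not at hT
    exact mul_le_mul_of_nonneg_right (pow_le_pow_right₀ (by norm_num) hT) (sq_nonneg _)

/-- The low degree weight of a function with small support. -/
theorem low_le (h : Ok p) (L : (ι → Bool) → ℝ) (η σ : ℝ) (d : ℕ) (hσ : 0 ≤ σ) (hη : η ≤ σ ^ 2)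
    (h1 : Exb p (fun x => |L x|) ≤ η) (h2 : Exb p (fun x => L x ^ 2) ≤ η) :
    (∑ T : Finset ι, if T.card ≤ d then co p L T ^ 2 else 0) ≤ 5 ^ d * σ * η := by
  set X := ∑ T : Finset ι, if T.card ≤ d then co p L T ^ 2 else 0 with hX
  set A : ℝ := (5 ^ d) ^ 2 with hA
  have hA0 : 0 ≤ A := by positivity
  have hη0 : 0 ≤ η := (Ex_nonneg h fun x => abs_nonneg _).trans h1
  set c : Finset ι → ℝ := fun T => if T.card ≤ d then co p L T else 0 with hc
  set g : (ι → Bool) → ℝ := fun x => ∑ T : Finset ι, c T * chi p T x with hg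
  have hc2 : ∑ T : Finset ι, c T ^ 2 = X :=
    sum_congr rfl fun T _ => by simp only [hc]; split_ifs <;> simp
  have g4 : Exb p (fun x => g x ^ 4) ≤ A * X ^ 2 := by
    rw [← hc2]
    exact bonami h c d fun T hT => if_neg (by omega)
  have Lg : Exb p (fun x => L x * g x) = X := by
    rw [plancherel h]
    refine sum_congr rfl fun T _ => ?_
    rw [hg, co_sum h]
    simp only [hc]
    split_ifs <;> ring
  have hY : 0 ≤ Exb p (fun x => |L x| * g x ^ 2) := Ex_nonneg h fun x => by positivity
  have c1 : X ^ 2 ≤ η * Exb p (fun x => |L x| * g x ^ 2) := by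
    rw [← Lg]
    refine (Ex_cs' h _ (fun x => |L x|) (fun x => |L x| * g x ^ 2) (fun x => by positivity)
      (fun x => by positivity) fun x => le_of_eq ?_).trans (mul_le_mul_of_nonneg_right h1 hY)
    rw [← mul_assoc, ← sq, sq_abs]; ring
  have c2 : Exb p (fun x => |L x| * g x ^ 2) ^ 2 ≤ η * (A * X ^ 2) := by
    have := Ex_cs h (fun x => |L x|) (fun x => g x ^ 2)
    simp only [← pow_mul, sq_abs] at this
    have n4 : 0 ≤ Exb p (fun x => g x ^ 4) := Ex_nonneg h fun x => by positivity
    exact this.trans (mul_le_mul h2 g4 n4 hη0)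
  set Y := Exb p (fun x => |L x| * g x ^ 2)
  by_cases hX0 : X = 0
  · rw [hX0]; positivity
  · have hXp : 0 < X ^ 2 := by positivity
    have c3 : (X ^ 2) ^ 2 ≤ (η * Y) ^ 2 := pow_le_pow_left₀ hXp.le c1 2
    have c4 : X ^ 2 * X ^ 2 ≤ (A * η ^ 3) * X ^ 2 := by
      have h5 : η ^ 2 * Y ^ 2 ≤ η ^ 2 * (η * (A * X ^ 2)) :=
        mul_le_mul_of_nonneg_left c2 (by positivity)
      nlinarith
    have c5 : X ^ 2 ≤ (5 ^ d * σ * η) ^ 2 := by
      refine (le_of_mul_le_mul_right c4 hXp).trans ?_
      have h6 : A * η ^ 2 * η ≤ A * η ^ 2 * σ ^ 2 :=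
        mul_le_mul_of_nonneg_left hη (by positivity)
      rw [mul_pow, mul_pow, ← hA]
      nlinarith
    exact (abs_le_of_sq_le_sq' c5 (by positivity)).2

/-- The derivative of an indicator is supported on pivotal points. -/
theorem abs_der_le (h : Ok p) (F : (ι → Bool) → Prop) (i : ι) (x : ι → Bool) :
    |ind (F x) - avg p {i} (fun y => ind (F y)) x| ≤
      ind (¬ (F (Function.update x i true) ↔ F (Function.update x i false))) := by
  have h0 := h.pos i
  have h1 := h.lt i
  have hx : ind (F x) = ind (F (Function.update x i (x i))) := by rw [Function.update_eq_self]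
  rw [avg_single, hx]
  by_cases ht : F (Function.update x i true) <;> by_cases hf : F (Function.update x i false) <;>
    cases x i <;> simp [ind, ht, hf, abs_le] <;> constructor <;> linarith

end Fr

open Finset Fr

theorem friedThm : FriedThm := by
  intro I ε hε
  set K := max I 1 with hK
  have hK0 : 0 < K := lt_of_lt_of_le one_pos (le_max_right _ _)
  set d := ⌈2 * K / ε⌉₊ with hd
  have hd1 : 2 * K / ε ≤ d := Nat.le_ceil _
  have hd0 : (0 : ℝ) < d := lt_of_lt_of_le (by positivity) hd1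
  set σ := ε / (2 * K * 5 ^ d) with hσ
  have hσ0 : 0 < σ := by positivity
  refine ⟨⌈K / σ ^ 2⌉₊, fun ι _ _ p F hp hI => ?_⟩
  have h : Ok p := hp
  set inf : ι → ℝ := fun i =>
    Exb p fun x => ind (¬ (F (Function.update x i true) ↔ F (Function.update x i false)))
  have inf0 : ∀ i, 0 ≤ inf i := fun i => Ex_nonneg h fun x => ind_nonneg _
  have hIK : ∑ i, inf i ≤ K := hI.trans (le_max_left _ _)
  set f : (ι → Bool) → ℝ := fun y => ind (F y) with hf
  set L : ι → (ι → Bool) → ℝ := fun i x => f x - avg p {i} f x with hL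
  have L1 : ∀ i, Exb p (fun x => |L i x|) ≤ inf i := fun i =>
    Ex_mono h fun x => abs_der_le h F i x
  have L2 : ∀ i, Exb p (fun x => L i x ^ 2) ≤ inf i := fun i => (Ex_mono h fun x => by
    have h1 : |L i x| ≤ 1 := (abs_der_le h F i x).trans (ind_le_one _)
    rw [← sq_abs]
    nlinarith [abs_nonneg (L i x)]).trans (L1 i)
  have coL : ∀ i S, co p (L i) S = if i ∈ S then co p f S else 0 := by
    intro i S
    rw [hL, co_sub, co_avg h]
    by_cases hi : i ∈ S <;> simp [hi]
  set T := univ.filter fun i => σ ^ 2 ≤ inf i with hT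
  refine ⟨T, ?_, ?_⟩
  · have h1 : (T.card : ℝ) * σ ^ 2 ≤ K := by
      refine le_trans ?_ ((sum_le_univ_sum_of_nonneg (s := T) inf0).trans hIK)
      rw [← nsmul_eq_mul]
      exact card_nsmul_le_sum _ _ _ fun i hi => (mem_filter.1 hi).2
    have h2 : (T.card : ℝ) ≤ ⌈K / σ ^ 2⌉₊ :=
      ((le_div_iff₀ (by positivity)).2 h1).trans (Nat.le_ceil _)
    exact_mod_cast h2
  · have e1 : ∀ x, (Exb p fun y => ind (F (T.piecewise x y))) = avg p Tᶜ f x := fun x => by
      simp only [avg, piecewise_compl, hf]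
    simp only [e1]
    rw [parseval h fun x => f x - avg p Tᶜ f x]
    have key : ∀ S : Finset ι, co p (fun x => f x - avg p Tᶜ f x) S ^ 2 ≤
        (∑ i, co p (L i) S ^ 2) / d + ∑ i ∈ Tᶜ, if S.card ≤ d then co p (L i) S ^ 2 else 0 := by
      intro S
      have n1 : 0 ≤ (∑ i, co p (L i) S ^ 2) / d := by positivity
      have n2 : ∀ i, 0 ≤ if S.card ≤ d then co p (L i) S ^ 2 else 0 := fun i => by
        split_ifs <;> positivity
      have n3 := sum_nonneg (s := Tᶜ) fun i _ => n2 i
      rw [co_sub, co_avg h]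
      by_cases hS : Disjoint S Tᶜ
      · rw [if_pos hS, sub_self, zero_pow two_ne_zero]
        exact add_nonneg n1 n3
      · rw [if_neg hS, sub_zero]
        obtain ⟨i, hi, hi'⟩ := not_disjoint_iff.1 hS
        by_cases hc : S.card ≤ d
        · have := single_le_sum (fun i _ => n2 i) hi'
          rw [if_pos hc, coL, if_pos hi] at this
          linarith
        · have h1 : ∑ i, co p (L i) S ^ 2 = S.card * co p f S ^ 2 := by
            simp [coL]
          have h2 : (d : ℝ) ≤ S.card := by exact_mod_cast (not_le.1 hc).le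
          have h3 : co p f S ^ 2 ≤ (∑ i, co p (L i) S ^ 2) / d := by
            rw [h1, le_div_iff₀ hd0]
            nlinarith [sq_nonneg (co p f S)]
          linarith
    refine (sum_le_sum fun S _ => key S).trans ?_
    rw [sum_add_distrib, ← sum_div, sum_comm, sum_comm (t := Tᶜ)]
    have b1 : (∑ i, ∑ S, co p (L i) S ^ 2) / d ≤ ε / 2 := by
      have h1 : ∑ i, ∑ S, co p (L i) S ^ 2 ≤ K :=
        (sum_le_sum fun i _ => by rw [← parseval h]; exact L2 i).trans hIK
      rw [div_le_iff₀ hd0]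
      rw [div_le_iff₀ hε] at hd1
      linarith
    have b2 : (∑ i ∈ Tᶜ, ∑ S : Finset ι, if S.card ≤ d then co p (L i) S ^ 2 else 0) ≤ ε / 2 := by
      have h1 : ∀ i ∈ Tᶜ, (∑ S : Finset ι, if S.card ≤ d then co p (L i) S ^ 2 else 0) ≤
          5 ^ d * σ * inf i := fun i hi =>
        low_le h (L i) (inf i) σ d hσ0.le (by
          have := mem_compl.1 hi
          simp only [hT, mem_filter, mem_univ, true_and, not_le] at this
          exact this.le) (L1 i) (L2 i)
      refine (sum_le_sum h1).trans ?_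
      rw [← mul_sum]
      have h2 : ∑ i ∈ Tᶜ, inf i ≤ K := (sum_le_univ_sum_of_nonneg inf0).trans hIK
      refine (mul_le_mul_of_nonneg_left h2 (by positivity)).trans (le_of_eq ?_)
      rw [hσ]
      field_simp
    linarith

end Vale.Agent.P342
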