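import Vale.Agent.P342.Basic

/-! The graph in polynomial time, and its completeness. -/

namespace Vale.Agent.P342

open Vale.Agent.P325 Vale.Agent.Lib.PolyTime Finset Matrix Module
open scoped BigOperators

namespace GPT

/-- A number for each element of a finite type. -/
noncomputable def cd {X : Type} [Finite X] (x : X) : ℕ := (Finite.equivFin X x : ℕ)

theorem cd_inj {X : Type} [Finite X] {x y : X} : cd x = cd y ↔ x = y :=
  ⟨fun h => (Finite.equivFin X).injective (Fin.ext h), fun h => by rw [h]⟩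

/-- Any dependence on finitely many computable projections is computable. -/
theorem pt_proj {α γ ι A B : Type} [Enc α] [Enc γ] [Inhabited γ] [Fintype ι] [Fintype A]
    [Fintype B] (π : α → ι → A → B) (hπ : ∀ i a b, PT fun u => π u i a = b)
    (F : (ι → A → B) → α → γ) (hF : ∀ p, PT (F p)) : PT fun u => F (π u) u := by
  classical
  let e : (ι → A → B) → ι × A × B → Prop := fun p t => p t.1 t.2.1 = t.2.2
  have he : Function.Injective e := fun p q h => by
    funext i a
    have h1 : e q (i, a, q i a) := rfl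
    rw [← h] at h1
    exact h1
  have h := pt_finite_fun (fun u => e (π u)) (fun t => hπ t.1 t.2.1 t.2.2)
    (fun b => if h : ∃ p, e p = b then F h.choose else fun _ => default)
    (fun b => by
      by_cases h : ∃ p, e p = b
      · simp only [dif_pos h]; exact hF _
      · simp only [dif_neg h]; exact PT.const _)
  refine h.congr fun u => ?_
  have h1 : ∃ p, e p = e (π u) := ⟨π u, rfl⟩
  simp only [dif_pos h1, he h1.choose_spec]

variable {Ξ A B : Type} {k l : ℕ}

/-- The window given by a list. -/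
def toW (k : ℕ) (U : List (List Cl)) : Fin k → List Cl := fun i => U.getD i default

theorem toW_ofFn (W : Fin k → List Cl) : toW k (List.ofFn W) = W := by
  funext i
  simp [toW]

theorem ofFn_toW {U : List (List Cl)} (h : U.length = k) : List.ofFn (toW k U) = U := by
  subst h
  apply List.ext_getElem
  · simp
  · intro i h1 h2
    simp [toW, h2]

/-- The table as a function of the projections. -/
def tabP (π : Fin k → A → B) (v : Tm Ξ A B k l) : Set ((Fin k → A ⊕ B) × F2 × Fin 4) :=
  Set.range fun x => (key π v.2.1 x, val v.2.1 x 0, v.2.2 (val v.2.1 x))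

/-- Adjacency as a function of the projections. -/
def adjP (π π' : Fin k → A → B) (v v' : Tm Ξ A B k l) : Prop :=
  ∀ x, ((val v.2.1 x 0, cls π (fun i => (v.1 i).2) x, v.2.2 (val v.2.1 x)) : F2 × F2 × Fin 4) ≠
    (val v'.2.1 x 0, cls π' (fun i => (v'.1 i).2) x, v'.2.2 (val v'.2.1 x))

section PTime

variable [Fintype Ξ] [Fintype A] [Fintype B]

open Classical in
/-- The coded description of one block. -/
noncomputable def ent (al : List Cl → Ξ → ℕ) (π : Fin k → A → B) (W : Fin k → List Cl)
    (v : Tm Ξ A B k l) (i : Fin k) : Option (List Cl × ℕ) × ℕ × ℕ :=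
  (if fac π v.2.1 i then none else some (W i, cd (v.1 i).1), al (W i) (v.1 i).1, cd (v.1 i).2)

/-- The name as a function of the projections. -/
noncomputable def nmP (al : List Cl → Ξ → ℕ) (π : Fin k → A → B) (W : Fin k → List Cl)
    (v : Tm Ξ A B k l) : ℕ :=
  enc (List.ofFn (ent al π W v), cd (tabP π v))

/-- The name of a vertex. -/
noncomputable def nm (al : List Cl → Ξ → ℕ) (pr : List Cl → Ξ → A → B) (W : Fin k → List Cl)
    (v : Tm Ξ A B k l) : ℕ :=
  nmP al (prj pr W v) W v

theorem isName (al : List Cl → Ξ → ℕ) (pr : List Cl → Ξ → A → B) :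
    IsName al pr (nm (k := k) (l := l) al pr) := by
  intro W v W' v'
  have h1 : nm al pr W v = nm al pr W' v' ↔
      ent al (prj pr W v) W v = ent al (prj pr W' v') W' v' ∧ tab pr W v = tab pr W' v' := by
    constructor
    · intro h
      have h2 := Enc.inj h
      rw [Prod.mk.injEq, cd_inj] at h2
      exact ⟨List.ofFn_injective h2.1, h2.2⟩
    · rintro ⟨h2, h3⟩
      have h4 : tabP (prj pr W v) v = tabP (prj pr W' v') v' := h3
      simp only [nm, nmP, h2, h4]
  rw [h1]
  refine and_congr_left fun _ => ?_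
  simp only [funext_iff]
  refine forall_congr' fun i => ?_
  simp only [ent, desc, Prod.mk.injEq, cd_inj]
  refine and_congr_left fun _ => ?_
  split_ifs <;> simp [cd_inj]

theorem pt_toW (i : Fin k) : PT fun U => toW k U i := by
  unfold toW
  fun_prop

theorem pt_nm {al : List Cl → Ξ → ℕ} {pr : List Cl → Ξ → A → B} (hal : ∀ ξ, PT fun u => al u ξ)
    (hpr : ∀ ξ a b, PT fun u => pr u ξ a = b) (v : Tm Ξ A B k l) :
    PT fun U => nm al pr (toW k U) v := by
  refine pt_proj (fun U => prj pr (toW k U) v) (fun i a b => (hpr _ a b).comp (pt_toW i))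
    (fun p U => nmP al p (toW k U) v) fun p => ?_
  refine PT.encN (PT.mk (pt_ofFn _ fun i => ?_) (PT.const _))
  refine PT.mk ?_ (PT.mk ((hal _).comp (pt_toW i)) (PT.const _))
  by_cases h : fac p v.2.1 i
  · simp only [if_pos h]; exact PT.const _
  · simp only [if_neg h]; exact PT.some (PT.mk (pt_toW i) (PT.const _))

omit [Fintype Ξ] in
theorem pt_adj {pr : List Cl → Ξ → A → B} (hpr : ∀ ξ a b, PT fun u => pr u ξ a = b)
    (v v' : Tm Ξ A B k l) : PT fun U => adj pr (toW k U) v v' :=
  pt_proj (fun U => prj pr (toW k U) v) (fun i a b => (hpr _ a b).comp (pt_toW i))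
    (fun p U => adjP p (prj pr (toW k U) v') v v') fun p =>
      pt_proj (fun U => prj pr (toW k U) v') (fun i a b => (hpr _ a b).comp (pt_toW i))
        (fun p' _ => adjP p p' v v') fun _ => PT.const _

open Classical in
/-- The edges inside one window. -/
noncomputable def edges (k l : ℕ) (al : List Cl → Ξ → ℕ) (pr : List Cl → Ξ → A → B)
    (U : List (List Cl)) : List (ℕ × ℕ) :=
  (univ : Finset (Tm Ξ A B k l × Tm Ξ A B k l)).toList.flatMap fun p =>
    if adj pr (toW k U) p.1 p.2 then [(nm al pr (toW k U) p.1, nm al pr (toW k U) p.2)] else []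

theorem pt_edges {al : List Cl → Ξ → ℕ} {pr : List Cl → Ξ → A → B}
    (hal : ∀ ξ, PT fun u => al u ξ) (hpr : ∀ ξ a b, PT fun u => pr u ξ a = b) :
    PT (edges k l al pr) := by
  classical
  unfold edges
  exact pt_flatMap_const _ _ fun p _ => PT.ite (pt_adj hpr p.1 p.2)
    (PT.cons (PT.mk (pt_nm hal hpr p.1) (pt_nm hal hpr p.2)) (PT.const _)) (PT.const _)

theorem mem_edges {al : List Cl → Ξ → ℕ} {pr : List Cl → Ξ → A → B} {U : List (List Cl)}
    {e : ℕ × ℕ} : e ∈ edges k l al pr U ↔ ∃ v v' : Tm Ξ A B k l, adj pr (toW k U) v v' ∧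
      e = (nm al pr (toW k U) v, nm al pr (toW k U) v') := by
  simp only [edges, List.mem_flatMap, mem_toList, mem_univ, true_and]
  constructor
  · rintro ⟨p, h3⟩
    by_cases h4 : adj pr (toW k U) p.1 p.2
    · rw [if_pos h4, List.mem_singleton] at h3
      exact ⟨p.1, p.2, h4, h3⟩
    · rw [if_neg h4] at h3
      simp at h3
  · rintro ⟨v, v', h2, h3⟩
    refine ⟨(v, v'), ?_⟩
    rw [if_pos h2, h3]
    exact List.mem_singleton.2 rfl

end PTime

theorem val_eq_of_key {π : Fin k → A → B} {M : Mat (Fin (l + 1)) (Fin k × A)} {x x' : Fin k → A}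
    (h : key π M x = key π M x') : val M x = val M x' := by
  funext j
  refine sum_congr rfl fun i _ => ?_
  have h1 := congrFun h i
  by_cases hf : fac π M i
  · simp only [key, if_pos hf, Sum.inr.injEq] at h1
    exact hf _ _ h1 j
  · simp only [key, if_neg hf, Sum.inl.injEq] at h1
    rw [h1]

/-- The honest key read off from a description. -/
def key0 {U : Type} (F : U → A) (G : ℕ → B) (dl : Fin k → Option (U × Ξ) × ℕ × (B → F2)) :
    Fin k → A ⊕ B :=
  fun i => (dl i).1.elim (Sum.inr (G (dl i).2.1)) fun p => Sum.inl (F p.1)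

/-- The honest colour read off from a description and a table. -/
noncomputable def col0 {U : Type} (F : U → A) (G : ℕ → B)
    (dl : Fin k → Option (U × Ξ) × ℕ × (B → F2)) (tb : Set ((Fin k → A ⊕ B) × F2 × Fin 4)) :
    F2 × F2 × Fin 4 :=
  ((Classical.epsilon fun y : F2 × Fin 4 => (key0 F G dl, y) ∈ tb).1,
    ∑ i, (dl i).2.2 (G (dl i).2.1),
    (Classical.epsilon fun y : F2 × Fin 4 => (key0 F G dl, y) ∈ tb).2)

theorem col0_eq {U : Type} (al : U → Ξ → ℕ) (pr : U → Ξ → A → B) (F : U → A) (G : ℕ → B)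
    (W : Fin k → U) (v : Tm Ξ A B k l) (h : ∀ i ξ, pr (W i) ξ (F (W i)) = G (al (W i) ξ)) :
    col0 F G (desc al pr W v) (tab pr W v) = hcol pr W v fun i => F (W i) := by
  have h1 : key0 F G (desc al pr W v) = key (prj pr W v) v.2.1 fun i => F (W i) := by
    funext i
    by_cases hf : fac (prj pr W v) v.2.1 i
    · simp only [key0, desc, key, if_pos hf, Option.elim_none, prj, h]
    · simp only [key0, desc, key, if_neg hf, Option.elim_some]
  have h2 := Classical.epsilon_spec
    (p := fun y : F2 × Fin 4 => (key0 F G (desc al pr W v), y) ∈ tab pr W v)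
    ⟨_, (fun i => F (W i)), by rw [h1]⟩
  obtain ⟨x, hx⟩ := h2
  rw [Prod.mk.injEq] at hx
  have h3 := val_eq_of_key (hx.1.trans h1)
  have h4 := hx.2
  rw [h3] at h4
  simp only [col0, hcol, ← h4]
  simp only [cls, prj, h, desc]

end GPT

open GPT in
theorem graphPTThm : GraphPTThm := by
  intro Ξ A B _ _ _ _ _ k l al pr hal hpr
  refine ⟨fun L => (tuples k L).flatMap (edges k l al pr), nm al pr, ?_, isName al pr,
    fun L e => ?_⟩
  · exact PT.flatMap (f := fun (_ : List (List Cl)) (U : List (List Cl)) => edges k l al pr U)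
      (PT.comp (g := edges k l al pr) (f := fun x : List (List Cl) × List (List Cl) => x.2)
        (pt_edges hal hpr) (PT.snd PT.id)) (pt_tuples k PT.id)
  · simp only [List.mem_flatMap, mem_tuples, mem_edges]
    constructor
    · rintro ⟨U, ⟨h1, h2⟩, v, v', h3, h4⟩
      refine ⟨toW k U, v, v', fun i => h2 _ ?_, h3, h4⟩
      rw [← ofFn_toW h1, toW_ofFn]
      exact List.mem_ofFn.2 ⟨i, rfl⟩
    · rintro ⟨W, v, v', h1, h2, h3⟩
      refine ⟨List.ofFn W, ⟨by simp, fun x hx => ?_⟩, v, v', ?_⟩
      · obtain ⟨i, rfl⟩ := List.mem_ofFn.1 hx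
        exact h1 i
      · rw [toW_ofFn]
        exact ⟨h2, h3⟩

open GPT in
theorem graphCompThm : GraphCompThm := by
  intro U Ξ A B k l al pr nm hnm P F G hFG
  classical
  let e : F2 × F2 × Fin 4 ≃ Fin 16 := Fintype.equivFinOfCardEq (by simp)
  let χ : ℕ → Fin 16 := fun n =>
    if h : ∃ q : (Fin k → U) × Tm Ξ A B k l, nm q.1 q.2 = n then
      e (col0 F G (desc al pr h.choose.1 h.choose.2) (tab pr h.choose.1 h.choose.2)) else 0
  have hχ : ∀ W v, χ (nm W v) = e (col0 F G (desc al pr W v) (tab pr W v)) := by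
    intro W v
    have h : ∃ q : (Fin k → U) × Tm Ξ A B k l, nm q.1 q.2 = nm W v := ⟨(W, v), rfl⟩
    have h1 := (hnm _ _ _ _).1 h.choose_spec
    simp only [χ, dif_pos h, h1.1, h1.2]
  refine ⟨χ, fun W v v' hW ha => ?_⟩
  have h1 : ∀ i ξ, pr (W i) ξ (F (W i)) = G (al (W i) ξ) := fun i => hFG _ (hW i)
  rw [hχ, hχ, col0_eq al pr F G W v h1, col0_eq al pr F G W v' h1]
  exact fun h => ha _ (e.injective h)

end Vale.Agent.P342
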