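import Vale.Agent.P342.Basic

/-! From colourings to list labellings. -/

namespace Vale.Agent.P342

open Vale.Agent.P325 Vale.Agent.Lib.PolyTime Finset Matrix Module
open scoped BigOperators

namespace GS

section Base

variable {κ K : Type} [Nonempty κ] [Nonempty K]

/-- A base point that depends only on the table. -/
noncomputable def baseOf (T : Set (κ × K)) : K :=
  Classical.epsilon fun v => (Classical.epsilon fun k => k ∈ Prod.fst '' T, v) ∈ T

theorem baseOf_spec {T : Set (κ × K)} (h : T.Nonempty) :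
    (Classical.epsilon fun k => k ∈ Prod.fst '' T, baseOf T) ∈ T := by
  have h1 : (Classical.epsilon fun k => k ∈ Prod.fst '' T) ∈ Prod.fst '' T :=
    Classical.epsilon_spec (p := fun k => k ∈ Prod.fst '' T) (h.image _)
  obtain ⟨p, hp, he⟩ := h1
  exact Classical.epsilon_spec
    (p := fun v => (Classical.epsilon fun k => k ∈ Prod.fst '' T, v) ∈ T) ⟨p.2, he ▸ hp⟩

theorem baseOf_image {T : Set (κ × K)} (h : T.Nonempty)
    (hf : ∀ k v v', (k, v) ∈ T → (k, v') ∈ T → v = v') (σ : K → K) :
    baseOf ((fun p => (p.1, σ p.2)) '' T) = σ (baseOf T) := by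
  have h1 := baseOf_spec (h.image fun p : κ × K => (p.1, σ p.2))
  have h2 := baseOf_spec h
  have h3 : Prod.fst '' ((fun p : κ × K => (p.1, σ p.2)) '' T) = Prod.fst '' T := by
    rw [Set.image_image]
  rw [h3] at h1
  obtain ⟨p, hp, he⟩ := h1
  obtain ⟨e1, e2⟩ := Prod.mk.inj he
  rw [← e1] at h2
  rw [← e2, hf p.1 p.2 _ hp h2]

end Base

section Colour

variable {Z : Type} [Fintype Z] [Nonempty Z] {c : ℕ}

theorem exists_dense (hc : 0 < c) (g : Z → Fin c) :
    ∃ j, 1 / (c : ℝ) ≤ 𝔼 z, ind (g z = j) := by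
  by_contra hn
  push Not at hn
  have : Nonempty (Fin c) := ⟨⟨0, hc⟩⟩
  have h1 : ∑ j, 𝔼 z, ind (g z = j) < ∑ _j : Fin c, 1 / (c : ℝ) :=
    sum_lt_sum_of_nonempty univ_nonempty fun j _ => hn j
  have h2 : ∑ j, 𝔼 z, ind (g z = j) = 1 := by
    rw [← expect_sum_comm]
    have : ∀ z, ∑ j, ind (g z = j) = 1 := fun z => by simp [ind_eq_ite]
    simp only [this]
    exact expect_const univ_nonempty 1
  have h3 : (c : ℝ) ≠ 0 := Nat.cast_ne_zero.2 hc.ne'
  rw [h2, sum_const, card_univ, Fintype.card_fin, nsmul_eq_mul, mul_one_div_cancel h3] at h1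
  exact lt_irrefl _ h1

/-- A popular colour. -/
noncomputable def colOf (hc : 0 < c) (g : Z → Fin c) : Fin c := (exists_dense hc g).choose

/-- The points of the popular colour. -/
noncomputable def cloud (hc : 0 < c) (g : Z → Fin c) : Finset Z :=
  univ.filter fun z => g z = colOf hc g

theorem mem_cloud {hc : 0 < c} {g : Z → Fin c} {z : Z} : z ∈ cloud hc g ↔ g z = colOf hc g := by
  simp [cloud]

theorem cloud_dense (hc : 0 < c) (g : Z → Fin c) : 1 / (c : ℝ) ≤ 𝔼 z, ind (z ∈ cloud hc g) := by
  simp only [mem_cloud]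
  exact (exists_dense hc g).choose_spec

end Colour

section Table

variable {A B : Type} {k l : ℕ}

/-- The table of keys and values. -/
def tb (π : Fin k → A → B) (M : Mat (Fin (l + 1)) (Fin k × A)) :
    Set ((Fin k → A ⊕ B) × Bv (l + 1)) :=
  Set.range fun x => (key π M x, val M x)

theorem val_eq_of_key {π : Fin k → A → B} {M : Mat (Fin (l + 1)) (Fin k × A)}
    {x x' : Fin k → A} (h : key π M x = key π M x') : val M x = val M x' := by
  funext j
  refine sum_congr rfl fun i _ => ?_
  have h1 := congrFun h i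
  by_cases hf : fac π M i
  · simp only [key, if_pos hf, Sum.inr.injEq] at h1
    exact hf _ _ h1 j
  · simp only [key, if_neg hf, Sum.inl.injEq] at h1
    rw [h1]

theorem tb_fun (π : Fin k → A → B) (M : Mat (Fin (l + 1)) (Fin k × A)) :
    ∀ y v v', (y, v) ∈ tb π M → (y, v') ∈ tb π M → v = v' := by
  rintro y v v' ⟨x, hx⟩ ⟨x', hx'⟩
  obtain ⟨a1, a2⟩ := Prod.mk.inj hx
  obtain ⟨a3, a4⟩ := Prod.mk.inj hx'
  rw [← a2, ← a4]
  exact val_eq_of_key (a1.trans a3.symm)

theorem fac_shift (π : Fin k → A → B) (M : Mat (Fin (l + 1)) (Fin k × A)) (i : Fin k)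
    (s : Bv (l + 1)) : fac π (M + vecMulVec s (blk i)) = fac π M := by
  funext i'
  simp only [fac, Matrix.add_apply, vecMulVec_apply, blk, add_left_inj]

theorem val_shift (M : Mat (Fin (l + 1)) (Fin k × A)) (i : Fin k) (s : Bv (l + 1))
    (x : Fin k → A) : val (M + vecMulVec s (blk i)) x = val M x + s := by
  funext j
  simp [val, vecMulVec_apply, blk, sum_add_distrib]

theorem tb_shift (π : Fin k → A → B) (M : Mat (Fin (l + 1)) (Fin k × A)) (i : Fin k)
    (s : Bv (l + 1)) :
    tb π (M + vecMulVec s (blk i)) = (fun p => (p.1, p.2 + s)) '' tb π M := by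
  have : key π (M + vecMulVec s (blk i)) = key π M := by
    unfold key
    rw [fac_shift]
  simp only [tb, this, val_shift, ← Set.range_comp]
  rfl

theorem fac_of {π : Fin k → A → B} {M : Mat (Fin (l + 1)) (Fin k × A)} {i : Fin k}
    {m : Mat (Fin (l + 1)) B} (h : ∀ j a, M j (i, a) = m j (π i a)) : fac π M i :=
  fun a a' ha j => by rw [h, h, ha]

theorem fac_eq {π π' : Fin k → A → B} {M M' : Mat (Fin (l + 1)) (Fin k × A)} {i : Fin k}
    {m : Mat (Fin (l + 1)) B} (hπ : ∀ j, j ≠ i → π j = π' j)
    (hM : ∀ j x, x.1 ≠ i → M j x = M' j x) (h : ∀ j a, M j (i, a) = m j (π i a))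
    (h' : ∀ j a, M' j (i, a) = m j (π' i a)) : fac π M = fac π' M' := by
  funext j
  by_cases hj : j = i
  · subst hj
    exact propext ⟨fun _ => fac_of h', fun _ => fac_of h⟩
  · have : ∀ j' a, M j' (j, a) = M' j' (j, a) := fun j' a => hM j' (j, a) hj
    simp only [fac, hπ j hj, this]

theorem tb_subset {π π' : Fin k → A → B} {M M' : Mat (Fin (l + 1)) (Fin k × A)} {i : Fin k}
    {m : Mat (Fin (l + 1)) B} (hπ : ∀ j, j ≠ i → π j = π' j)
    (hr : Set.range (π i) = Set.range (π' i))
    (hM : ∀ j x, x.1 ≠ i → M j x = M' j x) (h : ∀ j a, M j (i, a) = m j (π i a))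
    (h' : ∀ j a, M' j (i, a) = m j (π' i a)) : tb π M ⊆ tb π' M' := by
  rintro _ ⟨x, rfl⟩
  obtain ⟨a, ha⟩ : π i (x i) ∈ Set.range (π' i) := hr ▸ ⟨x i, rfl⟩
  refine ⟨Function.update x i a, Prod.ext ?_ ?_⟩
  · funext j
    have hf := fac_eq hπ hM h h'
    by_cases hj : j = i
    · subst hj
      simp only [key, if_pos (fac_of h), if_pos (fac_of h'), Function.update_self, ha]
    · by_cases hfj : fac π M j
      · simp only [key, if_pos hfj, if_pos (hf ▸ hfj : fac π' M' j), Function.update_of_ne hj,
          hπ j hj]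
      · simp only [key, if_neg hfj, if_neg (hf ▸ hfj : ¬ fac π' M' j), Function.update_of_ne hj]
  · funext j
    change ∑ i', M' j (i', Function.update x i a i') = ∑ i', M j (i', x i')
    refine sum_congr rfl fun i' _ => ?_
    by_cases hj : i' = i
    · subst hj
      rw [Function.update_self, h, h', ha]
    · rw [Function.update_of_ne hj, hM j _ hj]

variable {U Ξ : Type}

theorem tab_eq (pr : U → Ξ → A → B) (W : Fin k → U) (v : Tm Ξ A B k l) :
    tab pr W v = (fun p => (p.1, p.2 0, v.2.2 p.2)) '' tb (prj pr W v) v.2.1 := by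
  simp only [tab, tb, ← Set.range_comp]
  rfl

end Table

end GS

open GS in
theorem graphSound_of (h : DMRThm) : GraphSoundThm := by
  intro c
  rcases Nat.eq_zero_or_pos c with rfl | hc
  · exact ⟨0, fun _ _ _ _ _ _ _ _ _ _ _ _ _ _ χ _ => (χ 0).elim0⟩
  obtain ⟨t, ht⟩ := h (1 / (c : ℝ)) (by positivity)
  refine ⟨t, fun U U' Ξ A B _ k l al pr nm hnm hr q χ hχ => ?_⟩
  obtain ⟨lst, hcard, hl⟩ := ht (Bv (l + 1))
  let π : Win U' Ξ B k → Fin k → A → B := fun w i => pr (q (w i).1) (w i).2.1
  let f : Win U' Ξ B k → Mat (Fin (l + 1)) (Fin k × A) → (Bv (l + 1) → Fin 4) → Fin c :=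
    fun w M Φ => χ (nm (fun i => q (w i).1) (fun i => (w i).2, M, Φ))
  let b : Win U' Ξ B k → Mat (Fin (l + 1)) (Fin k × A) → Bv (l + 1) :=
    fun w M => baseOf (tb (π w) M)
  let g : Win U' Ξ B k → Mat (Fin (l + 1)) (Fin k × A) → (Bv (l + 1) → Fin 4) → Fin c :=
    fun w M Ψ => f w M fun z => Ψ (z + b w M)
  refine ⟨fun w M => (colOf hc (g w M), (lst (cloud hc (g w M))).image (· + b w M)),
    fun w M => card_image_le.trans (hcard _), ?_, ?_, ?_⟩
  · intro w M i s hs
    have hb : b w (M + vecMulVec s (blk i)) = b w M + s := by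
      simp only [b, tb_shift]
      exact baseOf_image (Set.range_nonempty _) (tb_fun _ _) (· + s)
    have hf : ∀ Φ, f w (M + vecMulVec s (blk i)) Φ = f w M fun z => Φ (z + s) := by
      intro Φ
      refine congrArg χ ((hnm _ _ _ _).2 ⟨?_, ?_⟩)
      · unfold desc
        rw [fac_shift]
        rfl
      · rw [tab_eq, tab_eq]
        simp only [tb_shift, Set.image_image, Pi.add_apply, hs, add_zero]
        rfl
    have hg : g w (M + vecMulVec s (blk i)) = g w M := by
      funext Ψ
      simp only [g, hf, hb]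
      refine congrArg (f w M) (funext fun z => congrArg Ψ ?_)
      rw [add_comm (b w M) s, ← add_assoc, add_assoc z s s, Fou.add_self_pi, add_zero]
    simp only [hg, hb, image_image, Function.comp_def, add_assoc]
  · intro w w' M M' hw hM hcol'
    have hcol'' : colOf hc (g w M) = colOf hc (g w' M') := hcol'
    obtain ⟨z, hz, hz'⟩ := hl (cloud hc (g w M)) (cloud hc (g w' M'))
      (Equiv.addRight (b w M + b w' M')) (cloud_dense _ _) (cloud_dense _ _) (by
        intro Ψ hΨ Ψ' hΨ'
        by_contra hn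
        push Not at hn
        have hW : (fun i => q (w' i).1) = fun i => q (w i).1 := funext fun i => by rw [hw i]
        have hne := hχ (fun i => (w i).1) (fun i => (w i).2, M, fun z => Ψ (z + b w M))
          (fun i => (w' i).2, M', fun z => Ψ' (z + b w' M')) (by
            intro x hx
            obtain ⟨e1, e23⟩ := Prod.mk.inj hx
            obtain ⟨e2, e3⟩ := Prod.mk.inj e23
            have e4 : val M x = val M' x := hM x e1 (by
              refine e2.trans ?_
              simp only [cls, prj, hw])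
            refine hn (val M x + b w M) ?_
            refine e3.trans (congrArg Ψ' ?_)
            change val M' x + b w' M' = val M x + b w M + (b w M + b w' M')
            rw [← add_assoc, add_assoc _ (b w M) (b w M), Fou.add_self_pi, add_zero, e4])
        apply hne
        have a1 : g w M Ψ = g w' M' Ψ' := by
          rw [mem_cloud.1 hΨ, mem_cloud.1 hΨ', hcol'']
        simp only [g, f, hW] at a1
        exact a1)
    refine ⟨z + b w M, mem_image_of_mem _ hz, mem_image.2 ⟨_, hz', ?_⟩⟩
    change z + (b w M + b w' M') + b w' M' = z + b w M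
    rw [add_assoc, add_assoc, Fou.add_self_pi, add_zero]
  · intro w w' M M' i m hw hal hτ hM h1 h2
    have hπ : ∀ j, j ≠ i → π w j = π w' j := fun j hj => by simp only [π, hw j hj]
    have hrg : Set.range (π w i) = Set.range (π w' i) := hr _ _ _ _ hal
    have htb : tb (π w) M = tb (π w') M' :=
      (tb_subset hπ hrg hM h1 h2).antisymm (tb_subset (fun j hj => (hπ j hj).symm) hrg.symm
        (fun j x hx => (hM j x hx).symm) h2 h1)
    have hb : b w M = b w' M' := congrArg baseOf htb
    have hf : f w M = f w' M' := by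
      funext Φ
      refine congrArg χ ((hnm _ _ _ _).2 ⟨?_, ?_⟩)
      · funext j
        have hfe : fac (π w) M = fac (π w') M' := fac_eq hπ hM h1 h2
        by_cases hj : j = i
        · subst hj
          refine Prod.ext ?_ (Prod.ext hal hτ)
          exact (if_pos (fac_of (π := π w) h1)).trans (if_pos (fac_of (π := π w') h2)).symm
        · refine Prod.ext ?_ (by simp only [desc, hw j hj])
          by_cases hfj : fac (π w) M j
          · exact (if_pos hfj).trans (if_pos (hfe ▸ hfj : fac (π w') M' j)).symm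
          · refine (if_neg hfj).trans (Eq.trans ?_ (if_neg (hfe ▸ hfj : ¬ fac (π w') M' j)).symm)
            simp only [hw j hj]
      · rw [tab_eq, tab_eq]
        exact congrArg _ htb
    have hg : g w M = g w' M' := by simp only [g, hf, hb]
    simp only [hg, hb]

end Vale.Agent.P342
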