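import Vale.Agent.P342.Basic

/-! Neighbourhoods of dense sets. -/

namespace Vale.Agent.P342

open Vale.Agent.P325 Vale.Agent.Lib.PolyTime Finset Matrix Module
open scoped BigOperators

namespace LemJ

section Gen

variable {K A B : Type} [Fintype K] [DecidableEq K] [Fintype A] [Fintype B]

/-- Expectation for a product weight. -/
def Ew (w : K → A → ℝ) (f : (K → A) → ℝ) : ℝ := ∑ x : K → A, (∏ i, w i (x i)) * f x

lemma Ew_mono {w : K → A → ℝ} (hw : ∀ i a, 0 ≤ w i a) {f g : (K → A) → ℝ} (h : ∀ x, f x ≤ g x) :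
    Ew w f ≤ Ew w g :=
  sum_le_sum fun x _ => mul_le_mul_of_nonneg_left (h x) (prod_nonneg fun i _ => hw i _)

lemma sum_prod_eq (w : K → A → ℝ) : ∑ x : K → A, ∏ i, w i (x i) = ∏ i, ∑ a, w i a := by
  rw [Finset.prod_univ_sum, Fintype.piFinset_univ]

lemma Ew_const {w : K → A → ℝ} (hw : ∀ i, ∑ a, w i a = 1) (c : ℝ) : Ew w (fun _ => c) = c := by
  unfold Ew
  rw [← sum_mul, sum_prod_eq]
  simp [hw]

lemma Ew_mul (w : K → A → ℝ) (c : ℝ) (f : (K → A) → ℝ) : Ew w (fun x => c * f x) = c * Ew w f := by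
  unfold Ew
  rw [mul_sum]
  exact sum_congr rfl fun x _ => by ring

lemma Ew_exists {w : K → A → ℝ} (hw0 : ∀ i a, 0 ≤ w i a) (hw : ∀ i, ∑ a, w i a = 1) {c : ℝ}
    {f : (K → A) → ℝ} (h : c < Ew w f) : ∃ x, c < f x := by
  by_contra hc
  push Not at hc
  have := Ew_mono hw0 hc
  rw [Ew_const hw] at this
  linarith

lemma Ew_push [DecidableEq B] (w : K → A → ℝ) (v : K → B → ℝ) (φ : A → B)
    (h : ∀ i b, ∑ a, (w i a * if φ a = b then 1 else 0) = v i b) (f : (K → B) → ℝ) :
    Ew w (fun x => f fun i => φ (x i)) = Ew v f := by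
  unfold Ew
  have h1 : ∀ y : K → B, ∏ i, v i (y i) =
      ∑ x : K → A, (∏ i, w i (x i)) * if (fun i => φ (x i)) = y then 1 else 0 := by
    intro y
    simp_rw [← h]
    rw [← sum_prod_eq (fun i a => w i a * if φ a = y i then 1 else 0)]
    refine sum_congr rfl fun x _ => ?_
    rw [prod_mul_distrib]
    congr 1
    by_cases hx : (fun i => φ (x i)) = y
    · subst hx
      simp
    · rw [if_neg hx]
      obtain ⟨i, hi⟩ := Function.ne_iff.1 hx
      exact prod_eq_zero (mem_univ i) (if_neg hi)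
  simp_rw [h1, sum_mul]
  rw [sum_comm]
  refine sum_congr rfl fun x _ => ?_
  simp

lemma Ew_upd {w : K → A → ℝ} {i : K} (hw : ∑ a, w i a = 1) (d : A → ℝ) (f : (K → A) → ℝ) :
    Ew w (fun x => ∑ a, d a * f (Function.update x i a)) =
      ∑ x : K → A, (∏ j ∈ univ.erase i, w j (x j)) * d (x i) * f x := by
  let e : (K → A) × A → (K → A) × A := fun q => (Function.update q.1 i q.2, q.1 i)
  have he : Function.Involutive e := by
    intro q
    simp [e]
  have h1 : ∀ x : K → A, (∏ j ∈ univ.erase i, w j (x j)) * d (x i) * f x =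
      ∑ a, w i a * ((∏ j ∈ univ.erase i, w j (x j)) * d (x i) * f x) := by
    intro x
    rw [← sum_mul, hw, one_mul]
  unfold Ew
  simp_rw [mul_sum]
  rw [sum_congr rfl fun x _ => h1 x, ← Fintype.sum_prod_type', ← Fintype.sum_prod_type']
  refine Fintype.sum_bijective e he.bijective _ _ fun q => ?_
  simp only [e, Function.update_self]
  rw [← mul_prod_erase univ (fun j => w j (q.1 j)) (mem_univ i)]
  have : ∏ j ∈ univ.erase i, w j (Function.update q.1 i q.2 j) = ∏ j ∈ univ.erase i, w j (q.1 j) :=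
    prod_congr rfl fun j hj => by rw [Function.update_of_ne (ne_of_mem_erase hj)]
  rw [this]
  ring

lemma Ew_resample {w : K → A → ℝ} (hw : ∀ i, ∑ a, w i a = 1) (T : Finset K) (f : (K → A) → ℝ) :
    Ew w (fun y' => Ew w fun y => f (T.piecewise y' y)) = Ew w f := by
  let e : (K → A) × (K → A) → (K → A) × (K → A) :=
    fun q => (T.piecewise q.1 q.2, T.piecewise q.2 q.1)
  have he : Function.Involutive e := by
    intro q
    ext i <;> by_cases hi : i ∈ T <;> simp [e, hi]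
  have h1 : Ew w f = Ew w (fun y' => Ew w fun _ => f y') := by
    simp_rw [Ew_const hw]
  rw [h1]
  unfold Ew
  simp_rw [mul_sum]
  rw [← Fintype.sum_prod_type', ← Fintype.sum_prod_type']
  refine Fintype.sum_bijective e he.bijective _ _ fun q => ?_
  simp only [e]
  rw [← mul_assoc, ← mul_assoc, ← prod_mul_distrib, ← prod_mul_distrib]
  congr 1
  refine prod_congr rfl fun i _ => ?_
  by_cases hi : i ∈ T
  · simp [hi]
  · simp [hi, mul_comm]

lemma Ew_deriv {w : ℝ → K → A → ℝ} {d : K → A → ℝ} {s : ℝ} (hw : ∀ i, ∑ a, w s i a = 1)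
    (hd : ∀ i a, HasDerivAt (fun r => w r i a) (d i a) s) (f : (K → A) → ℝ) :
    HasDerivAt (fun r => Ew (w r) f)
      (∑ i, Ew (w s) fun x => ∑ a, d i a * f (Function.update x i a)) s := by
  simp_rw [Ew_upd (hw _)]
  rw [sum_comm]
  unfold Ew
  refine HasDerivAt.fun_sum fun x _ => ?_
  rw [← sum_mul]
  refine HasDerivAt.mul_const ?_ _
  simpa [smul_eq_mul] using HasDerivAt.fun_finsetProd (u := univ) (fun i _ => hd i (x i))

lemma expect_eq_Ew (f : (K → Fin 4) → ℝ) : 𝔼 Φ, f Φ = Ew (fun _ _ => 1 / 4) f := by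
  unfold Ew
  rw [Finset.expect_eq_sum_div_card, sum_div]
  refine sum_congr rfl fun x _ => ?_
  simp [div_eq_inv_mul]

lemma Exb_eq_Ew (p : K → ℝ) (f : (K → Bool) → ℝ) :
    Exb p f = Ew (fun i b => if b = true then p i else 1 - p i) f := rfl

lemma Exb_curry {J : Type} [Fintype J] [DecidableEq J] (q : J → ℝ) (f : (K → J → Bool) → ℝ) :
    Exb (fun i : K × J => q i.2) (fun x => f fun z j => x (z, j)) =
      Ew (fun _ u => ∏ j, if u j = true then q j else 1 - q j) f := by
  unfold Exb Ew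
  refine Fintype.sum_equiv (Equiv.curry K J Bool) _ _ fun x => ?_
  rw [Fintype.prod_prod_type]
  rfl

end Gen

/-- The forbidden colour. -/
def Xf (u : Fin 4 → Bool) : Fin 4 := if u 0 then (if u 1 then 3 else 2) else (if u 1 then 1 else 0)

/-- The chosen colour. -/
def Gf (u : Fin 4 → Bool) : Fin 4 := Xf u + if u 2 then 1 else 2

/-- The side of the random box. -/
def Bf (u : Fin 4 → Bool) (y : Fin 4) : Bool := if u 3 then y != Xf u else y == Gf u

/-- The bit probabilities. -/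
noncomputable def qs (s : ℝ) (j : Fin 4) : ℝ := if j = 3 then s else 1 / 2

/-- The weight of four bits. -/
noncomputable def ws (s : ℝ) (u : Fin 4 → Bool) : ℝ := ∏ j, if u j = true then qs s j else 1 - qs s j

lemma ws_eq (s : ℝ) (u : Fin 4 → Bool) : ws s u = 1 / 8 * if u 3 = true then s else 1 - s := by
  have h : ∀ b : Bool, (if b = true then (1 / 2 : ℝ) else 1 - 1 / 2) = 1 / 2 := by
    intro b
    cases b <;> norm_num
  have h0 : qs s 0 = 1 / 2 := if_neg (by decide)
  have h1 : qs s 1 = 1 / 2 := if_neg (by decide)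
  have h2 : qs s 2 = 1 / 2 := if_neg (by decide)
  have h3 : qs s 3 = s := if_pos rfl
  rw [ws, Fin.prod_univ_four, h0, h1, h2, h3, h, h, h]
  ring

/-- Four bits. -/
def e4 : Bool × Bool × Bool × Bool ≃ (Fin 4 → Bool) where
  toFun q := ![q.1, q.2.1, q.2.2.1, q.2.2.2]
  invFun u := (u 0, u 1, u 2, u 3)
  left_inv _ := rfl
  right_inv u := by
    ext j
    fin_cases j <;> rfl

lemma sum4 {M : Type} [AddCommMonoid M] (g : (Fin 4 → Bool) → M) :
    ∑ u, g u = ∑ a, ∑ b, ∑ c, ∑ d, g ![a, b, c, d] := by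
  rw [← e4.sum_comp]
  simp only [Fintype.sum_prod_type]
  rfl

lemma sum_ws (s : ℝ) : ∑ u, ws s u = 1 := by
  simp only [sum4, ws_eq, Fintype.sum_bool]
  simp
  ring

lemma ws_nonneg {s : ℝ} (h0 : 0 ≤ s) (h1 : s ≤ 1) (u : Fin 4 → Bool) : 0 ≤ ws s u := by
  rw [ws_eq]
  split_ifs <;> linarith

lemma push_X (s : ℝ) (b : Fin 4) : ∑ u, (ws s u * if Xf u = b then 1 else 0) = 1 / 4 := by
  simp only [sum4, ws_eq, Fintype.sum_bool]
  fin_cases b <;> simp [Xf] <;> ring

lemma push_G (s : ℝ) (b : Fin 4) : ∑ u, (ws s u * if Gf u = b then 1 else 0) = 1 / 4 := by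
  simp only [sum4, ws_eq, Fintype.sum_bool]
  fin_cases b <;> simp [Gf, Xf] <;> ring

lemma Bf_G (u : Fin 4 → Bool) : Bf u (Gf u) = true := by
  obtain ⟨⟨a, b, c, d⟩, rfl⟩ := e4.surjective u
  revert a b c d
  decide

lemma Bf_X (u : Fin 4 → Bool) (y : Fin 4) (h : Bf u y = true) : y ≠ Xf u := by
  obtain ⟨⟨a, b, c, d⟩, rfl⟩ := e4.surjective u
  revert a b c d y
  decide

/-- The side meets the set `a`. -/
def Hit (a u : Fin 4 → Bool) : Bool :=
  (Bf u 0 && a 0) || (Bf u 1 && a 1) || (Bf u 2 && a 2) || (Bf u 3 && a 3)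

lemma hit_iff (a u : Fin 4 → Bool) : Hit a u = true ↔ ∃ y, Bf u y = true ∧ a y = true := by
  simp [Hit, Fin.exists_fin_succ, or_assoc]

/-- The signed count. -/
def Nn (a : Fin 4 → Bool) : ℤ :=
  ∑ u : Fin 4 → Bool, (if u 3 = true then 1 else -1) * if Hit a u = true then 1 else 0

lemma Nn_key (a : Fin 4 → Bool) : 0 ≤ Nn a ∧ (1 ≤ Nn a ∨ ∀ u, Hit a u = a 0) := by
  obtain ⟨⟨a0, a1, a2, a3⟩, rfl⟩ := e4.surjective a
  rw [Nn, sum4, e4.surjective.forall]
  simp only [Fintype.sum_bool, Prod.forall]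
  revert a0 a1 a2 a3
  decide

variable {K : Type} [Fintype K] [DecidableEq K]

/-- The random box meets `S`. -/
def Fb (S : Finset (K → Fin 4)) (v : K → Fin 4 → Bool) : Prop := ∃ Φ ∈ S, ∀ z, Bf (v z) (Φ z) = true

/-- The derivative of the weight. -/
noncomputable def dw (u : Fin 4 → Bool) : ℝ := 1 / 8 * if u 3 = true then 1 else -1

lemma piv_le (S : Finset (K → Fin 4)) (v : K → Fin 4 → Bool) (z : K) (u₁ u₂ : Fin 4 → Bool) :
    ind (¬ (Fb S (Function.update v z u₁) ↔ Fb S (Function.update v z u₂))) ≤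
      8 * ∑ u, dw u * ind (Fb S (Function.update v z u)) := by
  classical
  let a : Fin 4 → Bool := fun y => decide (∃ Φ ∈ S, Φ z = y ∧ ∀ z', z' ≠ z → Bf (v z') (Φ z') = true)
  have ha : ∀ u, Fb S (Function.update v z u) ↔ Hit a u = true := by
    intro u
    rw [hit_iff]
    constructor
    · rintro ⟨Φ, hΦ, h⟩
      refine ⟨Φ z, by simpa using h z, decide_eq_true ⟨Φ, hΦ, rfl, fun z' hz' => ?_⟩⟩
      simpa [Function.update_of_ne hz'] using h z'
    · rintro ⟨y, hy, h⟩
      obtain ⟨Φ, hΦ, h1, h2⟩ := of_decide_eq_true h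
      refine ⟨Φ, hΦ, fun z' => ?_⟩
      by_cases hz' : z' = z
      · subst hz'
        simpa [h1] using hy
      · rw [Function.update_of_ne hz']
        exact h2 z' hz'
  have hN : 8 * ∑ u, dw u * ind (Fb S (Function.update v z u)) = (Nn a : ℝ) := by
    rw [Nn, mul_sum]
    push_cast
    refine sum_congr rfl fun u _ => ?_
    rw [ind_congr (ha u), ind_eq_ite, dw]
    ring
  rw [hN, ha, ha]
  obtain ⟨h0, h1 | h1⟩ := Nn_key a
  · exact (ind_le_one _).trans (by exact_mod_cast h1)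
  · rw [h1, h1, ind_of_not (by simp)]
    exact_mod_cast h0

lemma exists_s (S : Finset (K → Fin 4)) : ∃ s : ℝ, 1 / 4 ≤ s ∧ s ≤ 3 / 4 ∧
    ∑ z, Ew (fun _ => ws s) (fun v => ∑ u, dw u * ind (Fb S (Function.update v z u))) ≤ 2 := by
  have hd : ∀ s : ℝ, HasDerivAt (fun r => Ew (fun _ : K => ws r) fun v => ind (Fb S v))
      (∑ z, Ew (fun _ => ws s) (fun v => ∑ u, dw u * ind (Fb S (Function.update v z u)))) s := by
    intro s
    refine Ew_deriv (w := fun r _ => ws r) (d := fun _ => dw) (fun _ => sum_ws s) (fun _ u => ?_) _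
    simp only [ws_eq, dw]
    refine HasDerivAt.const_mul _ ?_
    split_ifs
    · exact hasDerivAt_id' s
    · exact (hasDerivAt_id' s).const_sub 1
  obtain ⟨s, hs, h⟩ := exists_hasDerivAt_eq_slope
    (fun r => Ew (fun _ : K => ws r) fun v => ind (Fb S v)) _ (show (1 / 4 : ℝ) < 3 / 4 by norm_num)
    (fun s _ => (hd s).continuousAt.continuousWithinAt) (fun s _ => hd s)
  refine ⟨s, hs.1.le, hs.2.le, ?_⟩
  rw [h]
  have h1 : Ew (fun _ : K => ws (3 / 4)) (fun v => ind (Fb S v)) ≤ 1 := by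
    rw [← Ew_const (w := fun _ : K => ws (3 / 4)) (fun _ => sum_ws _) 1]
    exact Ew_mono (fun _ => ws_nonneg (by norm_num) (by norm_num)) fun v => ind_le_one _
  have h0 : 0 ≤ Ew (fun _ : K => ws (1 / 4)) (fun v => ind (Fb S v)) := by
    rw [← Ew_const (w := fun _ : K => ws (1 / 4)) (fun _ => sum_ws _) 0]
    exact Ew_mono (fun _ => ws_nonneg (by norm_num) (by norm_num)) fun v => ind_nonneg _
  rw [div_le_iff₀ (by norm_num)]
  linarith

omit [Fintype K] in
lemma cur_update (x : K × Fin 4 → Bool) (i : K × Fin 4) (b : Bool) :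
    (fun z j => Function.update x i b (z, j)) =
      Function.update (fun z j => x (z, j)) i.1 (Function.update (fun j => x (i.1, j)) i.2 b) := by
  obtain ⟨z₀, j₀⟩ := i
  ext z j
  by_cases hz : z = z₀
  · subst hz
    by_cases hj : j = j₀
    · subst hj
      simp
    · simp [hj]
  · simp [hz]

end LemJ

open LemJ in
theorem lemJ_of (h : FriedThm) : LemJThm := by
  intro μ hμ
  obtain ⟨t, ht⟩ := h 64 (μ ^ 3 / 8) (by positivity)
  refine ⟨t, fun K _ _ S hS => ?_⟩
  obtain ⟨s, hs0, hs1, hs⟩ := exists_s S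
  have hw0 : ∀ (_ : K) u, 0 ≤ ws s u := fun _ => ws_nonneg (by linarith) (by linarith)
  let p : K × Fin 4 → ℝ := fun i => qs s i.2
  have hp : ∀ i, 1 / 4 ≤ p i ∧ p i ≤ 3 / 4 := by
    intro i
    simp only [p, qs]
    split_ifs
    · exact ⟨hs0, hs1⟩
    · norm_num
  have hb0 : ∀ (i : K × Fin 4) (b : Bool), 0 ≤ if b = true then p i else 1 - p i := by
    intro i b
    have := hp i
    split_ifs <;> linarith
  have hb1 : ∀ i : K × Fin 4, ∑ b : Bool, (if b = true then p i else 1 - p i) = 1 := by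
    intro i
    simp
  have hcur : ∀ f : (K → Fin 4 → Bool) → ℝ,
      Exb p (fun x => f fun z j => x (z, j)) = Ew (fun _ => ws s) f := fun f => Exb_curry (qs s) f
  let F : (K × Fin 4 → Bool) → Prop := fun x => Fb S fun z j => x (z, j)
  obtain ⟨T₀, hT₀, hE⟩ := ht (K × Fin 4) p F hp (by
    have h1 : ∀ i : K × Fin 4,
        Exb p (fun x => ind (¬ (F (Function.update x i true) ↔ F (Function.update x i false)))) ≤
          8 * Ew (fun _ => ws s) (fun v => ∑ u, dw u * ind (Fb S (Function.update v i.1 u))) := by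
      intro i
      rw [← Ew_mul, ← hcur, Exb_eq_Ew, Exb_eq_Ew]
      refine Ew_mono hb0 fun x => ?_
      simp only [F, cur_update]
      exact piv_le S _ _ _ _
    refine (sum_le_sum fun i _ => h1 i).trans ?_
    rw [Fintype.sum_prod_type]
    simp only [sum_const, card_univ, Fintype.card_fin, nsmul_eq_mul, ← mul_sum]
    push_cast
    linarith)
  have hF : μ ≤ Exb p fun x => ind (F x) := by
    rw [expect_eq_Ew, ← Ew_push (fun _ => ws s) _ Gf (fun _ => push_G s)] at hS
    rw [hcur fun v => ind (Fb S v)]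
    exact hS.trans (Ew_mono hw0 fun v => ind_mono fun hv => ⟨_, hv, fun z => Bf_G _⟩)
  obtain ⟨x, hx⟩ : ∃ x, 1 - μ / 2 < Exb p fun y => ind (F (T₀.piecewise x y)) := by
    by_contra hc
    push Not at hc
    have h1 : Exb p (fun x => μ ^ 2 / 4 * ind (F x)) ≤
        Exb p (fun x => (ind (F x) - Exb p fun y => ind (F (T₀.piecewise x y))) ^ 2) := by
      refine Ew_mono hb0 fun x => ?_
      by_cases hx : F x
      · rw [ind_of hx]
        have := hc x
        nlinarith
      · rw [ind_of_not hx, mul_zero]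
        positivity
    rw [Exb_eq_Ew, Ew_mul, ← Exb_eq_Ew] at h1
    have h2 : μ ^ 2 / 4 * μ ≤ μ ^ 2 / 4 * Exb p fun x => ind (F x) :=
      mul_le_mul_of_nonneg_left hF (by positivity)
    have h3 : 0 < μ ^ 3 := by positivity
    nlinarith
  let T : Finset K := T₀.image Prod.fst
  let T₁ : Finset (K × Fin 4) := univ.filter fun i => i.1 ∈ T
  rw [Exb_eq_Ew, ← Ew_resample hb1 T₁] at hx
  obtain ⟨y', hy'⟩ := Ew_exists hb0 hb1 hx
  refine ⟨T, fun z => Xf fun j => T₀.piecewise x y' (z, j), card_image_le.trans hT₀, hy'.trans_le ?_⟩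
  rw [expect_eq_Ew, ← Ew_push (fun _ => ws s) _ Xf (fun _ => push_X s), ← hcur, Exb_eq_Ew]
  refine Ew_mono hb0 fun y => ind_mono ?_
  rintro ⟨Φ, hΦ, hB⟩
  refine ⟨Φ, hΦ, fun z => ?_⟩
  have h1 := Bf_X _ _ (hB z)
  by_cases hz : z ∈ T
  · rw [Finset.piecewise_eq_of_mem _ _ _ hz]
    convert h1 using 2
    ext j
    by_cases hj : (z, j) ∈ T₀
    · simp [hj]
    · simp [hj, T₁, hz]
  · rw [Finset.piecewise_eq_of_notMem _ _ _ hz]
    convert h1 using 2
    ext j
    have hj : (z, j) ∉ T₀ := fun hj => hz (mem_image_of_mem _ hj)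
    simp [hj, T₁, hz]

end Vale.Agent.P342
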