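import Vale.Agent.P342.Lin

/-! Choice of the terminal level. -/

namespace Vale.Agent.P342

open Vale.Agent.P325 Vale.Agent.Lib.PolyTime Finset Matrix Module
open scoped BigOperators

namespace Lv

/-- Types of slabs. -/
abbrev Ty (l c : ℕ) : Type :=
  Σ m : Fin (l + 2), Mat (Fin (l + 1)) (Fin m) × Fin c × Finset (Bv (l + 1))

variable {l c : ℕ} {X : Type} [Fintype X] [DecidableEq X]

/-- Admissible types of level `j`. -/
def ok (rr j : ℕ) (th : Ty l c) : Prop :=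
  Function.Injective th.2.1.mulVec ∧ th.2.1 0 ≠ 0 ∧ l + 1 ≤ th.1 + rr ∧ th.2.2.2.card = j

/-- Some atom of the slab is dense in the colour and the labels of the type. -/
def Good (lb : Mat (Fin (l + 1)) X → Fin c × Finset (Bv (l + 1))) (rr : ℕ) (h : ℝ)
    (th : Ty l c) (M : Mat (Fin (l + 1)) X) : Prop :=
  ∃ D : Sub X, finrank F2 D ≤ rr ∧ ∃ N1 : Mat (Fin th.1) X,
    h ≤ 𝔼 N ∈ box ⊥ D, colInd (fun N => lb (M + th.2.1 * N)) th.2.2.1 th.2.2.2 (N1 + N)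

/-- Good for some type of level `j`. -/
def Bad (lb : Mat (Fin (l + 1)) X → Fin c × Finset (Bv (l + 1))) (rr : ℕ) (h : ℝ) (j : ℕ)
    (M : Mat (Fin (l + 1)) X) : Prop :=
  ∃ th : Ty l c, ok rr j th ∧ Good lb rr h th M

/-- The expansion property with given parameters. -/
def Ex (δ : ℝ) (r : ℕ) (η : ℝ) : Prop :=
  ∀ (J X : Type) [Fintype J] [DecidableEq J] [Fintype X] [DecidableEq X]
    (ψ : J → F2) (D : Sub X) (N1 : Mat J X) (g : Mat J X → ℝ), ψ ≠ 0 →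
    (∀ N, 0 ≤ g N ∧ g N ≤ 1) →
    (∀ (Q : Sub J) (D' : Sub X), finrank F2 Q ≤ r → (∃ a ∈ odd ψ, a ∈ ann Q) → D ≤ D' →
      finrank F2 D' ≤ finrank F2 D + r → ∀ N2 ∈ box ⊥ D, 𝔼 N ∈ box Q D', g (N1 + N2 + N) ≤ η) →
    𝔼 a ∈ odd ψ, 𝔼 N ∈ box ⊥ D, lineAvg g D a (N1 + N) ^ 2 ≤ δ * 𝔼 N ∈ box ⊥ D, g (N1 + N)

theorem next_level (lb : Mat (Fin (l + 1)) X → Fin c × Finset (Bv (l + 1))) {rr R j : ℕ} {h' : ℝ}
    (th : Ty l c) (hok : ok rr j th) (M : Mat (Fin (l + 1)) X) (z : Bv (l + 1))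
    (hz : z ∉ th.2.2.2) (Q : Sub (Fin th.1)) (hQ : finrank F2 Q ≤ R)
    (ha : ∃ a ∈ odd (th.2.1 0), a ∈ ann Q) (D : Sub X) (hD : finrank F2 D ≤ rr + R)
    (P : Mat (Fin th.1) X)
    (hP : h' ≤ 𝔼 N ∈ box Q D, ind ((lb (M + th.2.1 * (P + N))).1 = th.2.2.1 ∧
      insert z th.2.2.2 ⊆ (lb (M + th.2.1 * (P + N))).2)) :
    Bad lb (rr + R) h' (j + 1) (M + th.2.1 * P) := by
  obtain ⟨m, E, j0, s⟩ := th
  obtain ⟨h1, h2, h3, h4⟩ := hok
  dsimp only at *
  obtain ⟨m', F, G, hG, hF, hm⟩ := exists_emb Q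
  rw [Fintype.card_fin] at hm
  have hm2 : m' + finrank F2 Q = m.1 := hm
  have hQ2 : finrank F2 Q ≤ R := hQ
  have hlt : m' < l + 2 := by have := m.2; omega
  refine ⟨⟨⟨m', hlt⟩, E * F, j0, insert z s⟩, ⟨?_, ?_, ?_, ?_⟩, D, hD, 0, ?_⟩
  · intro v v' hv
    dsimp only at hv
    rw [← mulVec_mulVec, ← mulVec_mulVec] at hv
    have h5 := congrArg (Gᵀ *ᵥ ·) (h1 hv)
    simpa only [mulVec_mulVec, hG, one_mulVec] using h5
  · obtain ⟨a, ha1, ha2⟩ := ha
    obtain ⟨v, rfl⟩ := (hF a).1 ha2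
    intro h0
    have h5 : (E * F) 0 = E 0 ᵥ* F := rfl
    dsimp only at h0
    rw [mem_odd, dotProduct_mulVec, ← h5, h0, zero_dotProduct] at ha1
    exact zero_ne_one ha1
  · dsimp only
    omega
  · dsimp only
    rw [card_insert_of_notMem hz, h4]
  · dsimp only
    have h5 := expect_box_emb F G hG hF ⊥ D fun N => ind ((lb (M + E * (P + N))).1 = j0 ∧
      insert z s ⊆ (lb (M + E * (P + N))).2)
    rw [Submodule.map_bot, sup_bot_eq] at h5
    rw [← h5] at hP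
    refine hP.trans (le_of_eq (expect_congr rfl fun N _ => ?_))
    simp only [colInd, zero_add, Matrix.mul_add, Matrix.mul_assoc, add_assoc]

theorem claim (hS : SpecAtomThm) (lb : Mat (Fin (l + 1)) X → Fin c × Finset (Bv (l + 1)))
    {rr R j : ℕ} {h h' δ η1 Z : ℝ} (hE : Ex δ R h') (hh' : 0 < h') (th : Ty l c)
    (hok : ok rr j th) (M : Mat (Fin (l + 1)) X) (hG : Good lb rr h th M)
    (hZ : 2 ^ ((l + 1) * rr) ≤ Z) (hη : 0 ≤ η1) (hZη : Z * η1 ≤ h / 2)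
    (hB : Z * 𝔼 N : Mat (Fin th.1) X, ind (Bad lb (rr + R) h' (j + 1) (M + th.2.1 * N)) ≤ h / 4) :
    ∃ D : Sub X, finrank F2 D ≤ rr ∧
      D ≤ spec η1 (colInd (fun N => lb (M + th.2.1 * N)) th.2.2.1 th.2.2.2) ∧
      Term (th.2.1 0) (fun N => lb (M + th.2.1 * N)) th.2.2.1 th.2.2.2 (h / 4) δ D := by
  classical
  obtain ⟨D, hD, N1, hN1⟩ := hG
  obtain ⟨D', hD1, hD2, hD3⟩ := hS _ X
    (colInd (fun N => lb (M + th.2.1 * N)) th.2.2.1 th.2.2.2) D N1 η1 hη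
  have hr : finrank F2 D' ≤ rr := (Submodule.finrank_mono hD1).trans hD
  have hpow : ∀ D0 : Sub X, finrank F2 D0 ≤ rr →
      (2 : ℝ) ^ (Fintype.card (Fin th.1) * finrank F2 D0) ≤ Z := fun D0 h0 => by
    refine le_trans (pow_le_pow_right₀ one_le_two (Nat.mul_le_mul ?_ h0)) hZ
    rw [Fintype.card_fin]
    have := th.1.2
    omega
  have hd : h / 2 ≤ 𝔼 N ∈ box ⊥ D',
      colInd (fun N => lb (M + th.2.1 * N)) th.2.2.1 th.2.2.2 (N1 + N) := by
    have := mul_le_mul_of_nonneg_right (hpow D hD) hη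
    linarith
  set B : Mat (Fin th.1) X → Prop := fun N => Bad lb (rr + R) h' (j + 1) (M + th.2.1 * N) with hBdef
  let Y : Finset (Mat (Fin th.1) X) := univ.filter fun N => (∀ d ∈ D', N *ᵥ d = N1 *ᵥ d) ∧
    ((lb (M + th.2.1 * N)).1 = th.2.2.1 ∧ th.2.2.2 ⊆ (lb (M + th.2.1 * N)).2) ∧ ¬ B N
  have hY : ∀ N, N ∈ Y ↔ (∀ d ∈ D', N *ᵥ d = N1 *ᵥ d) ∧
      ((lb (M + th.2.1 * N)).1 = th.2.2.1 ∧ th.2.2.2 ⊆ (lb (M + th.2.1 * N)).2) ∧ ¬ B N :=
    fun N => by simp only [Y, mem_filter, mem_univ, true_and]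
  refine ⟨D', hr, hD2, N1, Y, fun N hN => ((hY N).1 hN).2.1.1, fun N hN => ((hY N).1 hN).1, ?_,
    fun z hz => ?_⟩
  · have h1 : 𝔼 N ∈ box ⊥ D', ind (B (N1 + N)) ≤ h / 4 :=
      (expect_box_le D' N1 (fun N => ind (B N)) fun N => ind_nonneg _).trans
        ((mul_le_mul_of_nonneg_right (hpow D' hr) (expect_ind_nonneg _ _)).trans hB)
    have h2 : 𝔼 N ∈ box ⊥ D', (colInd (fun N => lb (M + th.2.1 * N)) th.2.2.1 th.2.2.2 (N1 + N)
        - ind (B (N1 + N))) ≤ 𝔼 N ∈ box ⊥ D', ind (N1 + N ∈ Y) := by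
      refine expect_le_expect fun N hN => ?_
      by_cases hb : B (N1 + N)
      · rw [ind_of hb]
        have := ind_nonneg (N1 + N ∈ Y)
        have := ind_le_one ((lb (M + th.2.1 * (N1 + N))).1 = th.2.2.1 ∧
          th.2.2.2 ⊆ (lb (M + th.2.1 * (N1 + N))).2)
        unfold colInd
        linarith
      · rw [ind_of_not hb, sub_zero]
        refine ind_mono fun hc => (hY _).2 ⟨fun d hd => ?_, hc, hb⟩
        rw [add_mulVec, mem_box_bot.1 hN d hd, add_zero]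
    rw [expect_sub_distrib] at h2
    linarith
  · refine hE _ X (th.2.1 0) D' N1
      (fun P => ind (P ∈ Y ∧ z ∈ (lb (M + th.2.1 * P)).2)) hok.2.1
      (fun N => ⟨ind_nonneg _, ind_le_one _⟩) fun Q D'' hQ ha _ hD'' N2 _ => ?_
    by_contra hc
    rw [not_le] at hc
    obtain ⟨N3, hN3, hP⟩ := exists_of_expect_ind_pos (hh'.trans hc)
    refine ((hY _).1 hP.1).2.2 (next_level lb th hok M z hz Q hQ ha D'' (by omega) _ ?_)
    refine hc.le.trans ?_
    rw [← expect_box_shift hN3]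
    refine expect_le_expect fun N _ => ind_mono fun hq => ?_
    rw [add_assoc (N1 + N2)]
    exact ⟨((hY _).1 hq.1).2.1.1, insert_subset hq.2 ((hY _).1 hq.1).2.1.2⟩

theorem pigeon {c : ℕ} (hc : 0 < c) (f : Fin c → ℝ) (hf : 1 ≤ ∑ j, f j) : ∃ j, 1 / (c : ℝ) ≤ f j := by
  have h0 : (c : ℝ) ≠ 0 := by exact_mod_cast hc.ne'
  have : Nonempty (Fin c) := ⟨⟨0, hc⟩⟩
  obtain ⟨j, -, hj⟩ := exists_le_of_sum_le (f := fun _ : Fin c => 1 / (c : ℝ)) (g := f)
    univ_nonempty (by simpa [h0] using hf)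
  exact ⟨j, hj⟩

theorem base {W : Type} [Fintype W] [Nonempty W] (hc : 0 < c)
    (lab : W → Mat (Fin (l + 1)) X → Fin c × Finset (Bv (l + 1))) :
    ∃ th : Ty l c, ok 0 0 th ∧
      1 / (c : ℝ) ≤ 𝔼 w, 𝔼 M : Mat (Fin (l + 1)) X, ind (Good (lab w) 0 (1 / c) th M) := by
  have h1 : ∀ w, ∃ j0 : Fin c, 1 / (c : ℝ) ≤ 𝔼 N, ind ((lab w N).1 = j0) := fun w => by
    refine pigeon hc _ (le_of_eq ?_)
    rw [← expect_sum_comm]
    simp [ind_eq_ite]
  obtain ⟨j0, hj⟩ := pigeon hc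
    (fun j0 => 𝔼 w, ind (1 / (c : ℝ) ≤ 𝔼 N, ind ((lab w N).1 = j0))) (by
      rw [← expect_sum_comm]
      refine le_expect univ_nonempty fun w _ => ?_
      exact (ind_of (h1 w)).symm.le.trans (ind_exists_le _))
  refine ⟨⟨⟨l + 1, by omega⟩, 1, j0, ∅⟩, ⟨fun v v' hv => by simpa using hv, ?_, le_rfl, rfl⟩,
    hj.trans (expect_le_expect fun w _ => le_expect univ_nonempty fun M _ => ind_mono fun h => ?_)⟩
  · intro h0
    have h2 : (1 : Mat (Fin (l + 1)) (Fin (l + 1))) 0 0 = 0 := congrFun h0 0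
    simp at h2
  · refine ⟨⊥, by simp, 0, h.trans (le_of_eq ?_)⟩
    rw [box_bot_bot, ← Fou.expect_add_left _ M]
    refine expect_congr rfl fun N _ => ?_
    simp [colInd]

theorem sqrt_bound (t : ℕ) {x : ℝ} :
    2 * t * √(x ^ 4 / (16384 * ((t : ℝ) + 1) ^ 3) * t) ≤ (x / 4) ^ 2 / 4 := by
  have ht : (0 : ℝ) ≤ t := Nat.cast_nonneg t
  have h1 : √(x ^ 4 / (16384 * ((t : ℝ) + 1) ^ 3) * t) ≤ x ^ 2 / (128 * (t + 1)) := by
    refine Real.sqrt_le_iff.2 ⟨by positivity, ?_⟩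
    calc x ^ 4 / (16384 * ((t : ℝ) + 1) ^ 3) * t
        ≤ x ^ 4 / (16384 * ((t : ℝ) + 1) ^ 3) * (t + 1) := by gcongr; linarith
      _ = (x ^ 2 / (128 * (t + 1))) ^ 2 := by field_simp; norm_num
  calc 2 * t * √(x ^ 4 / (16384 * ((t : ℝ) + 1) ^ 3) * t)
      ≤ 2 * (t + 1) * (x ^ 2 / (128 * (t + 1))) := by gcongr; linarith
    _ = (x / 4) ^ 2 / 4 := by field_simp; ring

end Lv

open Lv in
theorem level_of (hE : ExpThm) (hS : SpecAtomThm) : LevelThm := by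
  classical
  intro c t hc
  have hE' : ∀ δ : ℝ, 0 < δ → ∃ (r : ℕ) (η : ℝ), 0 < η ∧ Ex δ r η := hE
  choose! R H hH hX using hE'
  have hc0 : (0 : ℝ) < c := by exact_mod_cast hc
  let dl : ℝ → ℝ := fun x => x ^ 4 / (16384 * ((t : ℝ) + 1) ^ 3)
  have hdl : ∀ x, 0 < x → 0 < dl x := fun x hx => by simp only [dl]; positivity
  let h : ℕ → ℝ := fun j => Nat.rec (1 / c) (fun _ x => H (dl x)) j
  have hh : ∀ j, 0 < h j := fun j => by
    induction j with
    | zero => exact one_div_pos.2 hc0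
    | succ j ih => exact hH _ (hdl _ ih)
  let rr : ℕ → ℕ := fun j => ∑ i ∈ range j, R (dl (h i))
  have hrr : ∀ j, rr (j + 1) = rr j + R (dl (h j)) := fun j => sum_range_succ _ j
  have hne : (range (t + 1)).Nonempty := nonempty_range_add_one
  set η0 : ℝ := (range (t + 1)).inf' hne fun j => h j / 4 with hη0
  have hη0p : 0 < η0 := (lt_inf'_iff _).2 fun j _ => div_pos (hh j) four_pos
  obtain ⟨n, hn⟩ := pow_unbounded_of_one_lt (8 * (t : ℝ) ^ 2 / η0 ^ 2) (one_lt_two (α := ℝ))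
  set l : ℕ := n + rr t with hl
  set Z : ℝ := 2 ^ ((l + 1) * rr t) with hZ
  have hZp : 0 < Z := by positivity
  set NT : ℝ := (Fintype.card (Ty l c) : ℝ) with hNT
  have : Nonempty (Ty l c) := ⟨⟨0, 0, ⟨0, hc⟩, ∅⟩⟩
  have hNTp : 0 < NT := by rw [hNT]; exact_mod_cast Fintype.card_pos
  let p : ℕ → ℝ := fun j => Nat.rec (1 / c) (fun i x => x * h i / (8 * NT * Z)) j
  have hp : ∀ j, 0 < p j := fun j => by
    induction j with
    | zero => exact one_div_pos.2 hc0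
    | succ j ih => exact div_pos (mul_pos ih (hh j)) (by positivity)
  refine ⟨l, rr t, η0, 2 * η0 / Z, (range (t + 1)).inf' hne fun j => p j / 2, hη0p, by positivity,
    (lt_inf'_iff _).2 fun j _ => half_pos (hp j), fun W X _ _ _ _ lab hlab => ?_⟩
  let P : ℕ → Prop := fun j => ∃ th : Ty l c, ok (rr j) j th ∧
    p j ≤ 𝔼 w, 𝔼 M : Mat (Fin (l + 1)) X, ind (Good (lab w) (rr j) (h j) th M)
  have P0 : P 0 := base hc lab
  have P1 : ¬ P (t + 1) := by
    rintro ⟨th, hok, hth⟩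
    obtain ⟨w, -, hw⟩ := exists_lt_of_lt_expect univ_nonempty ((hp (t + 1)).trans_le hth)
    obtain ⟨M, -, D, -, N1, hN⟩ := exists_of_expect_ind_pos hw
    obtain ⟨N, -, hN2⟩ := exists_of_expect_ind_pos ((hh (t + 1)).trans_le hN)
    have h1 := (card_le_card hN2.2).trans (hlab _ _)
    rw [hok.2.2.2] at h1
    omega
  obtain ⟨j, hj, ⟨th, hok, hth⟩, Pn⟩ : ∃ j, j ≤ t ∧ P j ∧ ¬ P (j + 1) := by
    by_contra hn
    have : ∀ j, j ≤ t + 1 → P j := fun j => by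
      induction j with
      | zero => exact fun _ => P0
      | succ j ih =>
        intro hj
        by_contra h2
        exact hn ⟨j, by omega, ih (by omega), h2⟩
    exact P1 (this _ le_rfl)
  have hjm : j ∈ range (t + 1) := mem_range.2 (by omega)
  have hrj : rr j ≤ rr t := sum_le_sum_of_subset (range_subset_range.2 hj)
  have hη : η0 ≤ h j / 4 := inf'_le _ hjm
  have hBad : 𝔼 w, 𝔼 M : Mat (Fin (l + 1)) X,
      ind (Bad (lab w) (rr (j + 1)) (h (j + 1)) (j + 1) M) ≤ NT * p (j + 1) := by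
    calc 𝔼 w, 𝔼 M : Mat (Fin (l + 1)) X, ind (Bad (lab w) (rr (j + 1)) (h (j + 1)) (j + 1) M)
        ≤ 𝔼 w, 𝔼 M : Mat (Fin (l + 1)) X, ∑ th' : Ty l c, ind (ok (rr (j + 1)) (j + 1) th' ∧
            Good (lab w) (rr (j + 1)) (h (j + 1)) th' M) :=
          expect_le_expect fun w _ => expect_le_expect fun M _ => ind_exists_le _
      _ = ∑ th' : Ty l c, 𝔼 w, 𝔼 M : Mat (Fin (l + 1)) X, ind (ok (rr (j + 1)) (j + 1) th' ∧
            Good (lab w) (rr (j + 1)) (h (j + 1)) th' M) := by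
          simp only [expect_sum_comm]
      _ ≤ ∑ _th' : Ty l c, p (j + 1) := by
          refine sum_le_sum fun th' _ => ?_
          by_cases ho : ok (rr (j + 1)) (j + 1) th'
          · simp only [ho, true_and]
            exact (not_le.1 fun h2 => Pn ⟨th', ho, h2⟩).le
          · simp only [ho, false_and, ind_false, expect_const univ_nonempty]
            exact (hp (j + 1)).le
      _ = NT * p (j + 1) := by simp [hNT]
  refine ⟨th.1, th.2.1, th.2.2.1, th.2.2.2, h j / 4, dl (h j), by have := th.1.2; omega, hok.1,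
    hok.2.1, hok.2.2.2.le.trans hj, hη, (hdl _ (hh j)).le, ?_, ?_⟩
  · have h1 := sqrt_bound t (x := h j)
    have h2 : (2 : ℝ) ^ n ≤ 2 ^ (th.1 : ℕ) :=
      pow_le_pow_right₀ one_le_two (by have := hok.2.2.1; omega)
    have h3 : 2 * (t : ℝ) ^ 2 / 2 ^ (th.1 : ℕ) ≤ η0 ^ 2 / 4 := by
      rw [div_lt_iff₀ (by positivity)] at hn
      rw [div_le_iff₀ (by positivity)]
      nlinarith [mul_le_mul_of_nonneg_right h2 (sq_nonneg η0)]
    have h4 : η0 ^ 2 ≤ (h j / 4) ^ 2 := pow_le_pow_left₀ hη0p.le hη 2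
    simp only [dl]
    linarith
  · refine (inf'_le _ hjm).trans ?_
    have hj0 := hh j
    have h1 : 𝔼 w, 𝔼 M : Mat (Fin (l + 1)) X, (ind (Good (lab w) (rr j) (h j) th M) -
        4 * Z / h j * 𝔼 N : Mat (Fin th.1) X,
          ind (Bad (lab w) (rr (j + 1)) (h (j + 1)) (j + 1) (M + th.2.1 * N))) =
        (𝔼 w, 𝔼 M : Mat (Fin (l + 1)) X, ind (Good (lab w) (rr j) (h j) th M)) -
        4 * Z / h j * 𝔼 w, 𝔼 M : Mat (Fin (l + 1)) X,
          ind (Bad (lab w) (rr (j + 1)) (h (j + 1)) (j + 1) M) := by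
      simp only [expect_sub_distrib, ← mul_expect]
      congr 2
      refine expect_congr rfl fun w _ => ?_
      rw [expect_comm]
      simp only [Fou.expect_add_right fun M : Mat (Fin (l + 1)) X =>
        ind (Bad (lab w) (rr (j + 1)) (h (j + 1)) (j + 1) M), expect_const univ_nonempty]
    have h2 : 4 * Z / h j * (NT * p (j + 1)) = p j / 2 := by
      change 4 * Z / h j * (NT * (p j * h j / (8 * NT * Z))) = p j / 2
      field_simp
      ring
    have h3 := mul_le_mul_of_nonneg_left hBad (by positivity : 0 ≤ 4 * Z / h j)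
    refine le_trans (by linarith) (h1.symm.le.trans ?_)
    refine expect_le_expect fun w _ => expect_le_expect fun M _ => ?_
    have h4 := expect_ind_nonneg univ fun N : Mat (Fin th.1) X =>
      Bad (lab w) (rr (j + 1)) (h (j + 1)) (j + 1) (M + th.2.1 * N)
    have h5 := mul_nonneg (by positivity : 0 ≤ 4 * Z / h j) h4
    by_cases hG : Good (lab w) (rr j) (h j) th M
    · by_cases hB : Z * 𝔼 N : Mat (Fin th.1) X,
          ind (Bad (lab w) (rr (j + 1)) (h (j + 1)) (j + 1) (M + th.2.1 * N)) ≤ h j / 4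
      · rw [hrr] at hB
        obtain ⟨D, hD1, hD2⟩ := claim hS (lab w) (η1 := 2 * η0 / Z) (hX _ (hdl _ hj0))
          (hh (j + 1)) th hok M hG
          (pow_le_pow_right₀ one_le_two (Nat.mul_le_mul_left _ hrj)) (by positivity)
          (by rw [mul_div_cancel₀ _ hZp.ne']; linarith) hB
        rw [ind_of hG, ind_of ⟨D, hD1.trans hrj, hD2⟩]
        linarith
      · refine le_trans ?_ (ind_nonneg _)
        rw [ind_of hG, sub_nonpos, div_mul_eq_mul_div, le_div_iff₀ hj0]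
        linarith
    · rw [ind_of_not hG]
      exact le_trans (by linarith) (ind_nonneg _)

end Vale.Agent.P342
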