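import Vale.Agent.P342.Lin

/-! Hypercontractivity for global functions. -/

set_option linter.unusedSectionVars false

namespace Vale.Agent.P342

open Vale.Agent.P325 Vale.Agent.Lib.PolyTime Finset Matrix Module
open scoped BigOperators

namespace LD

variable {J X : Type} [Fintype J] [DecidableEq J] [Fintype X] [DecidableEq X]

/-- Average over translations by rank one matrices whose column is odd for `q`. -/
noncomputable def avC (q : J → F2) (f : Mat J X → ℝ) (N : Mat J X) : ℝ :=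
  𝔼 a ∈ odd q, 𝔼 y : X → F2, f (N + vecMulVec a y)

/-- The filter that removes the matrices of rank `d` whose column space misses `q`. -/
noncomputable def dC (d : ℕ) (q : J → F2) (f : Mat J X → ℝ) (N : Mat J X) : ℝ :=
  f N - 2 ^ d * avC q f N

/-- The loss of one filter. -/
def kk (d : ℕ) : ℝ := 2 + 2 * (2 ^ d) ^ 2

/-- Transposed function. -/
def tr (f : Mat J X → ℝ) (N : Mat X J) : ℝ := f Nᵀ

/-- Coefficients of rank `d`. -/
noncomputable def cf (d : ℕ) (f : Mat J X → ℝ) (S : Mat J X) : ℝ :=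
  if S.rank = d then coefM f S else 0

/-- The statement for one level. -/
def Lev (d : ℕ) (C : ℝ) : Prop :=
  ∀ (J X : Type) [Fintype J] [DecidableEq J] [Fintype X] [DecidableEq X]
    (f : Mat J X → ℝ) (e : ℝ), Glob d e f → 𝔼 N, part d f N ^ 4 ≤ C * e * 𝔼 N, part d f N ^ 2

theorem one_le_kk (d : ℕ) : 1 ≤ kk d := by
  have : (0 : ℝ) ≤ (2 ^ d) ^ 2 := by positivity
  unfold kk
  linarith

theorem coefM_avC {q : J → F2} (hq : q ≠ 0) (f : Mat J X → ℝ) (S : Mat J X) :
    coefM (avC q f) S = coefM f S * (ind (q ∉ colSp S) * (1 / 2) ^ S.rank) := by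
  unfold avC
  rw [coefM_expect, ← mult_col hq, mul_expect]
  refine expect_congr rfl fun a _ => ?_
  rw [coefM_expect, mul_expect]
  exact expect_congr rfl fun y _ => coefM_shift _ _ _

theorem coefM_dC {q : J → F2} (hq : q ≠ 0) (d : ℕ) (f : Mat J X → ℝ) (S : Mat J X) :
    coefM (dC d q f) S = coefM f S * (1 - 2 ^ d * (ind (q ∉ colSp S) * (1 / 2) ^ S.rank)) := by
  unfold dC
  rw [coefM_sub, coefM_smul, coefM_avC hq]
  ring

theorem glob_sq {d : ℕ} {e : ℝ} {f : Mat J X → ℝ} (h : Glob d e f) : 𝔼 N, f N ^ 2 ≤ e := by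
  simpa using h ⊥ ⊥ (by simp) (by simp) 0

theorem glob_nonneg {d : ℕ} {e : ℝ} {f : Mat J X → ℝ} (h : Glob d e f) : 0 ≤ e :=
  (expect_nonneg fun _ _ => sq_nonneg _).trans (glob_sq h)

theorem glob_avC {d : ℕ} {e : ℝ} {f : Mat J X → ℝ} (h : Glob d e f) {q : J → F2} (hq : q ≠ 0) :
    Glob d e (avC q f) := by
  intro Q D hQ hD N0
  calc 𝔼 N ∈ box Q D, avC q f (N0 + N) ^ 2
      ≤ 𝔼 N ∈ box Q D, 𝔼 a ∈ odd q, 𝔼 y : X → F2, f (N0 + vecMulVec a y + N) ^ 2 := by
        refine expect_le_expect fun N _ => (sq_expect_le _ _).trans ?_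
        refine expect_le_expect fun a _ => (sq_expect_le _ _).trans (le_of_eq ?_)
        exact expect_congr rfl fun y _ => by rw [add_right_comm]
    _ = 𝔼 a ∈ odd q, 𝔼 y : X → F2, 𝔼 N ∈ box Q D, f (N0 + vecMulVec a y + N) ^ 2 := by
        rw [expect_comm]
        exact expect_congr rfl fun a _ => expect_comm _ _ _
    _ ≤ e := expect_le (odd_nonempty hq) fun a _ =>
        expect_le univ_nonempty fun y _ => h Q D hQ hD _

theorem glob_dC {d : ℕ} {e : ℝ} {f : Mat J X → ℝ} (h : Glob d e f) {q : J → F2} (hq : q ≠ 0)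
    (r : ℕ) : Glob d (kk r * e) (dC r q f) := by
  intro Q D hQ hD N0
  have h1 := h Q D hQ hD N0
  have h2 := glob_avC h hq Q D hQ hD N0
  calc 𝔼 N ∈ box Q D, dC r q f (N0 + N) ^ 2
      ≤ 𝔼 N ∈ box Q D, (2 * f (N0 + N) ^ 2 + 2 * (2 ^ r) ^ 2 * avC q f (N0 + N) ^ 2) := by
        refine expect_le_expect fun N _ => ?_
        unfold dC
        nlinarith [sq_nonneg (f (N0 + N) + 2 ^ r * avC q f (N0 + N))]
    _ = 2 * 𝔼 N ∈ box Q D, f (N0 + N) ^ 2 +
          2 * (2 ^ r) ^ 2 * 𝔼 N ∈ box Q D, avC q f (N0 + N) ^ 2 := by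
        rw [expect_add_distrib, mul_expect, mul_expect]
    _ ≤ 2 * e + 2 * (2 ^ r) ^ 2 * e := by gcongr
    _ = kk r * e := by unfold kk; ring

theorem expect_tr (f : Mat J X → ℝ) : 𝔼 N : Mat X J, f Nᵀ = 𝔼 N, f N :=
  expect_nbij' transpose transpose (fun _ _ => mem_univ _) (fun _ _ => mem_univ _)
    (fun _ _ => rfl) (fun _ _ => rfl) fun _ _ => rfl

theorem glob_tr {d : ℕ} {e : ℝ} {f : Mat J X → ℝ} (h : Glob d e f) : Glob d e (tr f) := by
  intro Q D hQ hD N0
  refine le_of_eq_of_le ?_ (h D Q hD hQ N0ᵀ)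
  exact expect_nbij' transpose transpose (fun _ hN => transpose_mem_box.2 hN)
    (fun _ hN => transpose_mem_box.2 hN) (fun _ _ => rfl) (fun _ _ => rfl) fun _ _ => rfl

theorem coefM_tr (f : Mat J X → ℝ) (S : Mat X J) : coefM (tr f) S = coefM f Sᵀ := by
  unfold coefM
  rw [← expect_tr]
  exact expect_congr rfl fun N _ => by rw [← pair_transpose S]; rfl

theorem part_tr (d : ℕ) (f : Mat J X → ℝ) (N : Mat X J) : part d (tr f) N = part d f Nᵀ := by
  unfold part synth
  refine sum_nbij' transpose transpose (fun _ _ => mem_univ _) (fun _ _ => mem_univ _)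
    (fun _ _ => rfl) (fun _ _ => rfl) fun S _ => ?_
  simp only [coefM_tr, rank_transpose, pair_transpose]

/-- Filtering by columns. -/
theorem exists_col {d : ℕ} {e : ℝ} {f : Mat J X → ℝ} (h : Glob d e f) (A : Finset (J → F2))
    (hA : 0 ∉ A) : ∃ g : Mat J X → ℝ, Glob d (kk d ^ A.card * e) g ∧
      ∀ S : Mat J X, S.rank = d → coefM g S = ind (∀ q ∈ A, q ∈ colSp S) * coefM f S := by
  induction A using Finset.induction_on with
  | empty => exact ⟨f, by simpa using h, fun S _ => by simp⟩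
  | insert q A hq ih =>
    obtain ⟨g, h1, h2⟩ := ih fun h0 => hA (mem_insert_of_mem h0)
    have hq0 : q ≠ 0 := fun h0 => hA (h0 ▸ mem_insert_self q A)
    refine ⟨dC d q g, ?_, fun S hS => ?_⟩
    · rw [card_insert_of_notMem hq, pow_succ', mul_assoc]
      exact glob_dC h1 hq0 d
    · rw [coefM_dC hq0, h2 S hS, hS, ind_congr (forall_mem_insert q A _), ind_and, ind_not]
      have : (2 : ℝ) ^ d * (1 / 2) ^ d = 1 := by rw [← mul_pow]; simp
      linear_combination (-(ind (∀ q ∈ A, q ∈ colSp S) * coefM f S) * (1 - ind (q ∈ colSp S))) * this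

/-- Filtering by columns and rows. -/
theorem exists_filt {d : ℕ} {e : ℝ} {f : Mat J X → ℝ} (h : Glob d e f) (A : Finset (J → F2))
    (B : Finset (X → F2)) (hA : 0 ∉ A) (hB : 0 ∉ B) :
    ∃ g : Mat J X → ℝ, Glob d (kk d ^ (A.card + B.card) * e) g ∧
      cf d g = filt A B (cf d f) := by
  obtain ⟨g, h1, h2⟩ := exists_col h A hA
  obtain ⟨g', h3, h4⟩ := exists_col (glob_tr h1) B hB
  refine ⟨tr g', ?_, funext fun S => ?_⟩
  · rw [add_comm, pow_add, mul_assoc]
    exact glob_tr h3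
  · simp only [cf, filt]
    split_ifs with hS
    · rw [coefM_tr, h4 Sᵀ (by rw [rank_transpose, hS]), coefM_tr, transpose_transpose, h2 S hS,
        ind_and, colSp_transpose]
      ring
    · rw [mul_zero]

theorem synth_restrict {m : ℕ} (F : Mat J (Fin m)) (c : Mat J X → ℝ) (w : Mat (Fin m) X → ℝ)
    (N0 : Mat J X) (N : Mat (Fin m) X) :
    synth (fun S' => w S' * ∑ S, if Fᵀ * S = S' then c S * sg (pair S N0) else 0) N =
      synth (fun S => w (Fᵀ * S) * c S) (N0 + F * N) := by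
  unfold synth
  simp only [mul_sum, sum_mul]
  rw [sum_comm]
  refine sum_congr rfl fun S _ => ?_
  rw [sum_eq_single (Fᵀ * S) (fun S' _ hS => by rw [if_neg hS.symm]; ring) (by simp), if_pos rfl,
    pair_add_right, pair_mul_left, Fou.sg_add]
  ring

theorem part_restrict {m : ℕ} (F : Mat J (Fin m)) (g : Mat J X → ℝ) (d : ℕ)
    (N0 : Mat J X) (N : Mat (Fin m) X) :
    part d (fun M => g (N0 + F * M)) N =
      synth (fun S => (if (Fᵀ * S).rank = d then 1 else 0) * coefM g S) (N0 + F * N) := by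
  have h1 : (fun M => g (N0 + F * M)) =
      synth fun S' => 1 * ∑ S, if Fᵀ * S = S' then coefM g S * sg (pair S N0) else 0 := by
    funext M
    rw [synth_restrict F (coefM g) (fun _ => 1)]
    simp only [one_mul]
    rw [synth_coefM]
  rw [← synth_restrict F (coefM g) fun S' => if S'.rank = d then 1 else 0]
  unfold part
  rw [h1, coefM_synth]
  congr 1
  funext S'
  split_ifs <;> simp

theorem expect_restrict {m : ℕ} (F : Mat J (Fin m)) (φ : Mat J X → ℝ) :
    𝔼 N0, 𝔼 N : Mat (Fin m) X, φ (N0 + F * N) = 𝔼 N, φ N := by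
  rw [expect_comm]
  simp only [Fou.expect_add_right]
  exact expect_const univ_nonempty _

/-- Restriction to the hyperplane orthogonal to `q`. -/
theorem col_step {d : ℕ} {C e : ℝ} (hL : Lev d C) {f : Mat J X → ℝ} (h : Glob (d + 1) e f)
    {q : J → F2} (hq : q ≠ 0) (h0 : ∀ S : Mat J X, q ∉ colSp S → cf (d + 1) f S = 0) :
    𝔼 N, part (d + 1) f N ^ 4 ≤ C * (kk d * e) * 𝔼 N, part (d + 1) f N ^ 2 := by
  obtain ⟨m, F, G, hG, hF, -⟩ := exists_emb (Submodule.span F2 {q})
  have hg := glob_dC h hq d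
  have h1 : ∀ N0, Glob d (kk d * e) fun M : Mat (Fin m) X => dC d q f (N0 + F * M) := by
    intro N0 Q D hQ hD N1
    have h2 := expect_box_emb F G hG hF Q D fun M => dC d q f (N0 + F * N1 + M) ^ 2
    simp only [Matrix.mul_add, ← add_assoc]
    rw [h2]
    refine hg _ D ?_ (hD.trans (Nat.le_succ d)) _
    have h3 := Submodule.finrank_add_le_finrank_add_finrank (Submodule.span F2 {q})
      (Q.map G.mulVecLin)
    have h4 := Submodule.finrank_map_le G.mulVecLin Q
    rw [finrank_span_singleton hq] at h3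
    omega
  have key : ∀ (N0 : Mat J X) (N : Mat (Fin m) X),
      part (d + 1) f (N0 + F * N) = part d (fun M => dC d q f (N0 + F * M)) N := by
    intro N0 N
    rw [part_restrict]
    unfold part
    congr 1
    funext S
    obtain ⟨r1, r2⟩ := rank_restrict hq F hF S
    rw [coefM_dC hq]
    by_cases hS : q ∈ colSp S
    · rw [ind_of_not (not_not.2 hS), ← r1 hS]
      simp
    · have h5 := h0 S hS
      unfold cf at h5
      rw [h5, r2 hS, ind_of hS]
      split_ifs with h6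
      · have : (2 : ℝ) ^ d * (1 / 2) ^ d = 1 := by rw [← mul_pow]; simp
        rw [h6, one_mul, one_mul, this, sub_self, mul_zero]
      · rw [zero_mul]
  rw [← expect_restrict F fun N => part (d + 1) f N ^ 4,
    ← expect_restrict F fun N => part (d + 1) f N ^ 2, mul_expect]
  simp only [key]
  exact expect_le_expect fun N0 _ => hL _ _ _ _ (h1 N0)

theorem row_step {d : ℕ} {C e : ℝ} (hL : Lev d C) {f : Mat J X → ℝ} (h : Glob (d + 1) e f)
    {w : X → F2} (hw : w ≠ 0) (h0 : ∀ S : Mat J X, w ∉ rowSp S → cf (d + 1) f S = 0) :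
    𝔼 N, part (d + 1) f N ^ 4 ≤ C * (kk d * e) * 𝔼 N, part (d + 1) f N ^ 2 := by
  have h1 := col_step hL (glob_tr h) hw fun S hS => by
    have := h0 Sᵀ hS
    unfold cf at this ⊢
    rwa [rank_transpose, ← coefM_tr] at this
  simp only [part_tr] at h1
  rwa [expect_tr fun N => part (d + 1) f N ^ 4, expect_tr fun N => part (d + 1) f N ^ 2] at h1

open Classical in
theorem card_filter_sub (V : Sub J) : (univ.filter fun q => q ∈ V).card = Nat.card V :=
  (Nat.subtype_card _ fun _ => by simp).symm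

theorem card_succ_le {V : Sub J} {A : Finset (J → F2)} (h : ∀ q ∈ A, q ∈ V) (h0 : 0 ∉ A) :
    A.card + 1 ≤ Nat.card V := by
  rw [← card_filter_sub, ← card_insert_of_notMem h0]
  refine card_le_card fun q hq => ?_
  rcases mem_insert.1 hq with rfl | hq
  · simp
  · simpa using h q hq

theorem sum_ind_sub (V : Sub J) :
    ∑ A : Finset (J → F2), ind (∀ q ∈ A, q ∈ V) = 2 ^ Nat.card V := by
  classical
  have h : (univ.filter fun A : Finset (J → F2) => ∀ q ∈ A, q ∈ V)
      = (univ.filter fun q => q ∈ V).powerset := by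
    ext A
    simp [subset_iff]
  rw [sum_ind_eq_card, ← card_filter_sub, h, card_powerset]
  simp

theorem sum_filt_sq (d : ℕ) (f : Mat J X → ℝ) :
    ∑ p : Finset (J → F2) × Finset (X → F2), ∑ S, filt p.1 p.2 (cf d f) S ^ 2 =
      (2 ^ 2 ^ d * 2 ^ 2 ^ d) * ∑ S, cf d f S ^ 2 := by
  rw [sum_comm, mul_sum]
  refine sum_congr rfl fun S _ => ?_
  simp only [filt, mul_pow, ind_sq, ← sum_mul, ind_and]
  rw [Fintype.sum_prod_type]
  simp only [← sum_mul_sum]
  rw [sum_ind_sub, sum_ind_sub, card_colSp, card_rowSp]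
  unfold cf
  split_ifs with h
  · rw [h]
  · simp

/-- One level from the bound for the filtered sums. -/
theorem lev_of (h : CleanThm) (d : ℕ) (C' : ℝ) (hC' : 0 ≤ C')
    (H : ∀ (J X : Type) [Fintype J] [DecidableEq J] [Fintype X] [DecidableEq X]
      (f : Mat J X → ℝ) (e : ℝ), Glob d e f → ∀ (A : Finset (J → F2)) (B : Finset (X → F2)),
      (A, B) ≠ (∅, ∅) → 0 ∉ A → 0 ∉ B → A.card + 1 ≤ 2 ^ d → B.card + 1 ≤ 2 ^ d →
      𝔼 N, synth (filt A B (cf d f)) N ^ 4 ≤ C' * e * ∑ S, filt A B (cf d f) S ^ 2) :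
    ∃ C, 0 ≤ C ∧ Lev d C := by
  obtain ⟨C, hC, hc⟩ := h d
  refine ⟨C + C * C' * (2 ^ 2 ^ d * 2 ^ 2 ^ d), by positivity, fun J X _ _ _ _ f e hf => ?_⟩
  have he := glob_nonneg hf
  have h1 := hc J X (cf d f) fun S hS => if_neg hS.ne'
  have h2 : 𝔼 N, part d f N ^ 2 = ∑ S, cf d f S ^ 2 := expect_synth_sq _
  have h3 : ∑ S, cf d f S ^ 2 ≤ e := by
    refine le_trans ?_ (glob_sq hf)
    rw [parsevalM]
    refine sum_le_sum fun S _ => ?_
    unfold cf
    split_ifs
    · exact le_rfl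
    · simpa using sq_nonneg _
  have h4 : ∀ p : Finset (J → F2) × Finset (X → F2),
      ind (p ≠ (∅, ∅) ∧ 0 ∉ p.1 ∧ 0 ∉ p.2) * 𝔼 N, synth (filt p.1 p.2 (cf d f)) N ^ 4 ≤
        C' * e * ∑ S, filt p.1 p.2 (cf d f) S ^ 2 := by
    intro p
    have hn : 0 ≤ C' * e * ∑ S, filt p.1 p.2 (cf d f) S ^ 2 := by positivity
    by_cases hp : p ≠ (∅, ∅) ∧ 0 ∉ p.1 ∧ 0 ∉ p.2
    · rw [ind_of hp, one_mul]
      by_cases hz : ∀ S, filt p.1 p.2 (cf d f) S = 0
      · simp [synth, hz]
      · push Not at hz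
        obtain ⟨S, hS⟩ := hz
        have h5 := ind_pos ((ind_nonneg _).lt_of_ne' (left_ne_zero_of_mul hS))
        have h6 : S.rank = d := by
          by_contra h7
          exact right_ne_zero_of_mul hS (if_neg h7)
        refine H J X f e hf p.1 p.2 hp.1 hp.2.1 hp.2.2 ?_ ?_
        · rw [← h6, ← card_colSp]
          exact card_succ_le h5.1 hp.2.1
        · rw [← h6, ← card_rowSp]
          exact card_succ_le h5.2 hp.2.2
    · rw [ind_of_not hp, zero_mul]
      exact hn
  have h5 := sum_le_sum fun p (_ : p ∈ univ) => h4 p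
  rw [← mul_sum, sum_filt_sq] at h5
  have h6 : 0 ≤ ∑ S, cf d f S ^ 2 := by positivity
  rw [h2]
  refine h1.trans ?_
  have h7 := mul_le_mul_of_nonneg_left h5 hC
  have h8 := mul_le_mul_of_nonneg_left (mul_le_mul_of_nonneg_right h3 h6) hC
  nlinarith

end LD

open LD in
theorem levelD_of (h : CleanThm) : LevelDThm := by
  intro d
  induction d with
  | zero =>
    refine lev_of h 0 0 le_rfl fun J X _ _ _ _ f e _ A B hp _ _ hA hB => (hp ?_).elim
    rw [card_eq_zero.1 (by omega : A.card = 0), card_eq_zero.1 (by omega : B.card = 0)]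
  | succ d ih =>
    obtain ⟨C, hC, hL⟩ := ih
    have k0 := one_le_kk d
    have k1 := one_le_kk (d + 1)
    refine lev_of h (d + 1) (C * kk d * kk (d + 1) ^ (2 ^ (d + 1) + 2 ^ (d + 1))) (by positivity)
      fun J X _ _ _ _ f e hf A B hp hA hB cA cB => ?_
    obtain ⟨g, h1, h2⟩ := exists_filt hf A B hA hB
    have he := glob_nonneg hf
    have h3 : 𝔼 N, part (d + 1) g N ^ 4 ≤
        C * (kk d * (kk (d + 1) ^ (A.card + B.card) * e)) * 𝔼 N, part (d + 1) g N ^ 2 := by
      rcases A.eq_empty_or_nonempty with rfl | ⟨q, hq⟩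
      · rcases B.eq_empty_or_nonempty with rfl | ⟨w, hw⟩
        · exact (hp rfl).elim
        · refine row_step hL h1 (fun h0 => hB (h0 ▸ hw)) fun S hS => ?_
          rw [h2, filt, ind_of_not fun h5 => hS (h5.2 w hw), zero_mul]
      · refine col_step hL h1 (fun h0 => hA (h0 ▸ hq)) fun S hS => ?_
        rw [h2, filt, ind_of_not fun h5 => hS (h5.1 q hq), zero_mul]
    have h4 : part (d + 1) g = synth (filt A B (cf (d + 1) f)) := by rw [← h2]; rfl
    rw [h4, expect_synth_sq] at h3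
    refine h3.trans (mul_le_mul_of_nonneg_right ?_ (by positivity))
    have h5 : kk (d + 1) ^ (A.card + B.card) ≤ kk (d + 1) ^ (2 ^ (d + 1) + 2 ^ (d + 1)) :=
      pow_le_pow_right₀ k1 (by omega)
    calc _ = C * kk d * kk (d + 1) ^ (A.card + B.card) * e := by ring
      _ ≤ _ := by gcongr

end Vale.Agent.P342
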