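import Vale.Agent.P342.Basic

/-! Linear algebra: multipliers of line averages and ranks of restrictions. -/

set_option linter.unusedSectionVars false

namespace Vale.Agent.P342

open Vale.Agent.P325 Vale.Agent.Lib.PolyTime Finset Matrix Module
open scoped BigOperators

section
variable {J X : Type} [Fintype J] [DecidableEq J] [Fintype X] [DecidableEq X]

theorem finrank_colSp (S : Mat J X) : finrank F2 (colSp S) = S.rank := rfl

theorem finrank_rowSp (S : Mat J X) : finrank F2 (rowSp S) = S.rank := S.rank_transpose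

theorem mem_colSp {S : Mat J X} {q : J → F2} : q ∈ colSp S ↔ ∃ v, S *ᵥ v = q := Iff.rfl

theorem mem_rowSp {S : Mat J X} {w : X → F2} : w ∈ rowSp S ↔ ∃ a, a ᵥ* S = w := by
  simp [rowSp]

theorem mem_ann_colSp {S : Mat J X} {a : J → F2} : a ∈ ann (colSp S) ↔ a ᵥ* S = 0 := by
  rw [mem_ann]
  constructor
  · intro h
    funext x
    have := h _ ⟨Pi.single x 1, rfl⟩
    rw [mulVecLin_apply, dotProduct_mulVec, dotProduct_single, mul_one] at this
    exact this
  · rintro h _ ⟨v, rfl⟩
    rw [mulVecLin_apply, dotProduct_mulVec, h, zero_dotProduct]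

theorem mem_ann_rowSp {S : Mat J X} {v : X → F2} : v ∈ ann (rowSp S) ↔ S *ᵥ v = 0 := by
  rw [← vecMul_transpose]
  exact mem_ann_colSp (S := Sᵀ)

/-- Double annihilator. -/
theorem mem_of_ann {D : Sub X} {q : X → F2} (h : ∀ a ∈ ann D, a ⬝ᵥ q = 0) : q ∈ D := by
  by_contra hq
  obtain ⟨a, ha, h1⟩ := exists_dot_of_notMem hq
  rw [h a ha] at h1
  exact zero_ne_one h1

/-- The same multiplier as a probability. -/
theorem mult_col' {q : J → F2} (hq : q ≠ 0) (S : Mat J X) :
    𝔼 a ∈ odd q, ind (a ᵥ* S = 0) = ind (q ∉ colSp S) * (1 / 2) ^ S.rank := by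
  by_cases h : q ∈ colSp S
  · rw [ind_of_not (not_not.2 h), zero_mul]
    refine expect_eq_zero fun a ha => ind_of_not fun h0 => ?_
    have h1 := mem_ann.1 (mem_ann_colSp.2 h0) q h
    rw [dotProduct_comm, mem_odd.1 ha] at h1
    exact one_ne_zero h1
  · obtain ⟨a0, ha0, h1⟩ := exists_dot_of_notMem h
    rw [dotProduct_comm] at h1
    have h2 := two_mul_card_filter (s := ann (colSp S)) h1
      (fun v hv => add_mem_ann _ hv _ ha0) 1
    have h3 := card_ann (colSp S)
    have h4 := two_mul_card_odd hq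
    have h5 : (odd q).filter (fun a => a ᵥ* S = 0)
        = (ann (colSp S)).filter fun v => q ⬝ᵥ v = 1 := by
      ext a
      simp only [mem_filter, mem_odd, mem_ann_colSp]
      exact and_comm
    have h6 : (0 : ℝ) < (odd q).card := by exact_mod_cast (odd_nonempty hq).card_pos
    rw [ind_of h, one_mul, expect_eq_sum_div_card, sum_ind_eq_card, h5, div_eq_iff h6.ne']
    rw [finrank_colSp, ← h2, ← h4] at h3
    have h7 : (((ann (colSp S)).filter fun v => q ⬝ᵥ v = 1).card : ℝ) * 2 ^ S.rank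
        = (odd q).card := by
      have : ((ann (colSp S)).filter fun v => q ⬝ᵥ v = 1).card * 2 ^ S.rank = (odd q).card := by
        nlinarith
      exact_mod_cast this
    rw [← h7, one_div, inv_pow]
    field_simp

/-- The multiplier of the average over translations by rank one matrices. -/
theorem mult_col {q : J → F2} (hq : q ≠ 0) (S : Mat J X) :
    𝔼 a ∈ odd q, 𝔼 y : X → F2, sg (pair S (vecMulVec a y)) =
      ind (q ∉ colSp S) * (1 / 2) ^ S.rank := by
  rw [← mult_col' hq]
  refine expect_congr rfl fun a _ => ?_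
  simp only [pair_vecMulVec, Fou.expect_sg_dot]
  exact (ind_eq_ite _).symm

/-- Restriction to the hyperplane orthogonal to `q` lowers the rank exactly when `q` lies in the
column space. -/
theorem rank_restrict {q : J → F2} (hq : q ≠ 0) {m : ℕ} (F : Mat J (Fin m))
    (hF : ∀ y, y ∈ ann (Submodule.span F2 {q}) ↔ ∃ v, F *ᵥ v = y) (S : Mat J X) :
    (q ∈ colSp S → (Fᵀ * S).rank + 1 = S.rank) ∧ (q ∉ colSp S → (Fᵀ * S).rank = S.rank) := by
  have hk : LinearMap.ker Fᵀ.mulVecLin = Submodule.span F2 {q} := by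
    ext s
    rw [LinearMap.mem_ker, mulVecLin_apply, mulVec_transpose]
    constructor
    · intro h
      refine mem_of_ann fun a ha => ?_
      obtain ⟨v, rfl⟩ := (hF a).1 ha
      rw [dotProduct_comm, dotProduct_mulVec, h, zero_dotProduct]
    · intro h
      funext x
      have := mem_ann.1 ((hF _).2 ⟨Pi.single x 1, rfl⟩) s h
      rw [dotProduct_comm, dotProduct_mulVec, dotProduct_single, mul_one] at this
      exact this
  have h1 := (Fᵀ.mulVecLin.domRestrict (colSp S)).finrank_range_add_finrank_ker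
  have h2 : LinearMap.range (Fᵀ.mulVecLin.domRestrict (colSp S)) = colSp (Fᵀ * S) := by
    rw [LinearMap.range_domRestrict, colSp, colSp, mulVecLin_mul, LinearMap.range_comp]
  rw [h2, finrank_colSp, finrank_colSp, LinearMap.ker_domRestrict, hk,
    ← Submodule.finrank_map_subtype_eq, Submodule.map_comap_subtype] at h1
  constructor
  · intro h
    rw [inf_eq_right.2 ((Submodule.span_singleton_le_iff_mem _ _).2 h),
      finrank_span_singleton hq] at h1
    exact h1
  · intro h
    rw [disjoint_iff.1 ((Submodule.disjoint_span_singleton' hq).2 h), finrank_bot] at h1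
    exact h1

/-- Boxes of a restricted space are boxes of the full space. -/
theorem expect_box_emb {Q0 : Sub J} {m : ℕ} (F G : Mat J (Fin m)) (hG : Gᵀ * F = 1)
    (hF : ∀ y, y ∈ ann Q0 ↔ ∃ v, F *ᵥ v = y) (Q : Sub (Fin m)) (D : Sub X) (f : Mat J X → ℝ) :
    𝔼 N ∈ box Q D, f (F * N) = 𝔼 N ∈ box (Q0 ⊔ Q.map G.mulVecLin) D, f N := by
  have h0 : ∀ q ∈ Q0, q ᵥ* F = 0 := fun q hq => by
    funext x
    have := mem_ann.1 ((hF _).2 ⟨Pi.single x 1, rfl⟩) q hq
    rw [dotProduct_comm, dotProduct_mulVec, dotProduct_single, mul_one] at this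
    exact this
  have h1 : ∀ q : Fin m → F2, (G *ᵥ q) ᵥ* F = q := fun q => by
    rw [← vecMul_transpose, vecMul_vecMul, hG, vecMul_one]
  refine expect_nbij' (fun N => F * N) (fun N => Gᵀ * N) (fun N hN => ?_) (fun N hN => ?_)
    (fun N _ => by rw [← Matrix.mul_assoc, hG, Matrix.one_mul]) (fun N hN => ?_) fun _ _ => rfl
  · rw [mem_box] at hN ⊢
    refine ⟨fun q hq => ?_, fun d hd => by rw [← mulVec_mulVec, hN.2 d hd, mulVec_zero]⟩
    obtain ⟨q0, hq0, _, ⟨q1, hq1, rfl⟩, rfl⟩ := Submodule.mem_sup.1 hq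
    rw [← vecMul_vecMul, add_vecMul, h0 q0 hq0, mulVecLin_apply, h1, zero_add, hN.1 q1 hq1]
  · rw [mem_box] at hN ⊢
    refine ⟨fun q hq => ?_, fun d hd => by rw [← mulVec_mulVec, hN.2 d hd, mulVec_zero]⟩
    rw [← vecMul_vecMul, vecMul_transpose]
    exact hN.1 _ (Submodule.mem_sup_right ⟨q, hq, rfl⟩)
  · ext j x
    have h2 : (fun j => N j x) ∈ ann Q0 := mem_ann.2 fun q hq => by
      rw [dotProduct_comm]
      exact congrFun ((mem_box.1 hN).1 q (Submodule.mem_sup_left hq)) x
    obtain ⟨v, hv⟩ := (hF _).1 h2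
    have h3 : F *ᵥ (Gᵀ *ᵥ fun j => N j x) = fun j => N j x := by
      rw [← hv, mulVec_mulVec v, hG, one_mulVec]
    exact congrFun h3 j

theorem expect_box_transpose (Q : Sub J) (D : Sub X) (f : Mat X J → ℝ) :
    𝔼 N ∈ box Q D, f Nᵀ = 𝔼 N ∈ box D Q, f N :=
  expect_nbij' transpose transpose (fun _ h => transpose_mem_box.2 h)
    (fun _ h => transpose_mem_box.2 h) (fun _ _ => rfl) (fun _ _ => rfl) fun _ _ => rfl

/-- The same on the other side. -/
theorem expect_box_emb' {D0 : Sub X} {m : ℕ} (F G : Mat X (Fin m)) (hG : Gᵀ * F = 1)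
    (hF : ∀ y, y ∈ ann D0 ↔ ∃ v, F *ᵥ v = y) (Q : Sub J) (D : Sub (Fin m)) (f : Mat J X → ℝ) :
    𝔼 N ∈ box Q D, f (N * Fᵀ) = 𝔼 N ∈ box Q (D0 ⊔ D.map G.mulVecLin), f N := by
  rw [← expect_box_transpose D Q fun N => f (N * Fᵀ), ← expect_box_transpose _ Q f,
    ← expect_box_emb F G hG hF D Q fun N => f Nᵀ]
  simp only [transpose_mul]

theorem card_colSp (S : Mat J X) : Nat.card (colSp S) = 2 ^ S.rank := card_sub _

theorem card_rowSp (S : Mat J X) : Nat.card (rowSp S) = 2 ^ S.rank := by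
  rw [card_sub, finrank_rowSp]

theorem colSp_transpose (S : Mat J X) : colSp Sᵀ = rowSp S := rfl

theorem rowSp_transpose (S : Mat J X) : rowSp Sᵀ = colSp S := rfl

end

end Vale.Agent.P342
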