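import Vale.Agent.P342.Basic
import Vale.Agent.P325.Final

/-! Assembly. -/

namespace Vale.Agent.P342

open Vale.Agent.P325 Vale.Agent.Lib.PolyTime Finset Matrix Module
open scoped BigOperators

theorem gap_of (hS : SmoothThm) (hC : CoreThm) (hP : GraphPTThm) (hG : GraphCompThm)
    (hD : GraphSoundThm) : GapThm 16 := by
  intro c
  obtain ⟨t, ht⟩ := hD c
  obtain ⟨l, ζ, ε, hζ, hε, hc⟩ := hC c t
  obtain ⟨Ξ, A, B, _, _, _, _, _, _, _, _, f, al, pr, hf, hal, hpr, hran, hsm, hφ⟩ := hS ζ ε hζ hε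
  obtain ⟨k, hk⟩ := hc Ξ A B
  obtain ⟨g, nm, hg, hnm, he⟩ := hP Ξ A B k l al pr hal hpr
  refine ⟨fun φ => g (f φ), hg.comp hf, fun φ => ⟨fun hs => ?_, fun hs => ?_⟩⟩
  · obtain ⟨F, G, hFG⟩ := (hφ φ).2.1 hs
    obtain ⟨χ, hχ⟩ := hG _ Ξ A B k l al pr nm hnm (· ∈ f φ) F G hFG
    refine ⟨χ, fun e hm => ?_⟩
    obtain ⟨W, v, v', hW, ha, rfl⟩ := (he _ e).1 hm
    exact hχ W v v' hW ha
  · rintro ⟨χ, hχ⟩
    have : Nonempty (Fin (f φ).length) := ⟨⟨0, List.length_pos_iff.2 (hφ φ).1⟩⟩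
    obtain ⟨lab, hlab⟩ := ht _ (Fin (f φ).length) Ξ A B k l al pr nm hnm hran (fun u => (f φ)[u]) χ
      fun W v v' ha => hχ _ ((he _ _).2 ⟨_, v, v', fun i => List.getElem_mem _, ha, rfl⟩)
    exact hk (Fin (f φ).length) ℕ _ _ (fun u => hsm _) ((hφ φ).2.2 hs) lab hlab

/-- The complete graph as a list of edges. -/
def clique (n : ℕ) : List (ℕ × ℕ) :=
  (List.range n).flatMap fun a => ((List.range n).filter fun b => a ≠ b).map fun b => (a, b)

theorem mem_clique {n : ℕ} {e : ℕ × ℕ} : e ∈ clique n ↔ e.1 < n ∧ e.2 < n ∧ e.1 ≠ e.2 := by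
  obtain ⟨a, b⟩ := e
  simp only [clique, List.mem_flatMap, List.mem_range, List.mem_map, List.mem_filter,
    decide_eq_true_eq, Prod.mk.injEq]
  constructor
  · rintro ⟨a', h1, b', ⟨h2, h3⟩, rfl, rfl⟩
    exact ⟨h1, h2, h3⟩
  · rintro ⟨h1, h2, h3⟩
    exact ⟨a, h1, b, ⟨h2, h3⟩, rfl, rfl⟩

theorem not_col_clique (c : ℕ) : ¬ Col (clique (c + 1)) c := by
  rintro ⟨χ, hχ⟩
  obtain ⟨a, b, hab, h⟩ := Fintype.exists_ne_map_eq_of_card_lt (fun a : Fin (c + 1) => χ a)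
    (by simp)
  exact hχ (a, b) (mem_clique.2 ⟨a.2, b.2, fun h' => hab (Fin.ext h')⟩) h

theorem colorable_of_col {E : List (ℕ × ℕ)} {c : ℕ} (h : Col E c) : (graphOf E).Colorable c := by
  obtain ⟨χ, hχ⟩ := h
  refine ⟨SimpleGraph.Coloring.mk (fun v => χ v.1) fun {a b} hab => ?_⟩
  rcases ((SimpleGraph.fromRel_adj _ _ _).1 hab).2 with h | h
  · exact hχ _ h
  · exact (hχ _ h).symm

theorem col_of_colorable {E : List (ℕ × ℕ)} {c : ℕ} (hc : 0 < c) (hE : ∀ e ∈ E, e.1 ≠ e.2)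
    (h : (graphOf E).Colorable c) : Col E c := by
  classical
  obtain ⟨χ⟩ := h
  refine ⟨fun v => if h : ∃ e ∈ E, v = e.1 ∨ v = e.2 then χ ⟨v, h⟩ else ⟨0, hc⟩, fun e he => ?_⟩
  have h1 : ∃ e' ∈ E, e.1 = e'.1 ∨ e.1 = e'.2 := ⟨e, he, Or.inl rfl⟩
  have h2 : ∃ e' ∈ E, e.2 = e'.1 ∨ e.2 = e'.2 := ⟨e, he, Or.inr rfl⟩
  simp only [dif_pos h1, dif_pos h2]
  exact χ.valid ((SimpleGraph.fromRel_adj _ _ _).2
    ⟨fun h => hE e he (congrArg Subtype.val h), Or.inl he⟩)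

/-- Replace a list with a loop by a clique. -/
def clean (c : ℕ) (E : List (ℕ × ℕ)) : List (ℕ × ℕ) :=
  if E.filter (fun e => decide (e.1 = e.2)) = [] then E else clique (c + 1)

theorem pt_clean (c : ℕ) : PT (clean c) := by
  unfold clean
  exact PT.ite (PT.eq (by fun_prop) (PT.const _)) PT.id (PT.const _)

theorem pt_natsE : PT natsE := by
  unfold natsE
  fun_prop

open Fnl in
theorem final_of (h : GapThm 3) (c : ℕ) (hc : 0 < c) :
    ∃ f : List Bool → List (ℕ × ℕ),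
      (∃ M : Turing.TM2ComputableInPolyTime id (fun E => bitsOf (natsE E)) f,
        ∀ j, Finite (M.tm.Γ j)) ∧
      ∀ x : List Bool, (∀ e ∈ f x, e.1 ≠ e.2) ∧
        ((∃ φ, bitsOf (natsCNF φ) = x ∧ Sat φ) → (graphOf (f x)).Colorable 3) ∧
        (¬ (∃ φ, bitsOf (natsCNF φ) = x ∧ Sat φ) → ¬ (graphOf (f x)).Colorable c) := by
  obtain ⟨f, hf, hφ⟩ := h c
  refine ⟨fun x => clean c (f (rd x)),
    (pt_bitsOf.comp (pt_natsE.comp ((pt_clean c).comp (hf.comp pt_rd)))).rawMachine _ _ _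
      fun _ => rfl, fun x => ?_⟩
  obtain ⟨h1, h2⟩ := hφ (rd x)
  rw [← sat_rd]
  have hl : ∀ e ∈ clean c (f (rd x)), e.1 ≠ e.2 := by
    unfold clean
    split_ifs with h0
    · intro e he
      simpa using List.filter_eq_nil_iff.1 h0 e he
    · exact fun e he => (mem_clique.1 he).2.2
  refine ⟨hl, fun hs => ?_, fun hs hcol => ?_⟩
  · obtain ⟨χ, hχ⟩ := h1 hs
    have h0 : (f (rd x)).filter (fun e => decide (e.1 = e.2)) = [] :=
      List.filter_eq_nil_iff.2 fun e he => by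
        simpa using fun h' => hχ e he (by rw [h'])
    have h4 : clean c (f (rd x)) = f (rd x) := if_pos h0
    exact colorable_of_col ⟨χ, fun e he => hχ e (h4 ▸ he)⟩
  · have h3 : Col (clean c (f (rd x))) c := col_of_colorable hc hl hcol
    unfold clean at h3
    split_ifs at h3
    · exact h2 hs h3
    · exact not_col_clique c h3

end Vale.Agent.P342
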