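import Vale.Agent.P342.Basic

/-! The positive semidefinite counting argument. -/

set_option linter.unusedSectionVars false

namespace Vale.Agent.P342

open Vale.Agent.P325 Vale.Agent.Lib.PolyTime Finset Matrix Module
open scoped BigOperators

namespace Mix

theorem expect_sub {α : Type} {s t : Finset α} (h : s ⊆ t) (hs : s.Nonempty) (φ : α → ℝ) :
    𝔼 x ∈ t, ((t.card : ℝ) / s.card * ind (x ∈ s)) * φ x = 𝔼 x ∈ s, φ x := by
  classical
  have h1 : (s.card : ℝ) ≠ 0 := by exact_mod_cast hs.card_pos.ne'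
  have h2 : (t.card : ℝ) ≠ 0 := by exact_mod_cast (hs.mono h).card_pos.ne'
  rw [expect_eq_sum_div_card, expect_eq_sum_div_card]
  simp only [ind_eq_ite, mul_ite, mul_one, mul_zero, ite_mul, zero_mul]
  rw [sum_ite_mem, inter_eq_right.2 h, ← mul_sum]
  field_simp

theorem expect_le' {α : Type} {s : Finset α} {f g : α → ℝ} (h : ∀ x, f x ≤ g x) :
    𝔼 x ∈ s, f x ≤ 𝔼 x ∈ s, g x := expect_le_expect fun x _ => h x

variable {J X : Type} [Fintype J] [DecidableEq J] [Fintype X] [DecidableEq X]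

theorem box_split {D0 D D' : Sub X} (h : D0 ≤ D) (hi : D ⊓ D' = D0) {N : Mat J X}
    (hN : N ∈ box (⊥ : Sub J) D0) :
    ∃ T1 ∈ box (⊥ : Sub J) D, ∃ T2 ∈ box (⊥ : Sub J) D', N = T1 + T2 := by
  obtain ⟨C, hC1, hC2⟩ := IsModularLattice.exists_disjoint_and_sup_eq h
  have hCD : C ≤ D := hC2 ▸ le_sup_right
  have hd : Disjoint D' C := by
    rw [disjoint_iff_inf_le]
    refine le_trans ?_ hC1.le_bot
    rw [← hi]
    exact le_inf (le_inf (inf_le_right.trans hCD) inf_le_left) inf_le_right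
  obtain ⟨E, hE, hc⟩ := hd.exists_isCompl
  have h0 : D0 ≤ E := (hi ▸ inf_le_right : D0 ≤ D').trans hE
  let P : (X → F2) →ₗ[F2] X → F2 := LinearMap.ofIsCompl hc E.subtype 0
  have hP1 : ∀ v ∈ E, P v = v := fun v hv => LinearMap.ofIsCompl_apply_left hc ⟨v, hv⟩
  have hP2 : ∀ v ∈ C, P v = 0 := fun v hv => LinearMap.ofIsCompl_apply_right hc ⟨v, hv⟩
  refine ⟨N * LinearMap.toMatrix' P, mem_box_bot.2 fun d hd => ?_,
    N + N * LinearMap.toMatrix' P, mem_box_bot.2 fun d hd => ?_, ?_⟩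
  · rw [← hC2] at hd
    obtain ⟨d0, hd0, c, hc', rfl⟩ := Submodule.mem_sup.1 hd
    rw [← mulVec_mulVec, LinearMap.toMatrix'_mulVec, map_add, hP1 d0 (h0 hd0), hP2 c hc', add_zero]
    exact mem_box_bot.1 hN d0 hd0
  · rw [add_mulVec, ← mulVec_mulVec, LinearMap.toMatrix'_mulVec, hP1 d (hE hd)]
    exact Fou.add_self_pi _
  · rw [add_left_comm, mat_add_self, add_zero]

/-- The density of an atom. -/
noncomputable def rho (D0 D : Sub X) (N1 P : Mat J X) : ℝ :=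
  ((box (⊥ : Sub J) D0).card : ℝ) / (box (⊥ : Sub J) D).card * ind (P + N1 ∈ box (⊥ : Sub J) D)

theorem rho_nonneg (D0 D : Sub X) (N1 P : Mat J X) : 0 ≤ rho D0 D N1 P :=
  mul_nonneg (by positivity) (ind_nonneg _)

theorem rho_le (D0 : Sub X) {D : Sub X} {r : ℕ} (hr : finrank F2 D ≤ r) (N1 P : Mat J X) :
    rho D0 D N1 P ≤ 2 ^ (Fintype.card J * r) := by
  have h0 : (0 : ℝ) < (box (⊥ : Sub J) D).card := by
    exact_mod_cast (box_nonempty (⊥ : Sub J) D).card_pos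
  have h1 : ((box (⊥ : Sub J) D).card : ℝ) * 2 ^ (Fintype.card J * finrank F2 D)
      = Fintype.card (Mat J X) := by exact_mod_cast card_box_bot_mul (J := J) D
  have h2 : ((box (⊥ : Sub J) D0).card : ℝ) ≤ Fintype.card (Mat J X) := by
    exact_mod_cast card_le_univ _
  have h3 : (2 : ℝ) ^ (Fintype.card J * finrank F2 D) ≤ 2 ^ (Fintype.card J * r) :=
    pow_le_pow_right₀ one_le_two (Nat.mul_le_mul_left _ hr)
  refine (mul_le_of_le_one_right (by positivity) (ind_le_one _)).trans ?_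
  rw [div_le_iff₀ h0]
  nlinarith

theorem sum_mem {D0 : Sub X} {N0 N1 : Mat J X} (h : ∀ d ∈ D0, N1 *ᵥ d = N0 *ᵥ d) :
    N0 + N1 ∈ box (⊥ : Sub J) D0 :=
  mem_box_bot.2 fun d hd => by rw [add_mulVec, h d hd]; exact Fou.add_self_pi _

theorem expect_rho {D0 D : Sub X} (hD : D0 ≤ D) {N0 N1 : Mat J X}
    (h : ∀ d ∈ D0, N1 *ᵥ d = N0 *ᵥ d) (φ : Mat J X → ℝ) :
    𝔼 N ∈ box (⊥ : Sub J) D0, rho D0 D N1 (N0 + N) * φ (N0 + N) =
      𝔼 N ∈ box (⊥ : Sub J) D, φ (N1 + N) := by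
  rw [← expect_box_shift (sum_mem h) fun N => rho D0 D N1 (N0 + N) * φ (N0 + N),
    ← expect_sub (box_mono le_rfl hD) (box_nonempty _ _) fun N => φ (N1 + N)]
  refine expect_congr rfl fun N _ => ?_
  have e1 : N0 + (N0 + N1 + N) = N1 + N := by
    rw [← add_assoc, ← add_assoc, mat_add_self, zero_add]
  have e2 : N1 + N + N1 = N := by rw [add_comm N1, add_assoc, mat_add_self, add_zero]
  rw [e1, rho, e2]

theorem expect_rho_rho {D0 D D' : Sub X} (hD : D0 ≤ D) (hD' : D0 ≤ D') (hi : D ⊓ D' = D0)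
    {N0 N1 N1' : Mat J X} (h : ∀ d ∈ D0, N1 *ᵥ d = N0 *ᵥ d) (h' : ∀ d ∈ D0, N1' *ᵥ d = N0 *ᵥ d) :
    𝔼 N ∈ box (⊥ : Sub J) D, rho D0 D' N1' (N1 + N) = 1 := by
  set u : Mat J X → ℝ := fun T => 𝔼 N ∈ box (⊥ : Sub J) D, rho D0 D' 0 (T + N) with hu
  have h1 : ∀ T ∈ box (⊥ : Sub J) D0, u T = u 0 := by
    intro T hT
    obtain ⟨T1, hT1, T2, hT2, rfl⟩ := box_split hD hi hT
    simp only [hu]
    rw [← expect_box_shift hT1 fun N => rho D0 D' 0 (0 + N)]
    refine expect_congr rfl fun N _ => ?_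
    simp only [rho, add_zero, zero_add]
    congr 1
    refine ind_congr ⟨fun hh => ?_, fun hh => ?_⟩
    · have := add_mem_box _ hh _ hT2
      rwa [add_right_comm, add_assoc T1, mat_add_self, add_zero] at this
    · have := add_mem_box _ hh _ hT2
      rwa [add_right_comm] at this
  have h2 : 𝔼 T ∈ box (⊥ : Sub J) D0, u T = 1 := by
    simp only [hu]
    rw [expect_comm]
    have : ∀ N ∈ box (⊥ : Sub J) D, 𝔼 T ∈ box (⊥ : Sub J) D0, rho D0 D' 0 (T + N) = 1 := by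
      intro N hN
      have h3 := expect_rho hD' (N0 := N) (N1 := 0) (fun d hd => by
        rw [zero_mulVec, mem_box_bot.1 hN d (hD hd)]) fun _ => 1
      simp only [mul_one, expect_const (box_nonempty _ _)] at h3
      rw [← h3]
      exact expect_congr rfl fun T _ => by rw [add_comm]
    rw [expect_congr rfl this, expect_const (box_nonempty _ _)]
  rw [expect_congr rfl h1, expect_const (box_nonempty _ _)] at h2
  have h4 : N1 + N1' ∈ box (⊥ : Sub J) D0 := sum_mem fun d hd => by rw [h d hd, h' d hd]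
  rw [← h2, ← h1 _ h4]
  refine expect_congr rfl fun N _ => ?_
  simp only [rho, add_zero, add_right_comm N1 N]

theorem expect_lineAvg (g : Mat J X → ℝ) (D : Sub X) (a : J → F2) (N1 : Mat J X) :
    𝔼 N ∈ box (⊥ : Sub J) D, lineAvg g D a (N1 + N) = 𝔼 N ∈ box (⊥ : Sub J) D, g (N1 + N) := by
  simp only [lineAvg]
  rw [expect_comm]
  have : ∀ y ∈ ann D, 𝔼 N ∈ box (⊥ : Sub J) D, g (N1 + N + vecMulVec a y) =
      𝔼 N ∈ box (⊥ : Sub J) D, g (N1 + N) := by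
    intro y hy
    rw [← expect_box_shift (vecMulVec_mem_box a hy) fun N => g (N1 + N)]
    exact expect_congr rfl fun N _ => by rw [add_assoc, add_comm N]
  rw [expect_congr rfl this, expect_const (ann_nonempty D)]

variable {Λ : Type} [Fintype Λ] [DecidableEq Λ]

theorem sum_ind_mem (s : Finset Λ) : ∑ z, ind (z ∈ s) = s.card := by
  rw [sum_ind_eq_card]
  simp

/-- The weight of a label outside `s` along a line. -/
noncomputable def jj (D : Sub X) (Y : Finset (Mat J X)) (L : Mat J X → Finset Λ) (s : Finset Λ)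
    (a : J → F2) (P : Mat J X) (z : Λ) : ℝ :=
  ind (z ∉ s) * lineAvg (fun P => ind (P ∈ Y ∧ z ∈ L P)) D a P

/-- The largest weight. -/
noncomputable def mx (D : Sub X) (Y : Finset (Mat J X)) (L : Mat J X → Finset Λ) (s : Finset Λ)
    (a : J → F2) (P : Mat J X) : ℝ :=
  min 1 √(∑ z, jj D Y L s a P z ^ 2)

theorem mx_nonneg (D : Sub X) (Y : Finset (Mat J X)) (L : Mat J X → Finset Λ) (s : Finset Λ)
    (a : J → F2) (P : Mat J X) : 0 ≤ mx D Y L s a P := le_min zero_le_one (Real.sqrt_nonneg _)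

theorem jj_le (D : Sub X) (Y : Finset (Mat J X)) (L : Mat J X → Finset Λ) (s : Finset Λ)
    (a : J → F2) (P : Mat J X) (z : Λ) : jj D Y L s a P z ≤ mx D Y L s a P := by
  refine le_min ?_ (Real.le_sqrt_of_sq_le
    (single_le_sum (f := fun z => jj D Y L s a P z ^ 2) (fun _ _ => sq_nonneg _) (mem_univ z)))
  exact mul_le_one₀ (ind_le_one _) (expect_ind_nonneg _ _) (expect_ind_le_one _ _)

theorem mx_sq_le (D : Sub X) (Y : Finset (Mat J X)) (L : Mat J X → Finset Λ) (s : Finset Λ)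
    (a : J → F2) (P : Mat J X) : mx D Y L s a P ^ 2 ≤ ∑ z, jj D Y L s a P z ^ 2 := by
  rw [← Real.sq_sqrt (sum_nonneg fun z _ => sq_nonneg (jj D Y L s a P z))]
  exact pow_le_pow_left₀ (mx_nonneg _ _ _ _ _ _) (min_le_right _ _) 2

theorem sum_jj_mul_le (D D' : Sub X) (Y : Finset (Mat J X)) (L L' : Mat J X → Finset Λ)
    (s : Finset Λ) (a : J → F2) (P : Mat J X) {t : ℕ} (ht : ∀ N, (L' N).card ≤ t) :
    ∑ z, jj D Y L s a P z * lineAvg (fun P => ind (z ∈ L' P)) D' a P ≤ t * mx D Y L s a P := by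
  have h1 : ∑ z, lineAvg (fun P => ind (z ∈ L' P)) D' a P ≤ t := by
    simp only [lineAvg]
    rw [← expect_sum_comm]
    refine expect_le (ann_nonempty _) fun y _ => ?_
    rw [sum_ind_mem]
    exact_mod_cast ht _
  calc _ ≤ ∑ z, mx D Y L s a P * lineAvg (fun P => ind (z ∈ L' P)) D' a P :=
        sum_le_sum fun z _ => mul_le_mul_of_nonneg_right (jj_le _ _ _ _ _ _ _)
          (expect_ind_nonneg _ _)
    _ ≤ _ := by
        rw [← mul_sum, mul_comm]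
        exact mul_le_mul_of_nonneg_right h1 (mx_nonneg _ _ _ _ _ _)

theorem point (D D' : Sub X) (Y Y' : Finset (Mat J X)) (L L' : Mat J X → Finset Λ)
    (s s' : Finset Λ) (a : J → F2) (P : Mat J X) {t : ℕ} (ht : ∀ N, (L N).card ≤ t)
    (ht' : ∀ N, (L' N).card ≤ t)
    (hc : ∀ N ∈ Y, ∀ y, N + vecMulVec a y ∈ Y' → ∃ z ∈ L N, z ∈ L' (N + vecMulVec a y)) :
    lineAvg (fun P => ind (P ∈ Y)) D a P * lineAvg (fun P => ind (P ∈ Y')) D' a P ≤
      ind (∃ z ∈ s, z ∈ s') + t * mx D Y L s a P + t * mx D' Y' L' s' a P := by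
  have h1 := sum_jj_mul_le D D' Y L L' s a P ht'
  have h2 := sum_jj_mul_le D' D Y' L' L s' a P ht
  refine le_trans ?_ (add_le_add (add_le_add le_rfl h1) h2)
  have key : ∀ y y' : X → F2, ind (P + vecMulVec a y ∈ Y) * ind (P + vecMulVec a y' ∈ Y') ≤
      ind (∃ z ∈ s, z ∈ s') +
        ∑ z, ind (z ∉ s) * ind (P + vecMulVec a y ∈ Y ∧ z ∈ L (P + vecMulVec a y)) *
          ind (z ∈ L' (P + vecMulVec a y')) +
        ∑ z, ind (z ∉ s') * ind (P + vecMulVec a y' ∈ Y' ∧ z ∈ L' (P + vecMulVec a y')) *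
          ind (z ∈ L (P + vecMulVec a y)) := by
    intro y y'
    simp only [← ind_and]
    refine le_trans ?_ (add_le_add (add_le_add le_rfl (ind_exists_le _)) (ind_exists_le _))
    refine le_trans ?_ (add_le_add (ind_or_le _ _) le_rfl)
    refine le_trans (ind_mono ?_) (ind_or_le _ _)
    rintro ⟨hy, hy'⟩
    have e : P + vecMulVec a y + vecMulVec a (y + y') = P + vecMulVec a y' := by
      rw [vecMulVec_add, add_assoc, ← add_assoc (vecMulVec a y), mat_add_self, zero_add]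
    obtain ⟨z, hz, hz'⟩ := hc _ hy (y + y') (e ▸ hy')
    rw [e] at hz'
    by_cases h3 : z ∈ s
    · by_cases h4 : z ∈ s'
      · exact Or.inl (Or.inl ⟨z, h3, h4⟩)
      · exact Or.inr ⟨z, ⟨h4, hy', hz'⟩, hz⟩
    · exact Or.inl (Or.inr ⟨z, ⟨h3, hy, hz⟩, hz'⟩)
  simp only [lineAvg, jj]
  rw [expect_mul_expect]
  refine (expect_le' fun y => expect_le' fun y' => key y y').trans (le_of_eq ?_)
  simp only [expect_add_distrib, expect_const (ann_nonempty _), expect_sum_comm]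
  congr 1
  · congr 1
    refine sum_congr rfl fun z _ => ?_
    simp only [← mul_expect, ← expect_mul]
  · refine sum_congr rfl fun z _ => ?_
    simp only [← mul_expect, ← expect_mul]

theorem expect_mx {ψ : J → F2} {D : Sub X} {N1 : Mat J X} {Y : Finset (Mat J X)}
    {L : Mat J X → Finset Λ} {s : Finset Λ} {η δ : ℝ} (hδ : 0 ≤ δ) {t : ℕ}
    (ht : ∀ N, (L N).card ≤ t) (h : Atom ψ D N1 Y L s η δ) :
    𝔼 a ∈ odd ψ, 𝔼 N ∈ box (⊥ : Sub J) D, mx D Y L s a (N1 + N) ≤ √(δ * t) := by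
  refine Real.le_sqrt_of_sq_le ((sq_expect_le _ _).trans ?_)
  refine (expect_le' fun a => (sq_expect_le _ _).trans
    (expect_le' fun N => mx_sq_le D Y L s a (N1 + N))).trans ?_
  simp only [expect_sum_comm]
  have h1 : ∀ z, 𝔼 a ∈ odd ψ, 𝔼 N ∈ box (⊥ : Sub J) D, jj D Y L s a (N1 + N) z ^ 2 ≤
      δ * 𝔼 N ∈ box (⊥ : Sub J) D, ind (z ∈ L (N1 + N)) := by
    intro z
    by_cases hz : z ∈ s
    · simp only [jj, ind_of_not (not_not.2 hz), zero_mul, ne_eq, OfNat.ofNat_ne_zero,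
        not_false_eq_true, zero_pow, expect_const_zero]
      exact mul_nonneg hδ (expect_ind_nonneg _ _)
    · simp only [jj, ind_of hz, one_mul]
      exact (h.2.2 z hz).trans
        (mul_le_mul_of_nonneg_left (expect_le' fun N => ind_mono fun hh => hh.2) hδ)
  refine (sum_le_sum fun z _ => h1 z).trans ?_
  rw [← mul_sum, ← expect_sum_comm]
  refine mul_le_mul_of_nonneg_left (expect_le (box_nonempty _ _) fun N _ => ?_) hδ
  rw [sum_ind_mem]
  exact_mod_cast ht _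

/-- The abstract second moment argument. -/
theorem abstract {Ω Θ : Type} [Fintype Θ] [Nonempty Θ] {H : Finset Ω} (hH : H.Nonempty)
    (ρ l m : Θ → Ω → ℝ) (c e : Θ → Θ → ℝ) {t η γ ϑ : ℝ} (ht : 0 ≤ t) (hη : 0 ≤ η) (hϑ : 0 ≤ ϑ)
    (hϑ1 : ϑ ≤ 1) (hρ : ∀ θ x, 0 ≤ ρ θ x) (hm : ∀ θ x, 0 ≤ m θ x ∧ m θ x ≤ 1)
    (hc : ∀ θ θ', 0 ≤ c θ θ' ∧ c θ θ' ≤ 1) (he0 : ∀ θ θ', 0 ≤ e θ θ')
    (h1 : ∀ θ, 𝔼 x ∈ H, ρ θ x = 1) (h2 : ∀ θ θ', 𝔼 x ∈ H, ρ θ x * ρ θ' x ≤ 1 + e θ θ')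
    (he : 𝔼 θ, 𝔼 θ', e θ θ' ≤ ϑ ^ 2) (hγ : 𝔼 θ, 𝔼 θ', c θ θ' ≤ γ)
    (hl : ∀ θ, η ≤ 𝔼 x ∈ H, ρ θ x * l θ x)
    (hp : ∀ θ θ' x, l θ x * l θ' x ≤ c θ θ' + t * m θ x + t * m θ' x) :
    η ^ 2 ≤ γ + ϑ ^ 2 + 2 * t * (𝔼 θ, 𝔼 x ∈ H, ρ θ x * m θ x + 2 * ϑ) := by
  set rb : Ω → ℝ := fun x => 𝔼 θ, ρ θ x with hrb
  set hb : Ω → ℝ := fun x => 𝔼 θ, ρ θ x * m θ x with hhb
  have a1 : 𝔼 x ∈ H, rb x = 1 := by
    simp only [hrb]
    rw [expect_comm]
    simp only [h1, Fintype.expect_const]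
  have a2 : 𝔼 x ∈ H, rb x ^ 2 ≤ 1 + ϑ ^ 2 := by
    simp only [hrb, sq, expect_mul_expect]
    rw [expect_comm]
    have : 𝔼 θ, 𝔼 x ∈ H, 𝔼 θ', ρ θ x * ρ θ' x ≤ 𝔼 θ, 𝔼 θ', (1 + e θ θ') :=
      expect_le' fun θ => by rw [expect_comm]; exact expect_le' fun θ' => h2 θ θ'
    simp only [expect_add_distrib, Fintype.expect_const] at this
    linarith
  have a3 : 𝔼 x ∈ H, (rb x - 1) ^ 2 ≤ ϑ ^ 2 := by
    simp only [sub_sq, expect_add_distrib, expect_sub_distrib, mul_one, ← mul_expect, a1,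
      expect_const hH]
    linarith
  have a4 : 𝔼 x ∈ H, hb x ^ 2 ≤ 4 := by
    refine le_trans (expect_le' fun x => ?_) (a2.trans (by nlinarith))
    exact pow_le_pow_left₀ (expect_nonneg fun θ _ => mul_nonneg (hρ θ x) (hm θ x).1)
      (expect_le' fun θ => mul_le_of_le_one_right (hρ θ x) (hm θ x).2) 2
  have a5 : 𝔼 x ∈ H, hb x * (rb x - 1) ≤ 2 * ϑ := by
    have h3 := expect_mul_sq_le_sq_mul_sq H hb fun x => rb x - 1
    refine le_trans (le_abs_self _) (abs_le_of_sq_le_sq (h3.trans ?_) (by positivity))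
    calc _ ≤ 4 * ϑ ^ 2 := mul_le_mul a4 a3 (expect_nonneg fun _ _ => sq_nonneg _) (by norm_num)
      _ = _ := by ring
  have a6 : 𝔼 x ∈ H, hb x * rb x ≤ 𝔼 θ, 𝔼 x ∈ H, ρ θ x * m θ x + 2 * ϑ := by
    simp only [mul_sub, mul_one, expect_sub_distrib] at a5
    rw [← expect_comm]
    linarith
  have a7 : η ≤ 𝔼 x ∈ H, 𝔼 θ, ρ θ x * l θ x := by
    rw [expect_comm]
    exact le_expect univ_nonempty fun θ _ => hl θ
  have a8 : ∀ x, (𝔼 θ, ρ θ x * l θ x) ^ 2 ≤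
      𝔼 θ, 𝔼 θ', c θ θ' * (ρ θ x * ρ θ' x) + 2 * t * (hb x * rb x) := by
    intro x
    have e1 : 2 * t * (hb x * rb x) = 𝔼 θ, 𝔼 θ', t * (ρ θ x * m θ x * ρ θ' x) +
        𝔼 θ, 𝔼 θ', t * (ρ θ x * (ρ θ' x * m θ' x)) := by
      simp only [← mul_expect, ← expect_mul, hhb, hrb]
      ring
    rw [e1, sq, expect_mul_expect]
    simp only [← expect_add_distrib]
    refine expect_le' fun θ => expect_le' fun θ' => ?_
    have := mul_le_mul_of_nonneg_left (hp θ θ' x) (mul_nonneg (hρ θ x) (hρ θ' x))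
    linarith
  have a9 : 𝔼 x ∈ H, 𝔼 θ, 𝔼 θ', c θ θ' * (ρ θ x * ρ θ' x) ≤ γ + ϑ ^ 2 := by
    rw [expect_comm]
    have : 𝔼 θ, 𝔼 x ∈ H, 𝔼 θ', c θ θ' * (ρ θ x * ρ θ' x) ≤ 𝔼 θ, 𝔼 θ', (c θ θ' + e θ θ') := by
      refine expect_le' fun θ => ?_
      rw [expect_comm]
      refine expect_le' fun θ' => ?_
      rw [← mul_expect]
      have h4 := mul_le_mul_of_nonneg_left (h2 θ θ') (hc θ θ').1
      have h5 := mul_le_of_le_one_left (he0 θ θ') (hc θ θ').2
      linarith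
    simp only [expect_add_distrib] at this
    linarith
  have b1 := (pow_le_pow_left₀ hη a7 2).trans ((sq_expect_le _ _).trans (expect_le' a8))
  rw [expect_add_distrib, ← mul_expect] at b1
  have b2 := mul_le_mul_of_nonneg_left a6 (by positivity : 0 ≤ 2 * t)
  linarith

end Mix

open Mix

theorem mixThm : MixThm := by
  intro J X Θ Λ _ _ _ _ _ _ _ _ ψ t r η δ γ ϑ D0 N0 D N1 Y L s hψ hη hδ hϑ hϑ1 hr hD hN ht hA he hγ
    hc
  have key : ∀ a ∈ odd ψ, η ^ 2 ≤ γ + ϑ ^ 2 + 2 * t *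
      (𝔼 θ, 𝔼 N ∈ box (⊥ : Sub J) (D θ), mx (D θ) (Y θ) (L θ) (s θ) a (N1 θ + N) + 2 * ϑ) := by
    intro a ha
    have h := abstract (box_nonempty (⊥ : Sub J) D0) (fun θ N => rho D0 (D θ) (N1 θ) (N0 + N))
      (fun θ N => lineAvg (fun P => ind (P ∈ Y θ)) (D θ) a (N0 + N))
      (fun θ N => mx (D θ) (Y θ) (L θ) (s θ) a (N0 + N)) (fun θ θ' => ind (∃ z ∈ s θ, z ∈ s θ'))
      (fun θ θ' => 2 ^ (Fintype.card J * r) * ind (D θ ⊓ D θ' ≠ D0)) (t := t) (γ := γ)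
      (Nat.cast_nonneg t) hη hϑ hϑ1 (fun _ _ => rho_nonneg _ _ _ _)
      (fun _ _ => ⟨mx_nonneg _ _ _ _ _ _, min_le_left _ _⟩) (fun _ _ => ⟨ind_nonneg _, ind_le_one _⟩)
      (fun _ _ => mul_nonneg (by positivity) (ind_nonneg _))
      (fun θ => by
        simpa only [mul_one, expect_const (box_nonempty _ _)] using
          expect_rho (hD θ) (hN θ) fun _ => 1)
      (fun θ θ' => by
        rw [expect_rho (hD θ) (hN θ) (rho D0 (D θ') (N1 θ'))]
        by_cases hi : D θ ⊓ D θ' = D0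
        · rw [expect_rho_rho (hD θ) (hD θ') hi (hN θ) (hN θ'), ind_of_not (not_not.2 hi)]
          simp
        · rw [ind_of hi, mul_one]
          have := expect_le (box_nonempty (⊥ : Sub J) (D θ)) fun N _ =>
            rho_le D0 (hr θ') (N1 θ') (N1 θ + N)
          linarith)
      (by simpa only [← mul_expect] using he) hγ
      (fun θ => by
        rw [expect_rho (hD θ) (hN θ) (lineAvg (fun P => ind (P ∈ Y θ)) (D θ) a), expect_lineAvg]
        exact (hA θ).2.1)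
      (fun θ θ' N => point _ _ _ _ _ _ _ _ _ _ (ht θ) (ht θ') (hc θ θ' a ha))
    simpa only [expect_rho (hD _) (hN _) (mx _ _ _ _ a)] using h
  have h1 := le_expect (odd_nonempty hψ) key
  simp only [expect_add_distrib, ← mul_expect, expect_const (odd_nonempty hψ)] at h1
  rw [expect_comm] at h1
  have h2 := expect_le (univ_nonempty (α := Θ)) fun θ _ => expect_mx hδ (ht θ) (hA θ)
  have h3 := mul_le_mul_of_nonneg_left h2 (by positivity : (0 : ℝ) ≤ 2 * t)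
  linarith

end Vale.Agent.P342
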