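import Vale.Agent.P342.Basic

/-! Resampling one block. -/

namespace Vale.Agent.P342

open Vale.Agent.P325 Vale.Agent.Lib.PolyTime Finset Matrix Module
open scoped BigOperators

namespace Plant

theorem bessel_abs {Ω ι : Type} [Fintype Ω] [Fintype ι] [DecidableEq ι] (u : ι → Ω → ℝ)
    (f : Ω → ℝ) {B : ℝ} (hB : 0 ≤ B) (ho : ∀ i j, i ≠ j → 𝔼 x, u i x * u j x = 0)
    (hn : ∀ i, 𝔼 x, u i x * u i x ≤ B) : ∑ i, (𝔼 x, f x * u i x) ^ 2 ≤ B * 𝔼 x, f x ^ 2 := by
  set a : ι → ℝ := fun i => 𝔼 x, f x * u i x with ha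
  set s : ℝ := ∑ i, a i ^ 2 with hs
  have h1 : s = 𝔼 x, f x * ∑ i, a i * u i x := by
    simp only [mul_sum]
    rw [expect_sum_comm]
    refine sum_congr rfl fun i _ => ?_
    rw [sq]
    nth_rewrite 2 [ha]
    simp only [mul_expect]
    exact expect_congr rfl fun x _ => by ring
  have h2 : 𝔼 x, (∑ i, a i * u i x) ^ 2 ≤ B * s := by
    simp only [sq, sum_mul_sum]
    rw [expect_sum_comm, hs, mul_sum]
    refine sum_le_sum fun i _ => ?_
    rw [expect_sum_comm, sum_eq_single i]
    · have e : 𝔼 x, a i * u i x * (a i * u i x) = a i ^ 2 * 𝔼 x, u i x * u i x := by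
        rw [mul_expect]
        exact expect_congr rfl fun x _ => by ring
      rw [e, mul_comm]
      exact mul_le_mul_of_nonneg_right (hn i) (sq_nonneg _)
    · intro j _ hj
      have e : 𝔼 x, a i * u i x * (a j * u j x) = a i * a j * 𝔼 x, u i x * u j x := by
        rw [mul_expect]
        exact expect_congr rfl fun x _ => by ring
      rw [e, ho i j hj.symm, mul_zero]
    · simp
  have h3 := expect_mul_sq_le_sq_mul_sq univ f fun x => ∑ i, a i * u i x
  rw [← h1] at h3
  have h4 : 0 ≤ 𝔼 x, f x ^ 2 := expect_nonneg fun _ _ => sq_nonneg _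
  have h5 : 0 ≤ s := sum_nonneg fun _ _ => sq_nonneg _
  have h6 : s * s ≤ (B * 𝔼 x, f x ^ 2) * s := by
    nlinarith [mul_le_mul_of_nonneg_left h2 h4]
  rcases h5.eq_or_lt with h | h
  · rw [← h]; positivity
  · exact le_of_mul_le_mul_right h6 h

variable {J A B : Type} {k : ℕ}

/-- The block `i`. -/
def getBlk (N : Mat J (Fin k × A)) (i : Fin k) : Mat J A := Matrix.of fun j a => N j (i, a)

theorem get_set (N : Mat J (Fin k × A)) (i : Fin k) (n : Mat J A) :
    getBlk (setBlk N i n) i = n := by
  ext j a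
  simp [getBlk, setBlk]

theorem get_set_ne (N : Mat J (Fin k × A)) {i i' : Fin k} (h : i' ≠ i) (n : Mat J A) :
    getBlk (setBlk N i n) i' = getBlk N i' := by
  ext j a
  simp [getBlk, setBlk, h]

theorem set_set_get (N : Mat J (Fin k × A)) (i : Fin k) (n : Mat J A) :
    setBlk (setBlk N i n) i (getBlk N i) = N := by
  ext j x
  by_cases h : x.1 = i
  · simp [getBlk, setBlk, ← h]
  · simp [setBlk, h]

variable [Fintype J] [DecidableEq J] [Fintype A] [DecidableEq A]

theorem resample (i : Fin k) (u : Mat J (Fin k × A) → ℝ) :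
    𝔼 N, u N = 𝔼 N, 𝔼 n : Mat J A, u (setBlk N i n) := by
  let e : Mat J (Fin k × A) × Mat J A → Mat J (Fin k × A) × Mat J A :=
    fun p => (setBlk p.1 i p.2, getBlk p.1 i)
  have he : Function.Involutive e := fun p => by
    simp only [e, set_set_get, get_set]
  have h1 := Fintype.expect_equiv he.toPerm (fun p => u (e p).1) (fun p => u p.1) fun _ => rfl
  rw [Fou.expect_prod_type, Fou.expect_prod_type] at h1
  simp only [Fintype.expect_const] at h1
  exact h1.symm

theorem expect_point {W : Type} [Fintype W] (w : W) (g : W → ℝ) :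
    𝔼 n, g n * ((Fintype.card W : ℝ) * ind (w = n)) = g w := by
  classical
  have : (Fintype.card W : ℝ) ≠ 0 := by
    have : Nonempty W := ⟨w⟩
    exact_mod_cast Fintype.card_ne_zero
  rw [Fintype.expect_eq_sum_div_card]
  simp only [ind_eq_ite, mul_ite, mul_one, mul_zero, sum_ite_eq, mem_univ, if_true]
  field_simp

/-- The density of the resampled block. -/
noncomputable def rho {Z : Type} [Fintype Z] (φ : Z → Mat J A) (n : Mat J A) : ℝ :=
  𝔼 z, (Fintype.card (Mat J A) : ℝ) * ind (φ z = n)

theorem rho_le {Z : Type} [Fintype Z] [Nonempty Z] (φ : Z → Mat J A) (n : Mat J A) :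
    rho φ n ≤ Fintype.card (Mat J A) :=
  expect_le univ_nonempty fun _ _ => mul_le_of_le_one_right (Nat.cast_nonneg _) (ind_le_one _)

theorem expect_rho {Z : Type} [Fintype Z] (i : Fin k) (φ : Z → Mat J A)
    (f : Mat J (Fin k × A) → ℝ) :
    𝔼 N, f N * rho φ (getBlk N i) = 𝔼 N, 𝔼 z, f (setBlk N i (φ z)) := by
  rw [resample i]
  refine expect_congr rfl fun N _ => ?_
  simp only [get_set, rho, mul_expect]
  rw [expect_comm]
  exact expect_congr rfl fun z _ => expect_point (φ z) fun n => f (setBlk N i n)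

variable [Fintype B] [DecidableEq B]

/-- Pushing the rows of a matrix. -/
def pushM (i : Fin k) (π : A → B) (S : Mat J (Fin k × A)) : Mat J ((Fin k × A) ⊕ B) :=
  Matrix.of fun j => push i π (S j)

theorem pair_pushM (i : Fin k) (π : A → B) (S : Mat J (Fin k × A)) (N : Mat J ((Fin k × A) ⊕ B)) :
    pair (pushM i π S) N = pair S (plant i π N) := by
  refine sum_congr rfl fun j _ => ?_
  have h := Fou.dot_comp π (fun a => S j (i, a)) fun b => N j (Sum.inr b)
  simp only [dotProduct, Function.comp] at h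
  simp only [dotProduct, Fintype.sum_sum_type, pushM, push, plant, of_apply, Sum.elim_inl,
    Sum.elim_inr, ← h, Fintype.sum_prod_type]
  rw [← sum_erase_add _ _ (mem_univ i), ← sum_erase_add _ _ (mem_univ i)]
  simp only [if_true, zero_mul, sum_const_zero, add_zero]
  congr 1
  refine sum_congr rfl fun i' hi' => ?_
  simp only [if_neg (ne_of_mem_erase hi')]

theorem expect_plant (i : Fin k) (π : A → B) (f : Mat J (Fin k × A) → ℝ) :
    𝔼 N, f (plant i π N) = 𝔼 N, 𝔼 m : Mat J B, f (setBlk N i (m.submatrix id π)) := by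
  let e : Mat J (Fin k × A) × Mat J B ≃ Mat J ((Fin k × A) ⊕ B) :=
    { toFun := fun p => Matrix.of fun j => Sum.elim (p.1 j) (p.2 j)
      invFun := fun N => (Matrix.of fun j x => N j (Sum.inl x), Matrix.of fun j b => N j (Sum.inr b))
      left_inv := fun _ => rfl
      right_inv := fun N => by
        ext j x
        cases x <;> rfl }
  rw [← Fou.expect_prod_type fun p : Mat J (Fin k × A) × Mat J B =>
    f (setBlk p.1 i (p.2.submatrix id π))]
  exact (Fintype.expect_equiv e _ _ fun _ => rfl).symm

omit [Fintype J] [DecidableEq J] [DecidableEq A] [Fintype B] in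
theorem push_add (i : Fin k) (π : A → B) (d d' : Fin k × A → F2) :
    push i π (d + d') = push i π d + push i π d' := by
  funext x
  cases x with
  | inl x => by_cases h : x.1 = i <;> simp [push, h]
  | inr b => simp [push, sum_add_distrib]

omit [Fintype J] [DecidableEq J] [DecidableEq A] [Fintype B] in
theorem push_smul (i : Fin k) (π : A → B) (c : F2) (d : Fin k × A → F2) :
    push i π (c • d) = c • push i π d := by
  funext x
  cases x with
  | inl x => by_cases h : x.1 = i <;> simp [push, h]
  | inr b => simp [push, mul_sum]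

end Plant

open Plant

theorem besselThm : BesselThm := by
  intro J A Z _ _ _ _ _ _ k φ f
  have h1 : ∀ i, 𝔼 N : Mat J (Fin k × A), rho (φ i) (getBlk N i) = 1 := fun i => by
    simpa using expect_rho i (φ i) fun _ => 1
  have hexp : ∀ i j, 𝔼 N : Mat J (Fin k × A),
      (rho (φ i) (getBlk N i) - 1) * (rho (φ j) (getBlk N j) - 1) =
      𝔼 N : Mat J (Fin k × A), rho (φ i) (getBlk N i) * rho (φ j) (getBlk N j) - 1 := by
    intro i j
    simp only [sub_mul, mul_sub, expect_sub_distrib, one_mul, mul_one, h1, Fintype.expect_const]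
    ring
  have h := bessel_abs (fun i (N : Mat J (Fin k × A)) => rho (φ i) (getBlk N i) - 1) f
    (B := Fintype.card (Mat J A)) (Nat.cast_nonneg _) (fun i j hij => by
      rw [hexp, expect_rho]
      simp only [get_set_ne _ hij, Fintype.expect_const, h1, sub_self]) (fun i => by
      rw [hexp, expect_rho]
      have : 𝔼 N : Mat J (Fin k × A), 𝔼 z, rho (φ i) (getBlk (setBlk N i (φ i z)) i) ≤
          Fintype.card (Mat J A) :=
        expect_le univ_nonempty fun _ _ => expect_le univ_nonempty fun _ _ => rho_le _ _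
      linarith)
  simpa only [mul_sub, expect_sub_distrib, mul_one, expect_rho] using h

theorem plant_of (h : BesselThm) : PlantThm := by
  intro J A B _ _ _ _ _ _ k π g η hη hg
  classical
  set Lg : Finset (Mat J (Fin k × A)) := univ.filter fun S => η ≤ |coefM g S| with hLg
  have hcard : (Lg.card : ℝ) * η ^ 2 ≤ 1 := by
    have h1 : 𝔼 N, g N ^ 2 ≤ 1 :=
      expect_le univ_nonempty fun N _ => (sq_le_one_iff_abs_le_one _).2 (hg N)
    rw [parsevalM] at h1
    refine le_trans ?_ ((sum_le_sum_of_subset_of_nonneg (subset_univ Lg)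
      fun _ _ _ => sq_nonneg _).trans h1)
    rw [← nsmul_eq_mul]
    refine card_nsmul_le_sum _ _ _ fun S hS => ?_
    rw [← sq_abs (coefM g S)]
    exact pow_le_pow_left₀ hη.le (mem_filter.1 hS).2 2
  set dev : Mat J (Fin k × A) → Fin k → ℝ := fun S i =>
    coefM (fun N => g (plant i (π i) N)) (pushM i (π i) S) - coefM g S with hdev
  have hB : ∀ S, ∑ i, dev S i ^ 2 ≤ Fintype.card (Mat J A) := by
    intro S
    have h1 := h J A (Mat J B) k (fun i m => m.submatrix id (π i)) fun N => g N * sg (pair S N)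
    have h2 : 𝔼 N, (g N * sg (pair S N)) ^ 2 ≤ 1 :=
      expect_le univ_nonempty fun N _ => (sq_le_one_iff_abs_le_one _).2 (by
        rw [abs_mul, Fou.abs_sg, mul_one]; exact hg N)
    refine le_trans (le_of_eq ?_) (h1.trans (mul_le_of_le_one_right (Nat.cast_nonneg _) h2))
    refine sum_congr rfl fun i _ => ?_
    rw [← expect_plant i (π i) fun N => g N * sg (pair S N)]
    simp only [hdev, coefM, pair_pushM]
  have hi : ∀ i, ind (¬ ∀ d ∈ spec η g, push i (π i) d ∈ spec (η / 2) fun N => g (plant i (π i) N))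
      ≤ ∑ S ∈ Lg, 4 * dev S i ^ 2 / η ^ 2 := by
    intro i
    by_cases hc : ∃ S ∈ Lg, η ^ 2 ≤ 4 * dev S i ^ 2
    · obtain ⟨S, hS, h1⟩ := hc
      refine (ind_le_one _).trans (le_trans ?_
        (single_le_sum (f := fun S => 4 * dev S i ^ 2 / η ^ 2) (fun _ _ => by positivity) hS))
      rwa [le_div_iff₀ (by positivity), one_mul]
    · rw [ind_of_not (not_not.2 ?_)]
      · exact sum_nonneg fun _ _ => by positivity
      intro d hd
      induction hd using Submodule.span_induction with
      | mem v hv =>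
        obtain ⟨S, hS, j, rfl⟩ := hv
        refine Submodule.subset_span ⟨pushM i (π i) S, ?_, j, rfl⟩
        have h1 : 4 * dev S i ^ 2 < η ^ 2 :=
          not_le.1 fun h1 => hc ⟨S, mem_filter.2 ⟨mem_univ _, hS⟩, h1⟩
        have h2 : |dev S i| ≤ η / 2 := abs_le_of_sq_le_sq (by nlinarith) (by positivity)
        have h3 := abs_sub_abs_le_abs_sub (coefM g S)
          (coefM (fun N => g (plant i (π i) N)) (pushM i (π i) S))
        rw [abs_sub_comm] at h3
        simp only [hdev] at h2
        linarith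
      | zero =>
        have := push_smul i (π i) 0 0
        rw [zero_smul, zero_smul] at this
        rw [this]
        exact Submodule.zero_mem _
      | add x y _ _ hx hy => rw [push_add]; exact Submodule.add_mem _ hx hy
      | smul c x _ hx => rw [push_smul]; exact Submodule.smul_mem _ _ hx
  refine (sum_le_sum fun i _ => hi i).trans ?_
  rw [sum_comm]
  have h2 : ∀ S ∈ Lg, ∑ i, 4 * dev S i ^ 2 / η ^ 2 ≤ 4 * Fintype.card (Mat J A) / η ^ 2 := by
    intro S _
    rw [← sum_div, ← mul_sum]
    gcongr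
    exact hB S
  refine (sum_le_card_nsmul _ _ _ h2).trans ?_
  rw [nsmul_eq_mul, le_div_iff₀ (by positivity)]
  have e : (Lg.card : ℝ) * (4 * Fintype.card (Mat J A) / η ^ 2) * η ^ 4 =
      (4 * Fintype.card (Mat J A)) * (Lg.card * η ^ 2) := by
    field_simp
  rw [e]
  exact mul_le_of_le_one_right (by positivity) hcard

end Vale.Agent.P342
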