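import Vale.Agent.P342.Basic
import Vale.Agent.P325.LinRed

/-! Smooth label cover. -/

namespace Vale.Agent.P342

open Vale.Agent.P325 Vale.Agent.Lib.PolyTime Finset Matrix Module
open scoped BigOperators

namespace Sm

open Vale.Agent.P325.Lin (cvar csgn clauseTrue_iff pt_cvar pt_csgn ite_iff)

/-- Modes. -/
abbrev Md (m : ℕ) : Type := (Fin 3 × Bool) ⊕ Fin m

/-- Valid triples of values of literals. -/
abbrev A1 : Type := {t : Fin 3 → Bool // ∃ p, t p = true}

instance instInhA1 : Inhabited A1 := ⟨⟨fun _ => true, 0, rfl⟩⟩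

/-- Questions. -/
abbrev Qn : Type := Option ℕ × Option Cl

variable {m n : ℕ}

/-- The question in one coordinate. -/
def q1 (c : Cl) : Md m → Qn
  | .inl (p, false) => (some (cvar c p), none)
  | .inl (_, true) => (none, none)
  | .inr _ => (none, some c)

/-- The projection in one coordinate. -/
def p1 (s : Fin 3 → Bool) : Md m → A1 → Fin 3 → Bool
  | .inl (p, false), t => fun _ => t.1 p == s p
  | .inl (_, true), _ => fun _ => false
  | .inr _, t => t.1

/-- The range of the projection. -/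
def rg : Qn → Set (Fin 3 → Bool)
  | (some _, _) => {b | ∃ x, b = fun _ => x}
  | (none, none) => {fun _ => false}
  | (none, some _) => {b | ∃ p, b p = true}

theorem range_p1 (c : Cl) (v : Md m) : Set.range (p1 (csgn c) v) = rg (q1 c v) := by
  rcases v with ⟨p, _ | _⟩ | j
  · ext b
    simp only [Set.mem_range, p1, q1, rg, Set.mem_ofPred_eq]
    refine ⟨fun ⟨t, ht⟩ => ⟨_, ht.symm⟩, fun ⟨x, hx⟩ => ?_⟩
    refine ⟨⟨fun p' => if p' = p then x == csgn c p else true, p + 1, if_neg (by
      revert p; decide)⟩, ?_⟩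
    rw [hx]
    simp only [if_true]
    cases x <;> cases csgn c p <;> rfl
  · ext b
    simp [p1, q1, rg, eq_comm]
  · ext b
    simp [p1, q1, rg]

/-- The questions. -/
def al (u : List Cl) (ξ : Fin n → Md m) : ℕ :=
  enc (List.ofFn fun i : Fin n => q1 (u.getD i default) (ξ i))

/-- The projections. -/
def pj (u : List Cl) (ξ : Fin n → Md m) (a : Fin n → A1) : Fin n → Fin 3 → Bool :=
  fun i => p1 (csgn (u.getD i default)) (ξ i) (a i)

theorem pt_al (ξ : Fin n → Md m) : PT fun u => al u ξ := by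
  refine (pt_ofFn (fun (u : List Cl) (i : Fin n) => q1 (u.getD i default) (ξ i)) fun i => ?_).encN
  have h : PT fun u : List Cl => u.getD i default := by fun_prop
  rcases ξ i with ⟨p, _ | _⟩ | j
  · have := pt_cvar h p
    simp only [q1]; fun_prop
  · exact PT.const _
  · simp only [q1]; fun_prop

theorem pt_pj (ξ : Fin n → Md m) (a : Fin n → A1) (b : Fin n → Fin 3 → Bool) :
    PT fun u => pj u ξ a = b :=
  pt_finite_fun (fun (u : List Cl) (x : Fin n × Fin 3) => csgn (u.getD x.1 default) x.2)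
    (fun x => pt_csgn (by fun_prop) x.2)
    (fun s _ => (fun i => p1 (fun p => s (i, p)) (ξ i) (a i)) = b) fun _ => PT.const _

theorem range_pj (u : List Cl) (ξ : Fin n → Md m) :
    Set.range (pj u ξ) = {b | ∀ i : Fin n, b i ∈ rg (q1 (u.getD i default) (ξ i))} := by
  ext b
  simp only [← range_p1, Set.mem_range, Set.mem_ofPred_eq]
  refine ⟨fun ⟨a, ha⟩ i => ⟨a i, congrFun ha i⟩, fun h => ?_⟩
  choose a ha using h
  exact ⟨a, funext ha⟩

theorem al_inj {u u' : List Cl} {ξ ξ' : Fin n → Md m} (h : al u ξ = al u' ξ') (i : Fin n) :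
    q1 (u.getD i default) (ξ i) = q1 (u'.getD i default) (ξ' i) :=
  congrFun (List.ofFn_injective (Enc.inj h)) i

theorem smooth (u : List Cl) {a a' : Fin n → A1} (h : a ≠ a') :
    𝔼 ξ : Fin n → Md m, ind (pj u ξ a = pj u ξ a') ≤ 6 / (6 + m) := by
  obtain ⟨i, hi⟩ := Function.ne_iff.1 h
  have h1 : ∀ ξ : Fin n → Md m, ind (pj u ξ a = pj u ξ a') ≤
      ∏ j, if j = i then (if (ξ j).isLeft = true then (1 : ℝ) else 0) else 1 := by
    intro ξ
    rw [prod_ite_eq', if_pos (mem_univ _), ← ind_eq_ite]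
    refine ind_mono fun h => ?_
    have := congrFun h i
    simp only [pj] at this
    rcases hx : ξ i with v | j
    · rfl
    · rw [hx] at this
      exact absurd (Subtype.ext this) hi
  refine (expect_le_expect fun ξ _ => h1 ξ).trans (le_of_eq ?_)
  rw [Fou.expect_prod_pi fun j (v : Md m) =>
    if j = i then (if v.isLeft = true then (1 : ℝ) else 0) else 1,
    prod_eq_single i (fun j _ hj => by simp [hj]) (by simp)]
  simp only [if_true]
  rw [Fintype.expect_eq_sum_div_card, Fintype.sum_sum_type]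
  simp

/-- Honest answers to the questions. -/
def dec (σ : ℕ → Bool) : Qn → Fin 3 → Bool
  | (some x, _) => fun _ => σ x
  | (none, none) => fun _ => false
  | (none, some c) => fun p => σ (cvar c p) == csgn c p

theorem complete {ψ : CNF3} (h : Sat ψ) :
    ∃ (F : List Cl → Fin n → A1) (G : ℕ → Fin n → Fin 3 → Bool), ∀ u ∈ tuples n ψ,
      ∀ ξ : Fin n → Md m, pj u ξ (F u) = G (al u ξ) := by
  classical
  obtain ⟨σ, hσ⟩ := h
  have hi : Function.Injective fun Q : Fin n → Qn => enc (List.ofFn Q) :=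
    fun Q Q' h => List.ofFn_injective (Enc.inj h)
  refine ⟨fun u i => if h : ∃ p, (σ (cvar (u.getD i default) p) ==
      csgn (u.getD i default) p) = true then ⟨_, h⟩ else default,
    Function.extend (fun Q : Fin n → Qn => enc (List.ofFn Q)) (fun Q i => dec σ (Q i))
      fun _ _ _ => false, fun u hu ξ => ?_⟩
  rw [al, hi.extend_apply]
  funext i
  obtain ⟨h1, h2⟩ := mem_tuples.1 hu
  have h3 : u.getD i default ∈ ψ := by
    rw [List.getD_eq_getElem _ _ (by rw [h1]; exact i.2)]
    exact h2 _ (List.getElem_mem _)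
  have h4 : ∃ p, (σ (cvar (u.getD i default) p) == csgn (u.getD i default) p) = true := by
    simpa using (clauseTrue_iff _ _).1 (hσ _ h3)
  simp only [pj, dif_pos h4]
  rcases ξ i with ⟨p, _ | _⟩ | j
  · simp only [p1, q1, dec]
    cases σ (cvar (u.getD i default) p) <;> cases csgn (u.getD i default) p <;> rfl
  · rfl
  · rfl

theorem base_val (ψ : CNF3) (hψ : ψ ≠ []) {α : ℝ}
    (hα : ∀ σ, (cnfCount ψ σ : ℝ) ≤ (1 - α) * ψ.length) (f : Cl → A1) (g : Qn → Fin 3 → Bool) :
    ∑ e : Fin ψ.length × Md m, (if p1 (csgn ψ[e.1]) e.2 (f ψ[e.1]) = g (q1 ψ[e.1] e.2) then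
      (if e.2.isLeft = true then 1 / (6 * ψ.length : ℝ) else 0) else 0) ≤ 1 - α / 6 := by
  have hN : (0 : ℝ) < ψ.length := by exact_mod_cast List.length_pos_iff.2 hψ
  have h1 := hα fun x => g (some x, none) 0
  rw [cnfCount, countP_eq_sum, sum_map_eq] at h1
  have key : ∀ c : Cl, ∑ v : Md m, (if p1 (csgn c) v (f c) = g (q1 c v) then
      (if v.isLeft = true then 1 / (6 * ψ.length : ℝ) else 0) else 0) ≤
      (5 + if clauseTrue (fun x => g (some x, none) 0) c = true then 1 else 0) *
        (1 / (6 * ψ.length : ℝ)) := by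
    intro c
    have hu : (0 : ℝ) ≤ 1 / (6 * ψ.length : ℝ) := by positivity
    generalize 1 / (6 * ψ.length : ℝ) = u at hu
    rw [Fintype.sum_sum_type]
    simp only [Sum.isLeft_inl, Sum.isLeft_inr, if_true, Bool.false_eq_true, if_false, ite_self,
      sum_const_zero, add_zero]
    rw [← sum_filter, sum_const, nsmul_eq_mul]
    refine mul_le_mul_of_nonneg_right ?_ hu
    have h6 : Fintype.card (Fin 3 × Bool) = 6 := by simp
    by_cases hc : clauseTrue (fun x => g (some x, none) 0) c = true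
    · rw [if_pos hc]
      have := card_le_univ (univ.filter fun v : Fin 3 × Bool =>
        p1 (m := m) (csgn c) (.inl v) (f c) = g (q1 (m := m) c (.inl v)))
      rw [h6] at this
      exact_mod_cast this
    · rw [if_neg hc]
      have h5 : (univ.filter fun v : Fin 3 × Bool =>
          p1 (m := m) (csgn c) (.inl v) (f c) = g (q1 (m := m) c (.inl v))).card < 6 := by
        rw [← h6]
        refine card_lt_card ⟨subset_univ _, fun h => ?_⟩
        obtain ⟨p, hp⟩ := (f c).2
        have h7 := congrFun (mem_filter.1 (h (mem_univ (p, false)))).2 0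
        refine hc ((clauseTrue_iff _ _).2 ⟨p, ?_⟩)
        simp only [p1, q1, hp] at h7
        rw [← h7]
        cases csgn c p <;> rfl
      have : (univ.filter fun v : Fin 3 × Bool =>
          p1 (m := m) (csgn c) (.inl v) (f c) = g (q1 (m := m) c (.inl v))).card ≤ 5 := by omega
      rw [add_zero]
      exact_mod_cast this
  rw [Fintype.sum_prod_type]
  refine (sum_le_sum fun j _ => key ψ[j]).trans ?_
  rw [← sum_mul, sum_add_distrib, sum_const, card_univ, Fintype.card_fin, nsmul_eq_mul,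
    mul_one_div, div_le_iff₀ (by positivity)]
  nlinarith

theorem null_half (ψ : CNF3) (u : ℝ) (v : Cl) :
    ∑ e : Fin ψ.length × Md m, (if ψ[e.1] = v ∧ q1 ψ[e.1] e.2 = (none, none) then
      (if e.2.isLeft = true then u else 0) else 0) =
      (1 / 2) * ∑ e : Fin ψ.length × Md m,
        (if ψ[e.1] = v then (if e.2.isLeft = true then u else 0) else 0) := by
  rw [Fintype.sum_prod_type, Fintype.sum_prod_type, mul_sum]
  have key : ∀ c : Cl, ∑ x : Md m, (if c = v ∧ q1 c x = (none, none) then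
      (if x.isLeft = true then u else 0) else 0) =
      (1 / 2) * ∑ x : Md m, (if c = v then (if x.isLeft = true then u else 0) else 0) := by
    intro c
    by_cases h : c = v
    · simp [h, q1, Fintype.sum_prod_type]
      ring
    · simp [h]
  exact sum_congr rfl fun j _ => key ψ[j]

theorem rep_val (hP : ParRep) (ψ : CNF3) (hψ : ψ ≠ []) {α : ℝ} (h0 : 0 ≤ α) (h1 : α ≤ 1)
    (hα : ∀ σ, (cnfCount ψ σ : ℝ) ≤ (1 - α) * ψ.length)
    (F : (Fin n → Cl) → Fin n → A1) (G : (Fin n → Qn) → Fin n → Fin 3 → Bool) :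
    (𝔼 e : (Fin n → Fin ψ.length) × (Fin n → Md m),
      ind ((fun i => p1 (csgn ψ[e.1 i]) (e.2 i) (F (fun j => ψ[e.1 j]) i)) =
        G (fun j => q1 ψ[e.1 j] (e.2 j)))) ^ 2 ≤ (1 - 6 / (6 + m) * (α / 6) ^ 2 / 16) ^ n := by
  have hN : (0 : ℝ) < ψ.length := by exact_mod_cast List.length_pos_iff.2 hψ
  have hs : ∑ _e : Fin ψ.length × Md m, 1 / ((6 + m) * ψ.length : ℝ) = 1 := by
    simp
    field_simp
  have hs0 : ∑ e : Fin ψ.length × Md m,
      (if e.2.isLeft = true then 1 / (6 * ψ.length : ℝ) else 0) = 1 := by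
    simp [Fintype.sum_prod_type]
    field_simp
  have h := hP (Fin ψ.length × Md m) Cl Qn (Fin 3 → Bool) A1 (fun e => ψ[e.1])
    (fun e => q1 ψ[e.1] e.2) (fun e b => some (p1 (csgn ψ[e.1]) e.2 b))
    (fun _ => 1 / ((6 + m) * ψ.length : ℝ))
    (fun e => if e.2.isLeft = true then 1 / (6 * ψ.length : ℝ) else 0) (6 / (6 + m)) (α / 6)
    (none, none) (fun _ => by positivity) hs0 hs (by positivity)
    (fun e => by
      split_ifs
      · exact le_of_eq (by field_simp)
      · rw [mul_zero]; positivity)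
    (fun v => by
      refine Eq.trans (sum_congr rfl fun e _ => ite_iff Iff.rfl rfl rfl)
        ((null_half ψ _ v).trans ?_)
      exact congrArg _ (sum_congr rfl fun e _ => ite_iff Iff.rfl rfl rfl))
    (by positivity) (by linarith)
    (fun f g => le_trans (sum_le_sum fun e _ => (ite_iff Option.some_inj rfl rfl).le)
      (base_val ψ hψ hα f g)) n F G
  refine le_trans (le_of_eq ?_) h
  refine congrArg (· ^ 2) ?_
  rw [expect_eq_sum_div_card, sum_div]
  refine Fintype.sum_equiv (Equiv.arrowProdEquivProdArrow _ _ _).symm _ _ fun e => ?_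
  rw [ind, ite_div, zero_div]
  refine ite_iff ?_ ?_ rfl
  · simp only [Equiv.arrowProdEquivProdArrow_symm_apply, Option.some.injEq]
    exact funext_iff
  · simp [mul_pow, mul_comm]

theorem sound (hP : ParRep) (ψ : CNF3) (hψ : ψ ≠ []) {α : ℝ} (h0 : 0 ≤ α) (h1 : α ≤ 1)
    (hα : ∀ σ, (cnfCount ψ σ : ℝ) ≤ (1 - α) * ψ.length) {ε : ℝ} (hε : 0 < ε)
    (hn : (1 - 6 / (6 + m) * (α / 6) ^ 2 / 16) ^ n ≤ ε ^ 2)
    (F : Fin (tuples n ψ).length → Fin n → A1) (G : ℕ → Fin n → Fin 3 → Bool) :
    𝔼 u : Fin (tuples n ψ).length, 𝔼 ξ : Fin n → Md m,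
      ind (pj (tuples n ψ)[u] ξ (F u) = G (al (tuples n ψ)[u] ξ)) ≤ ε := by
  choose F' _ hF' using fun u : List Cl => exists_max_image (univ : Finset (Fin n → A1))
    (fun a => 𝔼 ξ : Fin n → Md m, ind (pj u ξ a = G (al u ξ))) univ_nonempty
  refine (expect_le_expect fun u _ => hF' _ (F u) (mem_univ _)).trans ?_
  have h2 := (rep_val (m := m) hP ψ hψ h0 h1 hα (fun W => F' (List.ofFn W))
    fun Q => G (enc (List.ofFn Q))).trans hn
  refine le_trans (le_of_eq ?_) (abs_le_of_sq_le_sq' h2 hε.le).2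
  rw [Fou.expect_prod_type, Fintype.expect_eq_sum_div_card,
    Fintype.expect_eq_sum_div_card (ι := Fin n → Fin ψ.length),
    ← sum_map_eq (tuples n ψ) fun u => 𝔼 ξ : Fin n → Md m, ind (pj u ξ (F' u) = G (al u ξ)),
    sum_tuples, Fintype.card_fin, length_tuples, Fintype.card_fun, Fintype.card_fin,
    Fintype.card_fin]
  congr 1
  refine sum_congr rfl fun u _ => expect_congr rfl fun ξ _ => ind_congr ?_
  have e : ∀ i : Fin n, (List.ofFn fun i => ψ[u i]).getD i default = ψ[u i] := fun i => by simp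
  unfold pj al
  simp only [e]

end Sm

theorem smooth_of (hP : PCPThm) (hR : ParRep) : SmoothThm := by
  intro ζ ε hζ hε
  obtain ⟨α, hα, f, hf, h⟩ := hP
  obtain ⟨m, hm⟩ := exists_nat_ge (6 / ζ)
  have hm0 : 0 < min α 1 := lt_min hα one_pos
  have hm1 : min α 1 ≤ 1 := min_le_right _ _
  obtain ⟨n, hn⟩ := exists_pow_lt_of_lt_one (x := ε ^ 2)
    (y := 1 - 6 / (6 + m) * (min α 1 / 6) ^ 2 / 16) (by positivity) (by
      have : 0 < 6 / (6 + m) * (min α 1 / 6) ^ 2 / 16 := by positivity
      linarith)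
  refine ⟨Fin n → Sm.Md m, Fin n → Sm.A1, Fin n → Fin 3 → Bool, inferInstance, inferInstance,
    inferInstance, inferInstance, inferInstance, inferInstance, inferInstance, inferInstance,
    fun φ => tuples n (f φ), Sm.al, Sm.pj, pt_tuples n hf, Sm.pt_al, Sm.pt_pj,
    fun u ξ u' ξ' h => ?_, fun u a a' h => (Sm.smooth u h).trans ?_, fun φ => ?_⟩
  · rw [Sm.range_pj, Sm.range_pj]
    simp only [Sm.al_inj h]
  · rw [div_le_iff₀ hζ] at hm
    rw [div_le_iff₀ (by positivity)]
    nlinarith
  · obtain ⟨h1, h2, h3⟩ := h φ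
    refine ⟨?_, fun hs => Sm.complete (h2 hs), fun hs F G => ?_⟩
    · rw [← List.length_pos_iff, length_tuples]
      exact pow_pos (List.length_pos_iff.2 h1) _
    · refine Sm.sound hR _ h1 hm0.le hm1 (fun τ => (h3 hs τ).trans ?_) hε hn.le F G
      exact mul_le_mul_of_nonneg_right (by linarith [min_le_left α 1]) (by positivity)

end Vale.Agent.P342
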