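import Vale.Agent.P342.Lin

/-! The large spectrum. -/

set_option linter.unusedSectionVars false

namespace Vale.Agent.P342

open Vale.Agent.P325 Vale.Agent.Lib.PolyTime Finset Matrix Module
open scoped BigOperators

section

variable {J X : Type} [Fintype J] [DecidableEq J] [Fintype X] [DecidableEq X]

open Classical in
/-- Matrices all of whose rows lie in `D`. -/
noncomputable def rowsIn (D : Sub X) : Finset (Mat J X) := univ.filter fun S => ∀ j, S j ∈ D

theorem mem_rowsIn {D : Sub X} {S : Mat J X} : S ∈ rowsIn D ↔ ∀ j, S j ∈ D := by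
  simp [rowsIn]

theorem card_rowsIn (D : Sub X) :
    (rowsIn D : Finset (Mat J X)).card = 2 ^ (Fintype.card J * finrank F2 D) := by
  classical
  have h : (rowsIn D : Finset (Mat J X)) =
      Fintype.piFinset fun _ : J => univ.filter fun v : X → F2 => v ∈ D := by
    ext N
    rw [mem_rowsIn]
    refine Iff.trans ?_ Fintype.mem_piFinset.symm
    simp
  have h2 : (univ.filter fun v : X → F2 => v ∈ D).card = 2 ^ finrank F2 D := by
    rw [← card_sub D, Nat.card_eq_fintype_card, Fintype.card_subtype]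
  rw [h]
  refine (Fintype.card_piFinset _).trans ?_
  rw [prod_const, h2, card_univ, ← pow_mul, mul_comm]

theorem abs_sg_le (a : F2) : |sg a| ≤ 1 := by
  rcases Fou.zmod2 a with rfl | rfl <;> simp [sg]

theorem expect_box_sg (D : Sub X) (S : Mat J X) :
    𝔼 N ∈ box ⊥ D, sg (pair S N) = ind (S ∈ rowsIn D) := by
  by_cases h : S ∈ rowsIn D
  · rw [ind_of h]
    have h1 : ∀ N ∈ box (⊥ : Sub J) D, sg (pair S N) = 1 := fun N hN => by
      have : pair S N = 0 := sum_eq_zero fun j _ => by
        rw [dotProduct_comm]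
        exact mem_ann.1 (mem_box_bot_iff_rows.1 hN j) _ (mem_rowsIn.1 h j)
      rw [this]
      simp [sg]
    rw [expect_congr rfl h1, expect_const (box_nonempty _ _)]
  · rw [ind_of_not h]
    rw [mem_rowsIn, not_forall] at h
    obtain ⟨j, hj⟩ := h
    obtain ⟨a, ha, h1⟩ := exists_dot_of_notMem hj
    have hT := vecMulVec_mem_box (J := J) (Pi.single j 1) ha
    have h2 := expect_box_shift hT fun N => sg (pair S N)
    have h3 : pair S (vecMulVec (Pi.single j 1) a) = 1 := by
      rw [pair_vecMulVec, single_one_vecMul, dotProduct_comm]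
      exact h1
    have h4 : sg (1 : F2) = -1 := by simp [sg]
    simp only [pair_add_right, Fou.sg_add, h3, h4, neg_one_mul, expect_neg_distrib] at h2
    linarith

theorem expect_box_eq (g : Mat J X → ℝ) (D : Sub X) (N1 : Mat J X) :
    𝔼 N ∈ box ⊥ D, g (N1 + N) = ∑ S ∈ rowsIn D, coefM g S * sg (pair S N1) := by
  classical
  have h : ∀ N, g (N1 + N) = ∑ S, coefM g S * sg (pair S N1) * sg (pair S N) := fun N => by
    conv_lhs => rw [← synth_coefM g]
    simp only [synth, pair_add_right, Fou.sg_add, mul_assoc]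
  simp only [h]
  rw [expect_sum_comm]
  simp only [← mul_expect, expect_box_sg, ind_eq_ite, mul_ite, mul_one, mul_zero]
  rw [← sum_filter]
  exact sum_congr (by ext S; simp) fun _ _ => rfl

end

theorem specAtomThm : SpecAtomThm := by
  classical
  intro J X _ _ _ _ g D N1 η hη
  let D' : Sub X := Submodule.span F2
    {v | ∃ S : Mat J X, S ∈ rowsIn D ∧ η ≤ |coefM g S| ∧ ∃ j, v = S j}
  have hD : D' ≤ D := Submodule.span_le.2 fun v ⟨S, hS, _, j, hj⟩ => by
    rw [hj]
    exact mem_rowsIn.1 hS j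
  refine ⟨D', hD, Submodule.span_mono fun v ⟨S, _, h1, h2⟩ => ⟨S, h1, h2⟩, ?_⟩
  have hsub : (rowsIn D' : Finset (Mat J X)) ⊆ rowsIn D := fun S hS =>
    mem_rowsIn.2 fun j => hD (mem_rowsIn.1 hS j)
  rw [expect_box_eq, expect_box_eq, ← sum_sdiff hsub]
  have h1 : ∑ S ∈ rowsIn D \ rowsIn D', coefM g S * sg (pair S N1) ≤
      ∑ S ∈ (rowsIn D \ rowsIn D' : Finset (Mat J X)), η := by
    refine sum_le_sum fun S hS => ?_
    obtain ⟨h2, h3⟩ := mem_sdiff.1 hS
    have h4 : |coefM g S| < η := by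
      by_contra h5
      exact h3 (mem_rowsIn.2 fun j => Submodule.subset_span ⟨S, h2, not_lt.1 h5, j, rfl⟩)
    refine (le_abs_self _).trans ?_
    rw [abs_mul]
    exact (mul_le_of_le_one_right (abs_nonneg _) (abs_sg_le _)).trans h4.le
  have h2 : ((rowsIn D \ rowsIn D' : Finset (Mat J X)).card : ℝ) ≤
      2 ^ (Fintype.card J * finrank F2 D) := by
    have := card_le_card (sdiff_subset (s := (rowsIn D : Finset (Mat J X))) (t := rowsIn D'))
    rw [card_rowsIn] at this
    exact_mod_cast this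
  rw [sum_const, nsmul_eq_mul] at h1
  have h3 := mul_le_mul_of_nonneg_right h2 hη
  linarith

theorem specCardThm : SpecCardThm := by
  classical
  intro J X _ _ _ _ g η hη hg
  let Lg : Finset (Mat J X) := univ.filter fun S => η ≤ |coefM g S|
  have h1 : (Lg.card : ℝ) * η ^ 2 ≤ 1 := by
    have h2 : ∑ S ∈ Lg, η ^ 2 ≤ ∑ S ∈ Lg, coefM g S ^ 2 := sum_le_sum fun S hS => by
      have := (mem_filter.1 hS).2
      rw [← sq_abs (coefM g S)]
      exact pow_le_pow_left₀ hη.le this 2
    have h3 : ∑ S ∈ Lg, coefM g S ^ 2 ≤ ∑ S, coefM g S ^ 2 :=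
      sum_le_univ_sum_of_nonneg fun S => sq_nonneg _
    have h4 : 𝔼 N, g N ^ 2 ≤ 1 := expect_le univ_nonempty fun N _ => by
      rw [← sq_abs]
      exact pow_le_one₀ (abs_nonneg _) (hg N)
    rw [sum_const, nsmul_eq_mul] at h2
    rw [parsevalM] at h4
    linarith
  have h2 : Lg.card ≤ ⌈1 / η ^ 2⌉₊ := by
    have h3 : (Lg.card : ℝ) ≤ 1 / η ^ 2 := (le_div_iff₀ (by positivity)).2 h1
    exact_mod_cast h3.trans (Nat.le_ceil _)
  have h3 : spec η g ≤ Submodule.span F2
      ((((univ : Finset J) ×ˢ Lg).image fun p : J × Mat J X => (p.2 p.1 : X → F2) :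
        Finset (X → F2)) : Set (X → F2)) := by
    refine Submodule.span_mono ?_
    rintro v ⟨S, hS, j, hj⟩
    have hS' : S ∈ Lg := mem_filter.2 ⟨mem_univ _, hS⟩
    rw [mem_coe, mem_image]
    exact ⟨(j, S), mem_product.2 ⟨mem_univ _, hS'⟩, hj.symm⟩
  refine (Submodule.finrank_mono h3).trans ?_
  refine (finrank_span_finset_le_card _).trans (card_image_le.trans ?_)
  rw [card_product, card_univ]
  exact Nat.mul_le_mul_left _ h2

end Vale.Agent.P342
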