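import Vale.Agent.P325.StDefs

/-! Definitions used in the statement of the approximate colouring theorem. -/

namespace Vale.Agent.P342

/-- The finite simple graph given by a list of edges.  Its vertices are the natural numbers that
occur as endpoints in the list. -/
def graphOf (E : List (ℕ × ℕ)) : SimpleGraph {v : ℕ // ∃ e ∈ E, v = e.1 ∨ v = e.2} :=
  SimpleGraph.fromRel fun a b => (a.1, b.1) ∈ E

/-- A list of edges as a list of naturals, two for each edge. -/
def natsE (E : List (ℕ × ℕ)) : List ℕ := E.flatMap fun e => [e.1, e.2]

end Vale.Agent.P342
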