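import Vale.Agent.P342.Basic

/-! The terminal lemma. -/

namespace Vale.Agent.P342

open Vale.Agent.P325 Vale.Agent.Lib.PolyTime Finset Matrix Module
open scoped BigOperators

namespace Te

section
variable {J X : Type} [Fintype J] [DecidableEq J] [Fintype X] [DecidableEq X]

/-- Restriction of data to the graph of `σ`. -/
def rho (σ : X → F2) : Mat J (X × F2) →+ Mat J X where
  toFun N := Matrix.of fun j x => N j (x, σ x)
  map_zero' := rfl
  map_add' _ _ := rfl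

/-- Restriction of a vector to the graph of `σ`. -/
def gr (σ : X → F2) : (X × F2 → F2) →+ (X → F2) where
  toFun y := fun x => y (x, σ x)
  map_zero' := rfl
  map_add' _ _ := rfl

/-- Extension by zero from the graph of `σ`. -/
def lift (σ : X → F2) : (X → F2) →ₗ[F2] (X × F2 → F2) where
  toFun d := fun p => if p.2 = σ p.1 then d p.1 else 0
  map_add' d d' := by
    funext p
    by_cases h : p.2 = σ p.1 <;> simp [h]
  map_smul' a d := by
    funext p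
    by_cases h : p.2 = σ p.1 <;> simp [h]

/-- Data that do not depend on the extra bit. -/
def up (N : Mat J X) : Mat J (X × F2) := Matrix.of fun j p => N j p.1

omit [DecidableEq X] in
theorem dot_lift (σ : X → F2) (y : X × F2 → F2) (d : X → F2) :
    y ⬝ᵥ lift σ d = gr σ y ⬝ᵥ d := by
  simp [dotProduct, Fintype.sum_prod_type, lift, gr]

omit [Fintype J] [DecidableEq J] [DecidableEq X] in
theorem mulVec_lift (σ : X → F2) (N : Mat J (X × F2)) (d : X → F2) :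
    N *ᵥ lift σ d = rho σ N *ᵥ d := funext fun j => dot_lift σ (N j) d

theorem expect_rho (σ : X → F2) (D : Sub X) (f : Mat J X → ℝ) :
    𝔼 N ∈ box ⊥ (D.map (lift σ)), f (rho σ N) = 𝔼 N ∈ box ⊥ D, f N := by
  refine expect_hom (rho σ) add_mem_box neg_mem_box (box_nonempty _ _) (fun N hN => ?_)
    (fun N hN => ⟨up N, ?_, rfl⟩) f
  · exact mem_box_bot.2 fun d hd => by
      rw [← mulVec_lift]; exact mem_box_bot.1 hN _ ⟨d, hd, rfl⟩
  · refine mem_box_bot.2 ?_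
    rintro _ ⟨d, hd, rfl⟩
    rw [mulVec_lift]
    exact mem_box_bot.1 hN d hd

theorem expect_gr (σ : X → F2) (D : Sub X) (f : (X → F2) → ℝ) :
    𝔼 y ∈ ann (D.map (lift σ)), f (gr σ y) = 𝔼 y ∈ ann D, f y := by
  refine expect_hom (gr σ) add_mem_ann neg_mem_ann (ann_nonempty _) (fun y hy => ?_)
    (fun y hy => ⟨fun p => y p.1, ?_, rfl⟩) f
  · exact mem_ann.2 fun d hd => by
      rw [← dot_lift]; exact mem_ann.1 hy _ ⟨d, hd, rfl⟩
  · refine mem_ann.2 ?_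
    rintro _ ⟨d, hd, rfl⟩
    rw [dot_lift]
    exact mem_ann.1 hy d hd

omit [Fintype J] [DecidableEq J] in
theorem lineAvg_lift (σ : X → F2) (D : Sub X) (V : Mat J X) (g : Mat J X → ℝ) (a : J → F2)
    (N : Mat J (X × F2)) :
    lineAvg (fun P => g (rho σ P + V)) (D.map (lift σ)) a N = lineAvg g D a (rho σ N + V) := by
  rw [lineAvg, lineAvg, ← expect_gr σ D]
  refine expect_congr rfl fun y _ => ?_
  rw [map_add, add_right_comm]
  rfl

open Classical in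
theorem atom_lift {Λ : Type} (σ : X → F2) {ψ : J → F2} {D : Sub X} {N1 : Mat J X}
    {Y : Finset (Mat J X)} {L : Mat J X → Finset Λ} {s : Finset Λ} {η δ : ℝ} (V : Mat J X)
    (N1' : Mat J (X × F2)) (hN : rho σ N1' + V = N1) (L' : Mat J (X × F2) → Finset Λ)
    (s' : Finset Λ) (u : Λ → Λ) (hL : ∀ N z, z ∈ L' N ↔ u z ∈ L (rho σ N + V))
    (hs : ∀ z, z ∉ s' → u z ∉ s) (h : Atom ψ D N1 Y L s η δ) :
    Atom ψ (D.map (lift σ)) N1' (univ.filter fun N => rho σ N + V ∈ Y) L' s' η δ := by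
  have hτ : ∀ N, rho σ (N1' + N) + V = N1 + rho σ N := fun N => by
    rw [map_add, add_right_comm, hN]
  refine ⟨?_, ?_, fun z hz => ?_⟩
  · rintro N hY _ ⟨d, hd, rfl⟩
    have h1 := h.1 _ (mem_filter.1 hY).2 d hd
    rw [← hN, add_mulVec, add_mulVec] at h1
    rw [mulVec_lift, mulVec_lift]
    exact add_right_cancel h1
  · refine h.2.1.trans (le_of_eq ?_)
    rw [← expect_rho σ D]
    refine expect_congr rfl fun N _ => ind_congr ?_
    simp only [mem_filter, mem_univ, true_and, hτ]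
  · have h1 : (fun P => ind (P ∈ (univ.filter fun N => rho σ N + V ∈ Y) ∧ z ∈ L' P)) =
        fun P => (fun P => ind (P ∈ Y ∧ u z ∈ L P)) (rho σ P + V) := by
      funext P
      refine ind_congr ?_
      simp only [mem_filter, mem_univ, true_and, hL]
    have h2 := h.2.2 _ (hs z hz)
    rw [← expect_rho σ D] at h2
    simp only [← expect_rho σ D fun N => lineAvg (fun P => ind (P ∈ Y ∧ u z ∈ L P)) D _
      (N1 + N) ^ 2] at h2
    rw [h1]
    simp only [lineAvg_lift σ D V fun P => ind (P ∈ Y ∧ u z ∈ L P), hτ]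
    refine h2.trans (le_of_eq ?_)
    congr 1
    refine expect_congr rfl fun N _ => ind_congr ?_
    simp only [mem_filter, mem_univ, true_and, hL, hτ]

/-- The event that an atom refines a given atom. -/
def Ev {Ω : Type} (T : Ω → Prop) (D : Ω → Sub X) (N : Ω → Mat J X) (D0 : Sub X) (M0 : Mat J X)
    (ω : Ω) : Prop :=
  T ω ∧ D0 ≤ D ω ∧ ∀ d ∈ D0, N ω *ᵥ d = M0 *ᵥ d

omit [DecidableEq X] in
theorem popular {Ω : Type} [Fintype Ω] [Nonempty Ω] (T : Ω → Prop) (D : Ω → Sub X)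
    (N : Ω → Mat J X) {r : ℕ} {α b g : ℝ} (hα : 0 < α) (hb : 0 < b) (hb1 : b ≤ 1)
    (hg : b * 2 ^ Fintype.card J ≤ g) (hT : α ≤ 𝔼 ω, ind (T ω))
    (hD : ∀ ω, T ω → finrank F2 (D ω) ≤ r) :
    ∃ (D0 : Sub X) (M0 : Mat J X), α * b ^ r ≤ 𝔼 ω, ind (Ev T D N D0 M0 ω) ∧
      ∀ d, d ∉ D0 → 𝔼 ω, ind (Ev T D N D0 M0 ω ∧ d ∈ D ω) ≤ g * 𝔼 ω, ind (Ev T D N D0 M0 ω) := by
  let Pop : ℕ → Prop := fun m => ∃ (D0 : Sub X) (M0 : Mat J X), finrank F2 D0 = m ∧
    α * b ^ m ≤ 𝔼 ω, ind (Ev T D N D0 M0 ω)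
  have P0 : Pop 0 := ⟨⊥, 0, finrank_bot _ _, by simpa [Ev] using hT⟩
  have P1 : ∀ m, Pop m → m ≤ r := by
    rintro m ⟨D0, M0, h1, h2⟩
    obtain ⟨ω, -, hω⟩ := exists_of_expect_ind_pos (lt_of_lt_of_le (by positivity) h2)
    exact h1 ▸ (Submodule.finrank_mono hω.2.1).trans (hD ω hω.1)
  obtain ⟨m, ⟨D0, M0, h1, h2⟩, Pn⟩ : ∃ m, Pop m ∧ ¬ Pop (m + 1) := by
    by_contra hn
    have : ∀ m, Pop m := fun m => by
      induction m with
      | zero => exact P0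
      | succ m ih =>
        by_contra h2
        exact hn ⟨m, ih, h2⟩
    have := P1 _ (this (r + 1))
    omega
  have hm := P1 m ⟨D0, M0, h1, h2⟩
  refine ⟨D0, M0, le_trans (mul_le_mul_of_nonneg_left (pow_le_pow_of_le_one hb.le hb1 hm) hα.le)
    h2, fun d hd => ?_⟩
  have h3 : ∀ v : J → F2, 𝔼 ω, ind ((Ev T D N D0 M0 ω ∧ d ∈ D ω) ∧ N ω *ᵥ d = v) ≤
      b * 𝔼 ω, ind (Ev T D N D0 M0 ω) := fun v => by
    by_contra hc
    rw [not_le] at hc
    have h4 : α * b ^ (m + 1) < 𝔼 ω, ind ((Ev T D N D0 M0 ω ∧ d ∈ D ω) ∧ N ω *ᵥ d = v) := by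
      refine lt_of_le_of_lt ?_ hc
      rw [pow_succ, ← mul_assoc, mul_comm]
      exact mul_le_mul_of_nonneg_left h2 hb.le
    obtain ⟨ω0, -, h0⟩ := exists_of_expect_ind_pos (lt_trans (by positivity) h4)
    refine Pn ⟨D0 ⊔ Submodule.span F2 {d}, N ω0, ?_, h4.le.trans
      (expect_le_expect fun ω _ => ind_mono fun h5 => ⟨h5.1.1.1, sup_le h5.1.1.2.1
        ((Submodule.span_singleton_le_iff_mem _ _).2 h5.1.2), fun d' hd' => ?_⟩)⟩
    · rw [Submodule.finrank_sup_span_singleton hd, h1]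
    · obtain ⟨d0, hd0, d1, hd1, rfl⟩ := Submodule.mem_sup.1 hd'
      obtain ⟨a, rfl⟩ := Submodule.mem_span_singleton.1 hd1
      rw [mulVec_add, mulVec_add, mulVec_smul, mulVec_smul, h5.1.1.2.2 d0 hd0, h0.1.1.2.2 d0 hd0,
        h5.2, h0.2]
  calc 𝔼 ω, ind (Ev T D N D0 M0 ω ∧ d ∈ D ω)
      ≤ 𝔼 ω, ∑ v : J → F2, ind ((Ev T D N D0 M0 ω ∧ d ∈ D ω) ∧ N ω *ᵥ d = v) :=
        expect_le_expect fun ω _ => (ind_mono fun h5 => ⟨_, h5, rfl⟩).trans (ind_exists_le _)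
    _ ≤ ∑ _v : J → F2, b * 𝔼 ω, ind (Ev T D N D0 M0 ω) := by
        rw [expect_sum_comm]
        exact sum_le_sum fun v _ => h3 v
    _ ≤ g * 𝔼 ω, ind (Ev T D N D0 M0 ω) := by
        rw [sum_const, nsmul_eq_mul, ← mul_assoc]
        refine mul_le_mul_of_nonneg_right (le_trans (le_of_eq ?_) hg) (expect_ind_nonneg _ _)
        simp [mul_comm]

end

theorem cond {Ω : Type} [Fintype Ω] (O p : Ω → Prop) [DecidablePred O] :
    (𝔼 ω : {ω // O ω}, ind (p ω)) * 𝔼 ω, ind (O ω) = 𝔼 ω, ind (O ω ∧ p ω) := by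
  have h1 : ∀ q : Ω → Prop, ∑ ω, ind (O ω ∧ q ω) = ∑ ω : {ω // O ω}, ind (q ω) := fun q => by
    rw [← sum_subtype (univ.filter O) (by simp) fun ω => ind (q ω), sum_filter]
    refine sum_congr rfl fun ω _ => ?_
    by_cases h : O ω <;> simp [h]
  have h2 := h1 fun _ => True
  simp only [and_true, ind_true, sum_const, card_univ, nsmul_eq_mul, mul_one] at h2
  simp only [Fintype.expect_eq_sum_div_card, h1, h2]
  rcases isEmpty_or_nonempty {ω // O ω} with h | h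
  · simp
  · have : (Fintype.card {ω // O ω} : ℝ) ≠ 0 := by exact_mod_cast Fintype.card_ne_zero
    field_simp

theorem coinc {J Λ : Type} [Fintype J] [DecidableEq J] [DecidableEq Λ] [AddCommGroup Λ]
    {ψ : J → F2} (hψ : ψ ≠ 0) (e : (J → F2) →+ Λ) (he : Function.Injective e) (s : Finset Λ)
    {t : ℕ} (hs : s.card ≤ t) (w : Λ) :
    𝔼 c : {c : J → F2 // ψ ⬝ᵥ c = 0}, ind (∃ z ∈ s.image (· + w), z ∈ s.image (· + e c)) ≤
      2 * (t : ℝ) ^ 2 / 2 ^ Fintype.card J := by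
  classical
  have h0 : 2 * (Fintype.card {c : J → F2 // ψ ⬝ᵥ c = 0} : ℝ) = 2 ^ Fintype.card J := by
    rw [Fintype.card_subtype]
    exact_mod_cast two_mul_card_dot hψ 0
  have h1 : ∀ z : Λ, ∑ c : {c : J → F2 // ψ ⬝ᵥ c = 0}, ind (e c = z) ≤ 1 := fun z => by
    rw [sum_ind_eq_card]
    have h4 : (univ.filter fun c : {c : J → F2 // ψ ⬝ᵥ c = 0} => e c = z).card ≤ 1 :=
      card_le_one.2 fun a ha b hb =>
        Subtype.ext (he ((mem_filter.1 ha).2.trans (mem_filter.1 hb).2.symm))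
    exact_mod_cast h4
  have h2 : ∑ c : {c : J → F2 // ψ ⬝ᵥ c = 0},
      ind (∃ z ∈ s.image (· + w), z ∈ s.image (· + e c)) ≤ (t : ℝ) ^ 2 := by
    calc _ ≤ ∑ c : {c : J → F2 // ψ ⬝ᵥ c = 0}, ∑ p ∈ s ×ˢ s, ind (e c = p.1 + w - p.2) := by
          refine sum_le_sum fun c _ => (ind_mono ?_).trans (ind_exists_mem_le _ _)
          rintro ⟨z, hz, hz'⟩
          obtain ⟨z1, hz1, rfl⟩ := mem_image.1 hz
          obtain ⟨z2, hz2, h⟩ := mem_image.1 hz'
          exact ⟨(z1, z2), mem_product.2 ⟨hz1, hz2⟩, by rw [← h]; simp⟩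
      _ ≤ ∑ _p ∈ s ×ˢ s, (1 : ℝ) := by
          rw [sum_comm]
          exact sum_le_sum fun p _ => h1 _
      _ ≤ (t : ℝ) ^ 2 := by
          rw [sum_const, nsmul_eq_mul, mul_one, card_product, sq]
          exact_mod_cast Nat.mul_le_mul hs hs
  have h3 : (0 : ℝ) < 2 ^ Fintype.card J := by positivity
  rw [Fintype.expect_eq_sum_div_card, ← h0, mul_div_mul_left _ _ two_ne_zero]
  exact div_le_div_of_nonneg_right h2 (by linarith)

theorem odd_rare {X Ω : Type} [Fintype X] [DecidableEq X] [Fintype Ω] (β : X → F2)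
    (σ : Ω → X → F2) (D : Ω → Sub X) (T : Ω → Prop) {n : ℕ} {γ : ℝ}
    (h1 : ∀ (R : Finset X) (v : X → F2), (∀ x ∈ R, β x = 1) → n ≤ R.card →
      𝔼 ω, ind (∀ x ∈ R, σ ω x = v x) ≤ γ)
    (h2 : ∀ d : X → F2, β ⬝ᵥ d = 1 → (univ.filter fun x => β x = 1 ∧ d x = 1).card ≤ n →
      𝔼 ω, ind (T ω ∧ d ∈ D ω) ≤ γ)
    (d : X × F2 → F2) (hd : (fun p : X × F2 => β p.1) ⬝ᵥ d = 1) :
    𝔼 ω, ind (T ω ∧ d ∈ (D ω).map (lift (σ ω))) ≤ γ := by
  have hl : ∀ (τ d' : X → F2) (x : X), lift τ d' (x, 0) + lift τ d' (x, 1) = d' x :=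
    fun τ d' x => by rcases Fou.zmod2 (τ x) with h | h <;> simp [lift, h]
  have hu : (univ : Finset F2) = {0, 1} := by decide
  have hβ : β ⬝ᵥ (fun x => d (x, 0) + d (x, 1)) = 1 := by
    refine Eq.trans ?_ hd
    simp only [dotProduct, Fintype.sum_prod_type, hu, mul_add]
    exact sum_congr rfl fun x _ => (sum_pair (f := fun u => β x * d (x, u)) zero_ne_one).symm
  by_cases hn : (univ.filter fun x => β x = 1 ∧ d (x, 0) + d (x, 1) = 1).card ≤ n
  · refine le_trans (expect_le_expect fun ω _ => ind_mono ?_) (h2 _ hβ hn)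
    rintro ⟨hT, d', hd', rfl⟩
    refine ⟨hT, ?_⟩
    simp only [hl]
    exact hd'
  · refine le_trans (expect_le_expect fun ω _ => ind_mono ?_)
      (h1 _ (fun x => d (x, 1)) (fun x hx => (mem_filter.1 hx).2.1) (not_le.1 hn).le)
    rintro ⟨-, d', -, rfl⟩ x hx
    have h3 := (mem_filter.1 hx).2.2
    rw [hl] at h3
    rcases Fou.zmod2 (σ ω x) with h | h <;> simp [lift, h, h3]

end Te

open Te in
theorem term_of (h : MixThm) : TermThm := by
  classical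
  intro t r mm η0 α hη0 hα
  set ϑ : ℝ := min 1 (η0 ^ 2 / (4 * (4 * t + 1))) with hϑ
  have hϑ0 : 0 < ϑ := lt_min one_pos (by positivity)
  have hϑ1 : ϑ ≤ 1 := min_le_left _ _
  have hϑ2 : ϑ * (4 * (4 * t + 1)) ≤ η0 ^ 2 :=
    (le_div_iff₀ (by positivity)).1 (min_le_right _ _)
  set g : ℝ := ϑ ^ 2 / (2 ^ r * 2 ^ (mm * r)) with hg
  have hg0 : 0 < g := by positivity
  have hg1 : g ≤ 1 := by
    rw [hg, div_le_one (by positivity)]
    exact (pow_le_one₀ hϑ0.le hϑ1).trans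
      (one_le_mul_of_one_le_of_one_le (one_le_pow₀ one_le_two) (one_le_pow₀ one_le_two))
  set b : ℝ := g / 2 ^ mm with hb
  have hb0 : 0 < b := by positivity
  have hb1 : b ≤ 1 := (div_le_self hg0.le (one_le_pow₀ one_le_two)).trans hg1
  refine ⟨α * b ^ r / 2, by positivity, ?_⟩
  intro J X Ω C Λ _ _ _ _ _ _ _ _ _ ψ β σ e lb j0 s η δ n D T hψ hJ he hη hδ hs hsm hL hsh hedge
    hR hT hterm
  by_contra hcon
  have hU := odd_rare β σ D T hR fun d h1 h2 => (not_le.1 fun h3 => hcon ⟨d, h1, h2, h3⟩).le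
  have hch : ∀ ω, ∃ (N1 : Mat J X) (Y : Finset (Mat J X)), T ω → (∀ N ∈ Y, (lb ω N).1 = j0) ∧
      Atom ψ (D ω) N1 Y (fun N => (lb ω N).2) s η δ := fun ω => by
    by_cases hω : T ω
    · obtain ⟨N1, Y, h1⟩ := (hterm ω hω).2
      exact ⟨N1, Y, fun _ => h1⟩
    · exact ⟨0, ∅, fun h1 => absurd h1 hω⟩
  choose N1 Y hY using hch
  have hrk : ∀ ω, T ω → finrank F2 ((D ω).map (lift (σ ω))) ≤ r := fun ω hω =>
    (Submodule.finrank_map_le _ _).trans (hterm ω hω).1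
  obtain ⟨D0, M0, h1, h2⟩ := popular (J := J) T (fun ω => (D ω).map (lift (σ ω)))
    (fun ω => up (N1 ω)) hα hb0 hb1 (g := g) (by
      rw [hb, div_mul_eq_mul_div, div_le_iff₀ (by positivity)]
      exact mul_le_mul_of_nonneg_left (pow_le_pow_right₀ one_le_two hJ) hg0.le) hT hrk
  set O : Ω → Prop := Ev T (fun ω => (D ω).map (lift (σ ω))) (fun ω => up (N1 ω)) D0 M0 with hO
  have hp : 0 < α * b ^ r := by positivity
  have hμ : 0 < 𝔼 ω, ind (O ω) := hp.trans_le h1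
  obtain ⟨ω0, -, hω0⟩ := exists_of_expect_ind_pos hμ
  have hev : ∀ d ∈ D0, (fun p : X × F2 => β p.1) ⬝ᵥ d = 0 := fun d hd => by
    refine (Fou.zmod2 _).resolve_right fun h3 => ?_
    have h4 : 𝔼 ω, ind (O ω) ≤ 𝔼 ω, ind (T ω ∧ d ∈ (D ω).map (lift (σ ω))) :=
      expect_le_expect fun ω _ => ind_mono fun h5 => ⟨h5.1, h5.2.1 hd⟩
    have := hU d h3
    linarith
  have : Nonempty {ω // O ω} := ⟨⟨ω0, hω0⟩⟩
  have : Nonempty {c : J → F2 // ψ ⬝ᵥ c = 0} := ⟨⟨0, dotProduct_zero _⟩⟩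
  have hsh' : ∀ ω (N : Mat J X) c, ψ ⬝ᵥ c = 0 → lb ω N =
      ((lb ω (N + vecMulVec c β)).1, (lb ω (N + vecMulVec c β)).2.image (· + e c)) :=
    fun ω N c hc => by rw [← hsh ω _ c hc, add_assoc, mat_add_self, add_zero]
  have key := h J (X × F2) ({ω // O ω} × {c : J → F2 // ψ ⬝ᵥ c = 0}) Λ ψ t r η δ
    (2 * (t : ℝ) ^ 2 / 2 ^ Fintype.card J) ϑ D0 M0 (fun θ => (D θ.1).map (lift (σ θ.1)))
    (fun θ => up (N1 θ.1) + vecMulVec θ.2.1 fun p : X × F2 => β p.1)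
    (fun θ => univ.filter fun N => rho (σ θ.1) N + vecMulVec θ.2.1 β ∈ Y θ.1)
    (fun θ N => (lb θ.1 (rho (σ θ.1) N)).2) (fun θ => s.image (· + e θ.2)) hψ (hη0.le.trans hη) hδ
    hϑ0.le hϑ1 (fun θ => hrk _ θ.1.2.1) (fun θ => θ.1.2.2.1) (fun θ d hd => ?_)
    (fun θ N => hL _ _) (fun θ => ?_) ?_ ?_ ?_
  · have h3 : η0 ^ 2 ≤ η ^ 2 := pow_le_pow_left₀ hη0.le hη 2
    have h4 : ϑ ^ 2 ≤ ϑ := by nlinarith
    have h5 : 0 < η0 ^ 2 := by positivity
    nlinarith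
  · rw [add_mulVec, θ.1.2.2.2 d hd, vecMulVec_mulVec, hev d hd]
    simp
  · refine atom_lift (σ θ.1) (vecMulVec θ.2.1 β) _ ?_ _ _ (fun z => z - e θ.2) (fun N z => ?_)
      (fun z hz hz' => hz (mem_image.2 ⟨_, hz', sub_add_cancel _ _⟩)) (hY _ θ.1.2.1).2
    · rw [map_add, add_assoc]
      exact (congrArg _ (mat_add_self (vecMulVec θ.2.1 β))).trans (add_zero _)
    · rw [hsh' θ.1 _ _ θ.2.2, mem_image]
      exact ⟨fun ⟨w, hw, hz⟩ => by rwa [← hz, add_sub_cancel_right],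
        fun hz => ⟨_, hz, sub_add_cancel _ _⟩⟩
  · have h3 : ∀ θ : {ω // O ω} × {c : J → F2 // ψ ⬝ᵥ c = 0},
        𝔼 θ' : {ω // O ω} × {c : J → F2 // ψ ⬝ᵥ c = 0},
          ind ((D θ.1).map (lift (σ θ.1)) ⊓ (D θ'.1).map (lift (σ θ'.1)) ≠ D0) ≤ 2 ^ r * g := by
      intro θ
      let S : Finset (X × F2 → F2) :=
        univ.filter fun d => d ∈ (D θ.1).map (lift (σ θ.1)) ∧ d ∉ D0
      have hS : (S.card : ℝ) ≤ 2 ^ r := by
        have h4 : S.card ≤ Nat.card ((D θ.1).map (lift (σ θ.1))) := by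
          rw [Nat.card_eq_fintype_card, Fintype.card_subtype]
          exact card_le_card fun d hd => mem_filter.2 ⟨mem_univ _, (mem_filter.1 hd).2.1⟩
        rw [card_sub] at h4
        exact_mod_cast h4.trans (Nat.pow_le_pow_right two_pos (hrk _ θ.1.2.1))
      calc _ ≤ 𝔼 θ' : {ω // O ω} × {c : J → F2 // ψ ⬝ᵥ c = 0},
            ∑ d ∈ S, ind (d ∈ (D θ'.1).map (lift (σ θ'.1))) := by
            refine expect_le_expect fun θ' _ => (ind_mono fun hne => ?_).trans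
              (ind_exists_mem_le _ _)
            by_contra hc
            refine hne (le_antisymm (fun d hd => ?_) (le_inf θ.1.2.2.1 θ'.1.2.2.1))
            by_contra hd0
            exact hc ⟨d, mem_filter.2 ⟨mem_univ _, hd.1, hd0⟩, hd.2⟩
        _ ≤ ∑ _d ∈ S, g := by
            rw [expect_sum_comm]
            refine sum_le_sum fun d hd => ?_
            rw [Fou.expect_prod_type]
            simp only [expect_const univ_nonempty]
            refine le_of_mul_le_mul_right ?_ hμ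
            rw [cond O fun ω => d ∈ (D ω).map (lift (σ ω))]
            exact h2 d (mem_filter.1 hd).2.2
        _ ≤ 2 ^ r * g := by
            rw [sum_const, nsmul_eq_mul]
            exact mul_le_mul_of_nonneg_right hS hg0.le
    calc _ ≤ (2 : ℝ) ^ (mm * r) * (2 ^ r * g) :=
          mul_le_mul (pow_le_pow_right₀ one_le_two (Nat.mul_le_mul_right _ hJ))
            (expect_le univ_nonempty fun θ _ => h3 θ)
            (expect_nonneg fun _ _ => expect_ind_nonneg _ _) (by positivity)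
      _ = ϑ ^ 2 := by rw [hg]; field_simp
  · refine expect_le univ_nonempty fun θ _ => ?_
    rw [Fou.expect_prod_type]
    exact expect_le univ_nonempty fun ω _ => coinc hψ e he s hs _
  · intro θ θ' a ha N hN y hN'
    refine hedge θ.1 θ'.1 a ha (gr (σ θ.1) y) _ _ (fun x hx j => ?_) ?_
    · change N j (x, σ θ'.1 x) + a j * y (x, σ θ'.1 x) = N j (x, σ θ.1 x) + a j * y (x, σ θ.1 x)
      rw [hx]
    · rw [hsh' θ.1 _ _ θ.2.2, hsh' θ'.1 _ _ θ'.2.2]
      exact ((hY _ θ.1.2.1).1 _ (mem_filter.1 hN).2).trans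
        ((hY _ θ'.1.2.1).1 _ (mem_filter.1 hN').2).symm

end Vale.Agent.P342
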